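import Vale.Agent.P032.H630.Del
import Vale.Agent.P032.S5.H12.Inn

/-!
# P032: chain algebra of delta pairs

`z₀ = x x'|c d`, `z₁ = x e|x' c`, `|z₀ - z₁| = 1` (delta pair, `Del`), the exact `x' c`-arc of `S(z₁)`
which starts at `z₀` ends at `z₂`, and `(z₁, z₂)` is a delta pair again.

* `Irr.arc_sin`, `Irr.ori_arc`: along an arc of `S(z)` with the colours `a, b` the inner colour is
  constant, and no exact `cd`-point and no antipode of it is on the arc;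
* `Del.step`: everything at `z₂` is determined by `z₀`, `z₁` up to one binary choice
  (`e₁ = d` or `e₁ = f`) in each of the two cases
  - equal steps (`y = c`, `y' = x'`: the shared outer (D1) or inner (D2) colour `x'` is shared again):
    `σ₁ = σ₀`, `c₁ = e`, `d₁ = x`, so `T z₂ = {c, e₁, x', e}`;
  - different steps (`y = x'`, `y' = c`): `σ₁ = -σ₀`, `c₁ = x`, `d₁ = e`, so `T z₂ = {x', e₁, c, x}`.
* `Del.letters`: the letters beyond `z₀` and beyond `z₂` on `S(z₁)` are `d` (with `x`) and `e₁`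
  (with `c₁`).
-/

open Set Filter Topology Metric

noncomputable section

namespace Vale.Agent.P032.Six

section gen

variable {k : ℕ} {U : Fin k → Set ℂ} {T : ℂ → Set (Fin k)}

/-- an arc of `S(z)` whose points have the colours `a, b` does not cross the line of a `cd`-point -/
theorem Irr.arc_sin (h : Irr U T) {z V : ℂ} {a b c d : Fin k} (hz : DPt T z a b c d)
    (hV : dist V z = 1) {ρ l φ : ℝ} (hl : 0 ≤ l)
    (harc : ∀ t ∈ Icc 0 l, a ∈ T (hb z V ρ t) ∧ b ∈ T (hb z V ρ t))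
    (hg : T (an z V φ) = {c, d}) : 0 < Real.sin φ * Real.sin (φ - ρ * l) := by
  have hne : ∀ t ∈ Icc 0 l, Real.sin (φ - ρ * t) ≠ 0 := by
    intro t ht h0
    obtain ⟨ha, hb'⟩ := harc t ht
    have h1 := h.cr_ne_zero hz (q := an z V φ) (v := hb z V ρ t) (dist_an hV φ) (dist_hb hV ρ t)
      ha hb' (by rw [hg]; simp) (by rw [hg]; simp) (by
        intro hcon
        rw [← hcon, hg] at ha
        rcases ha with h2 | h2
        · exact hz.ac h2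
        · exact hz.ad (mem_singleton_iff.1 h2))
    rw [hb_eq_an, cr_an hV] at h1
    apply h1
    rw [show ρ * t - φ = -(φ - ρ * t) by ring, Real.sin_neg, h0, neg_zero]
  have hcont : ContinuousOn (fun t : ℝ => Real.sin (φ - ρ * t)) (Icc 0 l) := by fun_prop
  by_contra hcon
  push Not at hcon
  have h0 := hne 0 ⟨le_refl _, hl⟩
  have h1 := hne l ⟨hl, le_refl _⟩
  rw [mul_zero, sub_zero] at h0
  rcases lt_or_gt_of_ne h0 with h2 | h2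
  · have h3 : 0 < Real.sin (φ - ρ * l) := by
      rcases lt_or_gt_of_ne h1 with h4 | h4
      · nlinarith
      · exact h4
    obtain ⟨t, ht, h4⟩ := intermediate_value_Icc hl hcont
      (show (0 : ℝ) ∈ Icc _ _ from ⟨by simpa using h2.le, h3.le⟩)
    exact hne t ht h4
  · have h3 : Real.sin (φ - ρ * l) < 0 := by
      rcases lt_or_gt_of_ne h1 with h4 | h4
      · exact h4
      · nlinarith
    obtain ⟨t, ht, h4⟩ := intermediate_value_Icc' hl hcont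
      (show (0 : ℝ) ∈ Icc _ _ from ⟨h3.le, by simpa using h2.le⟩)
    exact hne t ht h4

theorem Ori.swap12 {z g : ℂ} {a b : Fin k} {σ : ℝ} (h : Ori U z g a b σ) :
    Ori U z g b a (-σ) := by
  rcases h with ⟨rfl, hs⟩ | ⟨rfl, hs⟩
  · exact Or.inr ⟨rfl, hs⟩
  · exact Or.inl ⟨by norm_num, hs⟩

theorem Irr.ori_unique (h : Irr U T) {z g : ℂ} {a b : Fin k} {σ σ' : ℝ} (ha : a ∈ T g)
    (h1 : Ori U z g a b σ) (h2 : Ori U z g a b σ') : σ = σ' := by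
  rcases h1 with ⟨rfl, s1⟩ | ⟨rfl, s1⟩ <;> rcases h2 with ⟨rfl, s2⟩ | ⟨rfl, s2⟩
  · rfl
  · exact (h.sd_unique ha s1 s2).elim
  · exact (h.sd_unique ha s2 s1).elim
  · rfl

/-- the orientation is constant along an arc with the colours `a, b` -/
theorem Irr.ori_arc (h : Irr U T) {z V : ℂ} {a b c d : Fin k} (hz : DPt T z a b c d)
    (hV : dist V z = 1) {ρ l σ : ℝ} (hl : 0 ≤ l)
    (harc : ∀ t ∈ Icc 0 l, a ∈ T (hb z V ρ t) ∧ b ∈ T (hb z V ρ t)) (ho : Ori U z V a b σ) :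
    Ori U z (hb z V ρ l) a b σ := by
  obtain ⟨p, hp⟩ := hz.arc2
  obtain ⟨φ, hφ⟩ : ∃ φ, p = an z V φ := by
    have hn : ‖V - z‖ = 1 := by rw [← dist_eq_norm]; exact hV
    have hp' : ‖p - z‖ = 1 := by rw [← dist_eq_norm]; exact hp.1
    have hne : V - z ≠ 0 := by
      intro h0; rw [h0, norm_zero] at hn; exact zero_ne_one hn
    obtain ⟨φ, hφ⟩ := exists_cis (u := (p - z) / (V - z)) (by rw [norm_div, hn, hp', div_one])
    refine ⟨φ, ?_⟩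
    have : p - z = (V - z) * cis φ := by rw [← hφ]; field_simp
    unfold an
    linear_combination this
  subst hφ
  have h0 : hb z V ρ 0 = V := by rw [hb_eq_an, mul_zero, an_zero]
  have hs := h.arc_sin hz hV hl harc hp.mem
  have a0 := (harc 0 ⟨le_refl _, hl⟩).1
  rw [h0] at a0
  have al := (harc l ⟨hl, le_refl _⟩).1
  have c0 : cr (an z V φ - z) (V - z) = -Real.sin φ := by
    have := cr_an hV φ 0
    rwa [an_zero, zero_sub, Real.sin_neg] at this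
  have c1 : cr (an z V φ - z) (hb z V ρ l - z) = -Real.sin (φ - ρ * l) := by
    rw [hb_eq_an, cr_an hV, ← Real.sin_neg]; congr 1; ring
  have n0 : cr (an z V φ - z) (V - z) ≠ 0 := by
    rw [c0, neg_ne_zero]; intro h5; rw [h5, zero_mul] at hs; exact lt_irrefl _ hs
  have n1 : cr (an z V φ - z) (hb z V ρ l - z) ≠ 0 := by
    rw [c1, neg_ne_zero]; intro h5; rw [h5, mul_zero] at hs; exact lt_irrefl _ hs
  have key := (h.sd_iff hz hp hV (dist_hb hV ρ l) a0 al n0 n1).2 (by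
    rw [c0, c1, neg_mul_neg]; exact hs)
  rcases ho with ⟨rfl, s1⟩ | ⟨rfl, s1⟩
  · exact Or.inl ⟨rfl, key.1 s1⟩
  · rcases h.sides hz (dist_hb hV ρ l) with s2 | s2
    · exact (h.sd_unique a0 (key.2 s2) s1).elim
    · exact Or.inr ⟨rfl, s2⟩

/-- the reverse half branch -/
theorem hb_rev (z V : ℂ) (ρ l t : ℝ) : hb z (hb z V ρ l) (-ρ) t = hb z V ρ (l - t) := by
  rw [hb_eq_an, hb_eq_an, hb_eq_an, an_an]
  congr 1; ring

end gen

variable {U : Fin 6 → Set ℂ} {T : ℂ → Set (Fin 6)} {z₀ z₁ z₂ : ℂ}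
  {x x' c d e f y y' c₁ d₁ e₁ f₁ : Fin 6} {ρ₀ σ₀ ρ₁ σ₁ l : ℝ}

/-- the colours at the next centre -/
theorem chain_comb (nd' : [y, y', c₁, d₁, e₁, f₁].Nodup)
    (hcov : ∀ i, i = x ∨ i = x' ∨ i = c ∨ i = d ∨ i = e ∨ i = f)
    (hp : ({x, e, x', c} : Set (Fin 6)) = {y, y', c₁, d₁})
    (hyy : ({y, y'} : Set (Fin 6)) = {c, x'}) :
    ((y = c ∧ y' = x') ∨ (y = x' ∧ y' = c)) ∧ ((c₁ = x ∧ d₁ = e) ∨ (c₁ = e ∧ d₁ = x)) ∧
      ((e₁ = d ∧ f₁ = f) ∨ (e₁ = f ∧ f₁ = d)) := by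
  simp only [List.nodup_cons, List.mem_cons, List.not_mem_nil, not_or, or_false,
    not_false_eq_true, List.nodup_nil, and_true] at nd'
  obtain ⟨⟨b1, b2, b3, b4, b5⟩, ⟨b6, b7, b8, b9⟩, ⟨b10, b11, b12⟩, ⟨b13, b14⟩, b15⟩ := nd'
  have hy : y = c ∨ y = x' := by
    have : y ∈ ({c, x'} : Set (Fin 6)) := by rw [← hyy]; simp
    simpa using this
  have hy' : y' = c ∨ y' = x' := by
    have : y' ∈ ({c, x'} : Set (Fin 6)) := by rw [← hyy]; simp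
    simpa using this
  have hm : ∀ i, (i = c ∨ i = x') → i = y ∨ i = y' := by
    intro i hi
    have : i ∈ ({y, y'} : Set (Fin 6)) := by rw [hyy]; simpa using hi
    simpa using this
  have key : ∀ i, i ∈ ({x, e, x', c} : Set (Fin 6)) → i ≠ y → i ≠ y' → i = x ∨ i = e := by
    intro i hi h1 h2
    simp only [mem_insert_iff, mem_singleton_iff] at hi
    rcases hi with h3 | h3 | h3 | h3
    · exact Or.inl h3
    · exact Or.inr h3
    · rcases hm i (Or.inr h3) with h4 | h4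
      · exact absurd h4 h1
      · exact absurd h4 h2
    · rcases hm i (Or.inl h3) with h4 | h4
      · exact absurd h4 h1
      · exact absurd h4 h2
  have k1 : c₁ = x ∨ c₁ = e := key c₁ (by rw [hp]; simp) (Ne.symm b2) (Ne.symm b6)
  have k2 : d₁ = x ∨ d₁ = e := key d₁ (by rw [hp]; simp) (Ne.symm b3) (Ne.symm b7)
  have key2 : ∀ i, i ≠ y → i ≠ y' → i ≠ c₁ → i ≠ d₁ → i = d ∨ i = f := by
    intro i h1 h2 h3 h4
    have h5 : i ∉ ({x, e, x', c} : Set (Fin 6)) := by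
      rw [hp]
      simp only [mem_insert_iff, mem_singleton_iff, not_or]
      exact ⟨h1, h2, h3, h4⟩
    simp only [mem_insert_iff, mem_singleton_iff, not_or] at h5
    rcases hcov i with h6 | h6 | h6 | h6 | h6 | h6
    · exact absurd h6 h5.1
    · exact absurd h6 h5.2.2.1
    · exact absurd h6 h5.2.2.2
    · exact Or.inl h6
    · exact absurd h6 h5.2.1
    · exact Or.inr h6
  have k3 := key2 e₁ (Ne.symm b4) (Ne.symm b8) (Ne.symm b11) (Ne.symm b13)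
  have k4 := key2 f₁ (Ne.symm b5) (Ne.symm b9) (Ne.symm b12) (Ne.symm b14)
  refine ⟨?_, ?_, ?_⟩
  · rcases hy with h1 | h1 <;> rcases hy' with h2 | h2
    · exact absurd (h1.trans h2.symm) b1
    · exact Or.inl ⟨h1, h2⟩
    · exact Or.inr ⟨h1, h2⟩
    · exact absurd (h1.trans h2.symm) b1
  · rcases k1 with h1 | h1 <;> rcases k2 with h2 | h2
    · exact absurd (h1.trans h2.symm) b10
    · exact Or.inl ⟨h1, h2⟩
    · exact Or.inr ⟨h1, h2⟩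
    · exact absurd (h1.trans h2.symm) b10
  · rcases k3 with h1 | h1 <;> rcases k4 with h2 | h2
    · exact absurd (h1.trans h2.symm) b15
    · exact Or.inl ⟨h1, h2⟩
    · exact Or.inr ⟨h1, h2⟩
    · exact absurd (h1.trans h2.symm) b15

theorem Del.prod (D₀ : Del U T z₀ z₁ x x' c d e f ρ₀ σ₀) : ρ₀ * σ₀ = 1 ∨ ρ₀ * σ₀ = -1 := by
  rcases D₀.hρ with h1 | h1 <;> rcases D₀.hσ with h2 | h2 <;> rw [h1, h2] <;> norm_num

theorem Del.cx' (D₀ : Del U T z₀ z₁ x x' c d e f ρ₀ σ₀) : c ≠ x' := by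
  have nd := D₀.nd
  simp only [List.nodup_cons, List.mem_cons, List.not_mem_nil, not_or, or_false,
    not_false_eq_true, List.nodup_nil, and_true] at nd
  exact Ne.symm nd.2.1.1

theorem Del.e_not (D₀ : Del U T z₀ z₁ x x' c d e f ρ₀ σ₀) : e ∉ T z₀ := by
  have nd := D₀.nd
  simp only [List.nodup_cons, List.mem_cons, List.not_mem_nil, not_or, or_false,
    not_false_eq_true, List.nodup_nil, and_true] at nd
  rw [D₀.hz.pal]
  simp only [mem_insert_iff, mem_singleton_iff, not_or]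
  exact ⟨Ne.symm nd.1.2.2.2.1, Ne.symm nd.2.1.2.2.1, Ne.symm nd.2.2.1.2.1, Ne.symm nd.2.2.2.1.1⟩

/-- direction and colours of the special arc at its second end -/
theorem Del.arc_dir (h : Irr U T) (D₀ : Del U T z₀ z₁ x x' c d e f ρ₀ σ₀)
    (D₁ : Del U T z₁ z₂ y y' c₁ d₁ e₁ f₁ ρ₁ σ₁) (hl : 0 < l)
    (hz₂ : z₂ = hb z₁ z₀ (ρ₀ * σ₀) l)
    (harc : ∀ t ∈ Ioo 0 l, T (hb z₁ z₀ (ρ₀ * σ₀) t) = {c, x'}) :
    ρ₁ = -(ρ₀ * σ₀) ∧ ({y, y'} : Set (Fin 6)) = {c, x'} := by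
  have hsmall : ∀ᶠ t : ℝ in 𝓝[>] 0, T (hb z₁ z₂ (-(ρ₀ * σ₀)) t) = {c, x'} := by
    have h1 : ∀ᶠ t : ℝ in 𝓝[>] 0, t ∈ Ioo 0 l := Ioo_mem_nhdsGT hl
    filter_upwards [h1] with t ht
    rw [hz₂, hb_rev]
    exact harc _ ⟨by linarith [ht.2], by linarith [ht.1]⟩
  have hρ₁ : ρ₁ = -(ρ₀ * σ₀) := by
    have h1 : ρ₁ = -(ρ₀ * σ₀) ∨ ρ₁ = ρ₀ * σ₀ := by
      rcases D₁.hρ with h1 | h1 <;> rcases D₀.prod with h2 | h2 <;> rw [h1, h2] <;> norm_num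
    rcases h1 with h1 | h1
    · exact h1
    · exfalso
      have h2 := D₁.beyond h
      rw [h1] at h2
      obtain ⟨t, h3, h4, h5⟩ := (hsmall.and h2).exists
      rw [h3] at h4 h5
      apply D₁.e_not
      rw [D₀.hDV.pal]
      rcases h5 with h5 | h5
      · rw [h5]; simp
      · rw [mem_singleton_iff] at h5; rw [h5]; simp
  refine ⟨hρ₁, ?_⟩
  have h2 := D₁.ex
  rw [hρ₁] at h2
  obtain ⟨t, h3, h4⟩ := (hsmall.and h2).exists
  rw [← h3, ← h4]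

/-- the colours on the closed special arc -/
theorem Del.arc_closed (D₀ : Del U T z₀ z₁ x x' c d e f ρ₀ σ₀)
    (D₁ : Del U T z₁ z₂ y y' c₁ d₁ e₁ f₁ ρ₁ σ₁)
    (hz₂ : z₂ = hb z₁ z₀ (ρ₀ * σ₀) l)
    (harc : ∀ t ∈ Ioo 0 l, T (hb z₁ z₀ (ρ₀ * σ₀) t) = {c, x'})
    (hyy : ({y, y'} : Set (Fin 6)) = {c, x'}) :
    ∀ t ∈ Icc 0 l, c ∈ T (hb z₁ z₀ (ρ₀ * σ₀) t) ∧ x' ∈ T (hb z₁ z₀ (ρ₀ * σ₀) t) := by
  intro t ht
  rcases eq_or_lt_of_le ht.1 with h1 | h1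
  · rw [← h1, hb_eq_an, mul_zero, an_zero, D₀.hz.pal]
    simp
  · rcases eq_or_lt_of_le ht.2 with h2 | h2
    · rw [h2, ← hz₂]
      have h6 : c ∈ ({y, y'} : Set (Fin 6)) := by rw [hyy]; simp
      have h7 : x' ∈ ({y, y'} : Set (Fin 6)) := by rw [hyy]; simp
      rw [D₁.hDV.pal]
      constructor
      · rcases h6 with h6 | h6
        · rw [h6]; simp
        · rw [mem_singleton_iff] at h6; rw [h6]; simp
      · rcases h7 with h7 | h7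
        · rw [h7]; simp
        · rw [mem_singleton_iff] at h7; rw [h7]; simp
    · rw [harc t ⟨h1, h2⟩]; simp

/-- the two ends of the special arc are different -/
theorem Del.arc_ne (D₀ : Del U T z₀ z₁ x x' c d e f ρ₀ σ₀) (hl : 0 < l) (hl' : l < Real.pi)
    (hz₂ : z₂ = hb z₁ z₀ (ρ₀ * σ₀) l) : z₂ ≠ z₀ := by
  intro hcon
  have h1 : cr (z₀ - z₁) (z₂ - z₁) = Real.sin (ρ₀ * σ₀ * l) := by
    rw [hz₂, hb_eq_an, cr_an' D₀.Vz]
  rw [hcon] at h1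
  have h2 : cr (z₀ - z₁) (z₀ - z₁) = 0 := by unfold cr; ring
  rw [h2] at h1
  have h3 := Real.sin_pos_of_pos_of_lt_pi hl hl'
  rcases D₀.prod with h4 | h4
  · rw [h4, one_mul] at h1; linarith
  · rw [h4, neg_one_mul, Real.sin_neg] at h1; linarith

/-- in the case of different steps the visitor of the second end is not `e` -/
theorem Del.mixed_ne (h : Irr U T) (D₀ : Del U T z₀ z₁ x x' c d e f ρ₀ σ₀)
    (D₁ : Del U T z₁ z₂ x' c e x e₁ f₁ (-(ρ₀ * σ₀)) (-σ₀)) (hl : 0 < l)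
    (hz₂ : z₂ = hb z₁ z₀ (ρ₀ * σ₀) l)
    (hclosed : ∀ t ∈ Icc 0 l, c ∈ T (hb z₁ z₀ (ρ₀ * σ₀) t) ∧ x' ∈ T (hb z₁ z₀ (ρ₀ * σ₀) t)) :
    False := by
  obtain ⟨q0, q1⟩ := D₀.toVx.sq
  have hDz : DPt T z₁ c x' x e := D₀.hDV.swap.swap12
  obtain ⟨p, hp⟩ := D₀.hDV.arc1
  obtain ⟨φ, rfl⟩ := exists_an D₀.Vz hp.1
  obtain ⟨μ, hμ⟩ := h.exists_ori D₀.hDV (dist_an D₀.Vz φ)
  have s1 := D₀.toVx.side_sign h hp hμ
  have B := (D₁.symm h).toVx
  have e1 : an z₁ z₀ φ = an z₁ z₂ (φ - ρ₀ * σ₀ * l) := by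
    rw [hz₂, hb_eq_an, an_an]; congr 1; ring
  have s2 := B.side_sign h (φ := φ - ρ₀ * σ₀ * l) (μ := -μ) (by rw [← e1, pair_comm]; exact hp)
    (by rw [← e1]; exact hμ.swap12)
  have s3 := h.arc_sin hDz D₀.Vz hl.le hclosed (φ := φ) hp.mem
  have e2 : -μ * (-(ρ₀ * σ₀) * -σ₀) * Real.sin (φ - ρ₀ * σ₀ * l) =
      -(μ * ρ₀ * Real.sin (φ - ρ₀ * σ₀ * l)) * (σ₀ * σ₀) := by ring
  rw [e2, q1, mul_one] at s2
  have hμμ := hμ.sq
  have s4 : (μ * ρ₀ * Real.sin φ) * (μ * ρ₀ * Real.sin (φ - ρ₀ * σ₀ * l)) < 0 :=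
    mul_neg_of_neg_of_pos s1 (by linarith)
  have s5 : (μ * ρ₀ * Real.sin φ) * (μ * ρ₀ * Real.sin (φ - ρ₀ * σ₀ * l)) =
      (μ * μ) * (ρ₀ * ρ₀) * (Real.sin φ * Real.sin (φ - ρ₀ * σ₀ * l)) := by ring
  rw [s5, hμμ, q0, one_mul, one_mul] at s4
  linarith

/-- **Chain algebra.** -/
theorem Del.step (h : Irr U T) (D₀ : Del U T z₀ z₁ x x' c d e f ρ₀ σ₀)
    (D₁ : Del U T z₁ z₂ y y' c₁ d₁ e₁ f₁ ρ₁ σ₁) (hl : 0 < l) (hl' : l < Real.pi)
    (hz₂ : z₂ = hb z₁ z₀ (ρ₀ * σ₀) l)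
    (harc : ∀ t ∈ Ioo 0 l, T (hb z₁ z₀ (ρ₀ * σ₀) t) = {c, x'}) :
    ρ₁ = -(ρ₀ * σ₀) ∧
      ((y = c ∧ y' = x' ∧ σ₁ = σ₀ ∧ c₁ = e ∧ d₁ = x) ∨
        (y = x' ∧ y' = c ∧ σ₁ = -σ₀ ∧ c₁ = x ∧ d₁ = e)) ∧
      ((e₁ = d ∧ f₁ = f) ∨ (e₁ = f ∧ f₁ = d)) := by
  obtain ⟨hρ₁, hyy⟩ := D₀.arc_dir h D₁ hl hz₂ harc
  have hclosed := D₀.arc_closed D₁ hz₂ harc hyy
  have hne := D₀.arc_ne hl hl' hz₂
  have hDz : DPt T z₁ c x' x e := D₀.hDV.swap.swap12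
  have ho2 : Ori U z₁ z₂ c x' σ₀ := by
    rw [hz₂]
    exact h.ori_arc hDz D₀.Vz hl.le hclosed (D₀.symm h).ori
  have hcz : c ∈ T z₂ := by
    rw [hz₂]; exact (hclosed l ⟨hl.le, le_refl _⟩).1
  obtain ⟨k1, k2, k3⟩ := chain_comb D₁.nd D₀.cov (by rw [← D₀.hDV.pal, ← D₁.hz.pal]) hyy
  refine ⟨hρ₁, ?_, k3⟩
  rcases k1 with ⟨rfl, rfl⟩ | ⟨rfl, rfl⟩
  · left
    refine ⟨rfl, rfl, h.ori_unique hcz D₁.ori ho2, ?_⟩
    rcases k2 with ⟨rfl, rfl⟩ | ⟨rfl, rfl⟩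
    · exfalso
      exact hne (D₁.owner_V h D₀.hV D₀.hρ (by rw [pair_comm]; exact D₀.ex))
    · exact ⟨rfl, rfl⟩
  · right
    have hσ₁ : σ₁ = -σ₀ := by
      have h2 := h.ori_unique hcz D₁.ori.swap12 ho2
      linarith
    refine ⟨rfl, rfl, hσ₁, ?_⟩
    rcases k2 with ⟨rfl, rfl⟩ | ⟨rfl, rfl⟩
    · exact ⟨rfl, rfl⟩
    · exfalso
      subst hσ₁ hρ₁
      exact D₀.mixed_ne h D₁ hl hz₂ hclosed

/-- the letters beyond the two ends of the special arc of `z₁` -/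
theorem Del.letters (h : Irr U T) (D₀ : Del U T z₀ z₁ x x' c d e f ρ₀ σ₀)
    (D₁ : Del U T z₁ z₂ y y' c₁ d₁ e₁ f₁ ρ₁ σ₁) :
    (∀ᶠ t : ℝ in 𝓝[>] 0, T (hb z₁ z₀ (-(ρ₀ * σ₀)) t) ⊆ {d, x} ∧ d ∈ T (hb z₁ z₀ (-(ρ₀ * σ₀)) t)) ∧
      ∀ᶠ t : ℝ in 𝓝[>] 0, T (hb z₁ z₂ (-ρ₁) t) ⊆ {e₁, c₁} ∧ e₁ ∈ T (hb z₁ z₂ (-ρ₁) t) :=
  ⟨(D₀.symm h).beyond h, D₁.beyond h⟩

end Vale.Agent.P032.Six
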