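import Vale.Agent.P032.H820.Hull
import Vale.Agent.P032.H892.Dir
import Vale.Agent.P032.H892.Cross

/-!
# P032: the hub rule

Angles in units of 60 degrees; `pt z p`, direction sets `Dr T P c`.  `z` is a centre, `P = pt z p` a
three-coloured end of an exact arc of `S(z)`, `w = pt P q = P + (pt z q) - z`.

* `corner` : (wild) the point `P + Q - z` of two ends with complementary palettes has at least four
  colours;
* `side_near`, `side_far`, `dr_near`, `dr_far` : half planes of the directions of a colour;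
* `HubR`, `hub_x`, `hub_i` : the near/far rules at a start of an arc;
* `hub_lines` : three complementary ends are not on three different lines through `z`.
-/

open Set Filter Topology Metric

noncomputable section

namespace Vale.Agent.P032.H183

open Vale.Agent.P032.Six Vale.Agent.P032.Words Vale.Agent.P032.S5.H767 Vale.Agent.P032.H892

variable {U : Fin 6 → Set ℂ} {T : ℂ → Set (Fin 6)}

/-! ### half planes of directions -/

/-- the directions of a colour which is not outside `S(V)`, `V = pt P u` -/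
theorem dr_near {P : ℂ} {u θ : ℝ} {i : Fin 6} (hθ : θ ∈ Dr T P i)
    (hs : ∀ᶠ x in 𝓝 P, i ∈ T x → dist x (pt P u) ≤ 1) :
    0 ≤ Real.cos ((θ - u) * (Real.pi / 3)) := by
  by_contra hcon
  push Not at hcon
  rw [mem_dr] at hθ
  have h1 : ∀ᶠ p : ℝ × ℝ in 𝓝 ((0 : ℝ), θ), i ∈ T (po P p) → dist (po P p) (pt P u) ≤ 1 := by
    have := (continuous_po P).tendsto ((0 : ℝ), θ)
    rw [po_zero] at this
    exact this.eventually hs
  have h2 : ∀ᶠ p : ℝ × ℝ in 𝓝 ((0 : ℝ), θ), Real.cos ((p.2 - u) * (Real.pi / 3)) < 0 :=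
    (cosc u).continuousAt.eventually_lt_const hcon
  obtain ⟨p, hp, hp1, hp2⟩ := (hθ.and_eventually (h1.and h2)).exists
  have h3 := sq_dist_po P p.1 p.2 u
  have h4 := dist_nonneg (x := po P p) (y := pt P u)
  have h5 := hp.1
  have h6 := hp1 hp.2
  rw [show (p.1, p.2) = p from rfl] at h3
  have h7 : dist (po P p) (pt P u) ^ 2 ≤ 1 := by nlinarith
  rw [h3] at h7
  nlinarith

/-- the directions of a colour which is not inside `S(V)`, `V = pt P u` -/
theorem dr_far {P : ℂ} {u θ : ℝ} {i : Fin 6} (hθ : θ ∈ Dr T P i)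
    (hs : ∀ᶠ x in 𝓝 P, i ∈ T x → 1 ≤ dist x (pt P u)) :
    Real.cos ((θ - u) * (Real.pi / 3)) ≤ 0 := by
  by_contra hcon
  push Not at hcon
  set C := Real.cos ((θ - u) * (Real.pi / 3)) with hC
  rw [mem_dr] at hθ
  have h1 : ∀ᶠ p : ℝ × ℝ in 𝓝 ((0 : ℝ), θ), i ∈ T (po P p) → 1 ≤ dist (po P p) (pt P u) := by
    have := (continuous_po P).tendsto ((0 : ℝ), θ)
    rw [po_zero] at this
    exact this.eventually hs
  have h2 : ∀ᶠ p : ℝ × ℝ in 𝓝 ((0 : ℝ), θ), C / 2 < Real.cos ((p.2 - u) * (Real.pi / 3)) :=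
    (cosc u).continuousAt.eventually_const_lt (by show C / 2 < C; linarith)
  have h3 : ∀ᶠ p : ℝ × ℝ in 𝓝 ((0 : ℝ), θ), p.1 < C :=
    continuous_fst.continuousAt.eventually_lt_const hcon
  obtain ⟨p, hp, hp1, hp2, hp3⟩ := (hθ.and_eventually (h1.and (h2.and h3))).exists
  have h4 := sq_dist_po P p.1 p.2 u
  have h5 := dist_nonneg (x := po P p) (y := pt P u)
  have h6 := hp.1
  have h7 := hp1 hp.2
  rw [show (p.1, p.2) = p from rfl] at h4
  have h8 : 1 ≤ dist (po P p) (pt P u) ^ 2 := by nlinarith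
  rw [h4] at h8
  nlinarith

/-- a colour with points near `V` is near `V` -/
theorem side_near (h : Irr U T) {P V : ℂ} {c : Fin 6} (hct : Ctn U T P) (hV : c ∈ Pal U V)
    (hw : ∃ᶠ x in 𝓝 P, c ∈ T x ∧ dist x V < 1) : ∀ᶠ x in 𝓝 P, c ∈ T x → dist x V ≤ 1 := by
  rcases h.one_side hct hV with h1 | h1
  · exact h1
  · obtain ⟨x, ⟨hx, hd⟩, h2⟩ := (hw.and_eventually h1).exists
    exact absurd (h2 hx) (not_le.2 hd)

/-- a colour with points far from `V` is far from `V` -/
theorem side_far (h : Irr U T) {P V : ℂ} {c : Fin 6} (hct : Ctn U T P) (hV : c ∈ Pal U V)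
    (hw : ∃ᶠ x in 𝓝 P, c ∈ T x ∧ 1 < dist x V) : ∀ᶠ x in 𝓝 P, c ∈ T x → 1 ≤ dist x V := by
  rcases h.one_side hct hV with h1 | h1
  · obtain ⟨x, ⟨hx, hd⟩, h2⟩ := (hw.and_eventually h1).exists
    exact absurd (h2 hx) (not_le.2 hd)
  · exact h1

/-- directions only for the colours of the palette -/
theorem dr_pal (h : Irr U T) {P : ℂ} {θ : ℝ} {c : Fin 6} (hθ : θ ∈ Dr T P c) : c ∈ T P := by
  by_contra hcon
  rw [mem_dr] at hθ
  have h1 : ∀ᶠ p : ℝ × ℝ in 𝓝 ((0 : ℝ), θ), T (po P p) ⊆ T P := by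
    have := (continuous_po P).tendsto ((0 : ℝ), θ)
    rw [po_zero] at this
    exact this.eventually (h.nhd P)
  obtain ⟨p, hp, hp1⟩ := (hθ.and_eventually h1).exists
  exact hcon (hp1 hp.2)

/-! ### distances along the circle -/

/-- the distance of a point of `S(z)` to `P + Q - z` -/
theorem sq_dist_corner (z : ℂ) (p q t : ℝ) : dist (pt z t) (pt (pt z p) q) ^ 2 - 1 =
    -8 * Real.cos ((q - p) / 2 * (Real.pi / 3)) * Real.sin ((t - p) / 2 * (Real.pi / 3)) *
      Real.sin ((q - t) / 2 * (Real.pi / 3)) := by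
  rw [sq_dist]
  unfold pt
  simp only [Complex.add_re, Complex.add_im, cis_re, cis_im]
  set A := p * (Real.pi / 3) with hA
  set B := q * (Real.pi / 3) with hB
  set X := t * (Real.pi / 3) with hX
  have e1 : (q - p) / 2 * (Real.pi / 3) = (B - A) / 2 := by rw [hA, hB]; ring
  have e2 : (t - p) / 2 * (Real.pi / 3) = (X - A) / 2 := by rw [hA, hX]; ring
  have e3 : (q - t) / 2 * (Real.pi / 3) = (B - X) / 2 := by rw [hB, hX]; ring
  rw [e1, e2, e3]
  have h1 := Real.cos_add_cos (X - A) (B - X)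
  have h2 := Real.cos_sub_cos (X - (A + B) / 2) ((B - A) / 2)
  have h3 : Real.cos (B - A) = 2 * Real.cos ((B - A) / 2) ^ 2 - 1 := by
    rw [← Real.cos_two_mul]; ring_nf
  have h4 : Real.sin ((X - (A + B) / 2 - (B - A) / 2) / 2) = - Real.sin ((B - X) / 2) := by
    rw [← Real.sin_neg]; ring_nf
  have e4 : (X - A + (B - X)) / 2 = (B - A) / 2 := by ring
  have e5 : (X - A - (B - X)) / 2 = X - (A + B) / 2 := by ring
  have e6 : (X - (A + B) / 2 + (B - A) / 2) / 2 = (X - A) / 2 := by ring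
  rw [e4, e5] at h1
  rw [e6, h4] at h2
  have c1 := Real.cos_sub B A
  have c2 := Real.cos_sub X A
  have c3 := Real.cos_sub B X
  have pA := Real.sin_sq_add_cos_sq A
  have pB := Real.sin_sq_add_cos_sq B
  have pX := Real.sin_sq_add_cos_sq X
  have key : (Real.cos X - (Real.cos A + Real.cos B)) ^ 2 + (Real.sin X - (Real.sin A + Real.sin B)) ^ 2 - 1 =
      2 + 2 * Real.cos (B - A) - 2 * Real.cos (X - A) - 2 * Real.cos (B - X) := by
    rw [c1, c2, c3]; linear_combination pA + pB + pX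
  have key2 : 2 + 2 * Real.cos (B - A) - 2 * Real.cos (X - A) - 2 * Real.cos (B - X) =
      -8 * Real.cos ((B - A) / 2) * Real.sin ((X - A) / 2) * Real.sin ((B - X) / 2) := by
    linear_combination 2 * h3 - 2 * h1 - 4 * Real.cos ((B - A) / 2) * h2
  rw [← key2, ← key]
  ring

/-- signs of the distances to a corner, arc on the side towards the corner -/
theorem ev_pos (z : ℂ) {p q s : ℝ} (hs : s = 1 ∨ s = -1) (hq : 0 < s * Real.sin ((q - p) * (Real.pi / 3))) :
    (∀ᶠ r in 𝓝[>] (0 : ℝ), dist (pt z (p + s * r)) (pt (pt z p) q) < 1) ∧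
      ∀ᶠ r in 𝓝[>] (0 : ℝ), 1 < dist (pt z (p - s * r)) (pt (pt z p) q) := by
  have hpi := Real.pi_pos
  have e0 : Real.sin ((q - p) * (Real.pi / 3)) =
      2 * Real.sin ((q - p) / 2 * (Real.pi / 3)) * Real.cos ((q - p) / 2 * (Real.pi / 3)) := by
    rw [← Real.sin_two_mul]; ring_nf
  have hc : Continuous fun t : ℝ => s * (Real.cos ((q - p) / 2 * (Real.pi / 3)) *
      Real.sin ((q - t) / 2 * (Real.pi / 3))) := by fun_prop
  have hpos : ∀ᶠ t in 𝓝 p, 0 < s * (Real.cos ((q - p) / 2 * (Real.pi / 3)) *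
      Real.sin ((q - t) / 2 * (Real.pi / 3))) := by
    refine hc.continuousAt.eventually_const_lt ?_
    rw [e0] at hq
    nlinarith
  have key : ∀ σ : ℝ, ∀ᶠ r in 𝓝[>] (0 : ℝ), 0 < s * (Real.cos ((q - p) / 2 * (Real.pi / 3)) *
      Real.sin ((q - (p + σ * r)) / 2 * (Real.pi / 3))) := by
    intro σ
    have ht : Tendsto (fun r : ℝ => p + σ * r) (𝓝[>] 0) (𝓝 p) := by
      have : Continuous fun r : ℝ => p + σ * r := by fun_prop
      have h2 := this.tendsto 0
      simp only [mul_zero, add_zero] at h2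
      exact h2.mono_left nhdsWithin_le_nhds
    exact ht.eventually hpos
  have hr : ∀ᶠ r in 𝓝[>] (0 : ℝ), 0 < r ∧ r < 1 := by
    filter_upwards [self_mem_nhdsWithin, mem_nhdsWithin_of_mem_nhds (Iio_mem_nhds (show (0:ℝ) < 1 by norm_num))]
      with r a b using ⟨a, b⟩
  have hsin : ∀ r : ℝ, 0 < r → r < 1 → 0 < Real.sin (r / 2 * (Real.pi / 3)) := fun r h1 h2 =>
    Real.sin_pos_of_pos_of_lt_pi (by positivity) (by nlinarith)
  have hss : s * s = 1 := by rcases hs with rfl | rfl <;> norm_num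
  have hodd : ∀ r : ℝ, Real.sin (s * r / 2 * (Real.pi / 3)) = s * Real.sin (r / 2 * (Real.pi / 3)) := by
    intro r
    rcases hs with rfl | rfl
    · simp
    · have : (-1 : ℝ) * r / 2 * (Real.pi / 3) = -(r / 2 * (Real.pi / 3)) := by ring
      rw [this, Real.sin_neg]; ring
  constructor
  · filter_upwards [key s, hr] with r h1 h2
    have e := sq_dist_corner z p q (p + s * r)
    rw [show (p + s * r - p) / 2 = s * r / 2 by ring, hodd] at e
    have h3 := hsin r h2.1 h2.2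
    have h4 := mul_pos h1 h3
    have h5 := dist_nonneg (x := pt z (p + s * r)) (y := pt (pt z p) q)
    nlinarith
  · filter_upwards [key (-s), hr] with r h1 h2
    have e := sq_dist_corner z p q (p - s * r)
    rw [show (p - s * r - p) / 2 * (Real.pi / 3) = -(s * r / 2 * (Real.pi / 3)) by ring, Real.sin_neg, hodd] at e
    rw [show p + -s * r = p - s * r by ring] at h1
    have h3 := hsin r h2.1 h2.2
    have h4 := mul_pos h1 h3
    have h5 := dist_nonneg (x := pt z (p - s * r)) (y := pt (pt z p) q)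
    nlinarith

/-- signs of the distances to a corner, arc on the other side -/
theorem ev_neg (z : ℂ) {p q s : ℝ} (hs : s = 1 ∨ s = -1) (hq : s * Real.sin ((q - p) * (Real.pi / 3)) < 0) :
    (∀ᶠ r in 𝓝[>] (0 : ℝ), 1 < dist (pt z (p + s * r)) (pt (pt z p) q)) ∧
      ∀ᶠ r in 𝓝[>] (0 : ℝ), dist (pt z (p - s * r)) (pt (pt z p) q) < 1 := by
  have h := ev_pos z (p := p) (q := q) (s := -s) (by rcases hs with rfl | rfl <;> norm_num) (by linarith)
  refine ⟨?_, ?_⟩
  · filter_upwards [h.2] with r h1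
    rwa [show p - -s * r = p + s * r by ring] at h1
  · filter_upwards [h.1] with r h1
    rwa [show p + -s * r = p - s * r by ring] at h1

/-! ### the corner -/

theorem pt_comm (z : ℂ) (p q : ℝ) : pt (pt z p) q = pt (pt z q) p := by unfold pt; ring

theorem pt_pg (z : ℂ) (p q : ℝ) : pt (pt z p) q = pt z p + pt z q - z := by unfold pt; ring

theorem dist_pt_pt (z : ℂ) (p q : ℝ) : dist (pt (pt z p) q) (pt z q) = 1 := by
  rw [pt_comm]; exact dist_pt _ _

theorem ne_of_sin {z : ℂ} {p q : ℝ} (hs : Real.sin ((q - p) * (Real.pi / 3)) ≠ 0) :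
    pt z p ≠ pt z q ∧ pt z p + pt z q ≠ 2 * z := by
  have e : Real.sin ((q - p) * (Real.pi / 3)) =
      Real.sin (q * (Real.pi / 3)) * Real.cos (p * (Real.pi / 3)) -
        Real.cos (q * (Real.pi / 3)) * Real.sin (p * (Real.pi / 3)) := by
    rw [← Real.sin_sub]; ring_nf
  constructor
  · intro hcon
    apply hs
    unfold pt at hcon
    have h0 := add_left_cancel hcon
    have h1 := congrArg Complex.re h0
    have h2 := congrArg Complex.im h0
    rw [cis_re, cis_re] at h1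
    rw [cis_im, cis_im] at h2
    rw [e, h1, h2]; ring
  · intro hcon
    apply hs
    unfold pt at hcon
    have h0 : cis (p * (Real.pi / 3)) + cis (q * (Real.pi / 3)) = 0 := by linear_combination hcon
    have h1 := congrArg Complex.re h0
    have h2 := congrArg Complex.im h0
    rw [Complex.add_re, cis_re, cis_re, Complex.zero_re] at h1
    rw [Complex.add_im, cis_im, cis_im, Complex.zero_im] at h2
    rw [e]
    linear_combination Real.sin (q * (Real.pi / 3)) * h1 - Real.cos (q * (Real.pi / 3)) * h2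

theorem freq_closed (h : Irr U T) {f : ℝ → ℂ} (hf : Continuous f) {q : ℝ} {c : Fin 6}
    (hc : ∃ᶠ t in 𝓝 q, c ∈ T (f t)) : c ∈ T (f q) := by
  have h1 : IsClosed (f ⁻¹' {x | c ∈ T x}) := (h.closed c).preimage hf
  have h2 : q ∈ closure (f ⁻¹' {x | c ∈ T x}) := mem_closure_iff_frequently.2 hc
  rw [h1.closure_eq] at h2
  exact h2

section corner

variable {z : ℂ} {p q : ℝ} {a b c d x y : Fin 6}

theorem all6 (nd : [a, b, c, d, x, y].Nodup) (i : Fin 6) :
    i = a ∨ i = b ∨ i = c ∨ i = d ∨ i = x ∨ i = y := by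
  have h1 : ([a, b, c, d, x, y] : List (Fin 6)).toFinset = Finset.univ :=
    Finset.eq_univ_of_card _ (by rw [List.toFinset_card_of_nodup nd]; rfl)
  have h2 : i ∈ ([a, b, c, d, x, y] : List (Fin 6)).toFinset := by rw [h1]; exact Finset.mem_univ i
  simpa using h2

/-- **(corner, 1)** the arc side of `Q` -/
theorem corner_arc (h : Irr U T) (nd : [a, b, c, d, x, y].Nodup) (hs : Real.sin ((q - p) * (Real.pi / 3)) ≠ 0)
    (hP : T (pt z p) = {a, b, x}) (hQ : ∃ᶠ t in 𝓝 q, pt z t ∈ Ex T z {c, d}) : y ∈ T (pt (pt z p) q) := by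
  refine freq_closed h (continuous_pt (pt z p)) (q := q) ?_
  obtain ⟨n1, n2⟩ := ne_of_sin (z := z) hs
  have e1 : ∀ᶠ t in 𝓝 q, pt z p ≠ pt z t :=
    (continuous_pt z).continuousAt.eventually_ne n1.symm |>.mono fun t ht => ht.symm
  have e2 : ∀ᶠ t in 𝓝 q, pt z p + pt z t ≠ 2 * z :=
    (continuous_const.add (continuous_pt z)).continuousAt.eventually_ne n2
  refine (hQ.and_eventually (e1.and e2)).mono fun t ht => ?_
  obtain ⟨h1, h2, h3⟩ := ht
  rw [pt_pg]
  obtain ⟨k1, k2⟩ := pg_off h (dist_pt z p) h1 h2 h3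
  have h3' : (T (pt z p)).ncard ≤ 3 := by
    rw [hP]; exact (Set.ncard_insert_le _ _).trans (by
      have := Set.ncard_insert_le b ({x} : Set (Fin 6))
      rw [Set.ncard_singleton] at this; omega)
  obtain ⟨s, hs1, hs2⟩ := h.not_sub' (x := pt z p) (y := pt z p + pt z t - z)
    (by rw [dist_pg.2]; exact dist_pt z t) h3'
  rw [hP] at hs2
  rcases all6 nd s with rfl | rfl | rfl | rfl | rfl | rfl
  · exact absurd (by simp) hs2
  · exact absurd (by simp) hs2
  · exact absurd hs1 k1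
  · exact absurd hs1 k2
  · exact absurd (by simp) hs2
  · exact hs1

/-- **(corner, 2)** the letter side of `Q` -/
theorem corner_let (h : Irr U T) (nd : [a, b, c, d, x, y].Nodup)
    (hP : T (pt z p) = {a, b, x}) (hQ : ∃ᶠ t in 𝓝 q, T (pt z t) ⊆ {y}) :
    c ∈ T (pt (pt z p) q) ∨ d ∈ T (pt (pt z p) q) := by
  have h3' : (T (pt z p)).ncard ≤ 3 := by
    rw [hP]; exact (Set.ncard_insert_le _ _).trans (by
      have := Set.ncard_insert_le b ({x} : Set (Fin 6))
      rw [Set.ncard_singleton] at this; omega)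
  have key : ∃ᶠ t in 𝓝 q, c ∈ T (pt (pt z p) t) ∨ d ∈ T (pt (pt z p) t) := by
    refine hQ.mono fun t ht => ?_
    have h1 : y ∉ Pal U (pt (pt z p) t) := h.mx.notMem' (h.mem_of_single ht)
      (by rw [dist_comm]; exact dist_pt_pt z p t)
    obtain ⟨s, hs1, hs2⟩ := h.not_sub' (x := pt z p) (y := pt (pt z p) t) (dist_pt _ _) h3'
    rw [hP] at hs2
    rcases all6 nd s with rfl | rfl | rfl | rfl | rfl | rfl
    · exact absurd (by simp) hs2
    · exact absurd (by simp) hs2
    · exact Or.inl hs1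
    · exact Or.inr hs1
    · exact absurd (by simp) hs2
    · exact absurd (h.sub _ hs1) h1
  rcases frequently_or_distrib.1 key with k | k
  · exact Or.inl (freq_closed h (continuous_pt (pt z p)) k)
  · exact Or.inr (freq_closed h (continuous_pt (pt z p)) k)

end corner

/-! ### the hub -/

/-- `P = pt z p` is a three-coloured end of an exact arc of `S(z)`: the arc is on the side `s = 1` or
`s = -1`, with the colour `i` inside and `o` outside, the letter on the other side is `x` -/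
structure Hub (U : Fin 6 → Set ℂ) (T : ℂ → Set (Fin 6)) (z : ℂ) (p s : ℝ) (i o x : Fin 6) : Prop where
  irr : Irr U T
  sg : s = 1 ∨ s = -1
  pal : T (pt z p) = {i, o, x}
  ct : Ctn U T (pt z p)
  arc : ∀ᶠ r in 𝓝[>] (0 : ℝ), i ∈ T (pt z (p + s * r)) ∧ o ∈ T (pt z (p + s * r))
  lt : ∃ᶠ r in 𝓝[>] (0 : ℝ), x ∈ T (pt z (p - s * r))
  inn : ∀ᶠ w in 𝓝 (pt z p), i ∈ T w → dist w z ≤ 1
  out : ∀ᶠ w in 𝓝 (pt z p), o ∈ T w → 1 ≤ dist w z

/-- the direction `q` of the corner in the relative angle `l ∈ (3/2, 9/2)` -/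
def Rel (p s l q : ℝ) : Prop := 3 / 2 < l ∧ l < 9 / 2 ∧ (q = p + s * (l - 3 / 2) ∨ q = p + s * (l - 9 / 2))

namespace Hub

variable {z : ℂ} {p s : ℝ} {i o x : Fin 6}

theorem tendsto_side (z : ℂ) (p σ : ℝ) : Tendsto (fun r : ℝ => pt z (p + σ * r)) (𝓝[>] 0) (𝓝 (pt z p)) := by
  have : Continuous fun r : ℝ => pt z (p + σ * r) := (continuous_pt z).comp (by fun_prop)
  have h2 := this.tendsto 0
  simp only [mul_zero, add_zero] at h2
  exact h2.mono_left nhdsWithin_le_nhds

theorem pt_back (z : ℂ) (p : ℝ) : pt (pt z p) (p + 3) = z := by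
  rw [pt_three]; unfold pt; ring

/-- the sign of the side of a corner -/
theorem sin_rel (hs : s = 1 ∨ s = -1) {l q : ℝ} (hl : 3 / 2 < l ∧ l < 9 / 2) :
    (q = p + s * (l - 3 / 2) → 0 < s * Real.sin ((q - p) * (Real.pi / 3))) ∧
      (q = p + s * (l - 9 / 2) → s * Real.sin ((q - p) * (Real.pi / 3)) < 0) := by
  have hpi := Real.pi_pos
  constructor
  · rintro rfl
    have h1 : 0 < Real.sin ((l - 3 / 2) * (Real.pi / 3)) :=
      Real.sin_pos_of_pos_of_lt_pi (by nlinarith [hl.1]) (by nlinarith [hl.2])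
    rcases hs with rfl | rfl
    · rw [show (p + 1 * (l - 3 / 2) - p) * (Real.pi / 3) = (l - 3 / 2) * (Real.pi / 3) by ring]; linarith
    · rw [show (p + -1 * (l - 3 / 2) - p) * (Real.pi / 3) = -((l - 3 / 2) * (Real.pi / 3)) by ring,
        Real.sin_neg]; linarith
  · rintro rfl
    have h1 : Real.sin ((l - 9 / 2) * (Real.pi / 3)) < 0 :=
      Real.sin_neg_of_neg_of_neg_pi_lt (by nlinarith [hl.2]) (by nlinarith [hl.1])
    rcases hs with rfl | rfl
    · rw [show (p + 1 * (l - 9 / 2) - p) * (Real.pi / 3) = (l - 9 / 2) * (Real.pi / 3) by ring]; linarith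
    · rw [show (p + -1 * (l - 9 / 2) - p) * (Real.pi / 3) = -((l - 9 / 2) * (Real.pi / 3)) by ring,
        Real.sin_neg]; linarith

theorem cos_rel (hs : s = 1 ∨ s = -1) (p l k φ : ℝ) :
    Real.cos ((p + s * φ - (p + s * (l - k))) * (Real.pi / 3)) = Real.cos ((φ - l + k) * (Real.pi / 3)) := by
  rcases hs with rfl | rfl
  · ring_nf
  · rw [← Real.cos_neg]; ring_nf

theorem cos_three_half (t : ℝ) : Real.cos ((t + 3 / 2) * (Real.pi / 3)) = -Real.sin (t * (Real.pi / 3)) := by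
  rw [show (t + 3 / 2) * (Real.pi / 3) = t * (Real.pi / 3) + Real.pi / 2 by ring, Real.cos_add_pi_div_two]

theorem cos_nine_half (t : ℝ) : Real.cos ((t + 9 / 2) * (Real.pi / 3)) = Real.sin (t * (Real.pi / 3)) := by
  rw [show (t + 9 / 2) * (Real.pi / 3) = (t * (Real.pi / 3) + Real.pi) + Real.pi / 2 by ring,
    Real.cos_add_pi_div_two, Real.sin_add_pi, neg_neg]

/-- the third colour: near or far to a corner with this colour -/
theorem side_x (H : Hub U T z p s i o x) {q : ℝ} (hx : x ∈ Pal U (pt (pt z p) q)) :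
    (0 < s * Real.sin ((q - p) * (Real.pi / 3)) →
      ∀ᶠ w in 𝓝 (pt z p), x ∈ T w → 1 ≤ dist w (pt (pt z p) q)) ∧
    (s * Real.sin ((q - p) * (Real.pi / 3)) < 0 →
      ∀ᶠ w in 𝓝 (pt z p), x ∈ T w → dist w (pt (pt z p) q) ≤ 1) := by
  have ht : Tendsto (fun r : ℝ => pt z (p - s * r)) (𝓝[>] 0) (𝓝 (pt z p)) := by
    have := tendsto_side z p (-s)
    simpa [sub_eq_add_neg] using this
  constructor
  · intro hq
    exact side_far H.irr H.ct hx (ht.frequently (H.lt.and_eventually (ev_pos z H.sg hq).2))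
  · intro hq
    exact side_near H.irr H.ct hx (ht.frequently (H.lt.and_eventually (ev_neg z H.sg hq).2))

/-- a colour of the arc: near or far to a corner with this colour -/
theorem side_k (H : Hub U T z p s i o x) {q : ℝ} {k : Fin 6} (hk : k = i ∨ k = o)
    (hx : k ∈ Pal U (pt (pt z p) q)) :
    (0 < s * Real.sin ((q - p) * (Real.pi / 3)) →
      ∀ᶠ w in 𝓝 (pt z p), k ∈ T w → dist w (pt (pt z p) q) ≤ 1) ∧
    (s * Real.sin ((q - p) * (Real.pi / 3)) < 0 →
      ∀ᶠ w in 𝓝 (pt z p), k ∈ T w → 1 ≤ dist w (pt (pt z p) q)) := by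
  have ha : ∀ᶠ r in 𝓝[>] (0 : ℝ), k ∈ T (pt z (p + s * r)) := by
    filter_upwards [H.arc] with r hr
    rcases hk with rfl | rfl
    exacts [hr.1, hr.2]
  constructor
  · intro hq
    exact side_near H.irr H.ct hx ((tendsto_side z p s).frequently (ha.and (ev_pos z H.sg hq).1).frequently)
  · intro hq
    exact side_far H.irr H.ct hx ((tendsto_side z p s).frequently (ha.and (ev_neg z H.sg hq).1).frequently)

theorem dir_x (H : Hub U T z p s i o x) {l q : ℝ} (hl : Rel p s l q) (hx : x ∈ Pal U (pt (pt z p) q)) {φ : ℝ}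
    (hφ : p + s * φ ∈ Dr T (pt z p) x) : 0 ≤ Real.sin ((φ - l) * (Real.pi / 3)) := by
  obtain ⟨h1, h2, rfl | rfl⟩ := hl
  · have h3 := dr_far hφ ((H.side_x hx).1 ((sin_rel H.sg ⟨h1, h2⟩).1 rfl))
    rw [cos_rel H.sg, cos_three_half] at h3
    linarith
  · have h3 := dr_near hφ ((H.side_x hx).2 ((sin_rel H.sg ⟨h1, h2⟩).2 rfl))
    rwa [cos_rel H.sg, cos_nine_half] at h3

theorem dir_k (H : Hub U T z p s i o x) {l q : ℝ} (hl : Rel p s l q) {k : Fin 6} (hk : k = i ∨ k = o)
    (hx : k ∈ Pal U (pt (pt z p) q)) {φ : ℝ}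
    (hφ : p + s * φ ∈ Dr T (pt z p) k) : Real.sin ((φ - l) * (Real.pi / 3)) ≤ 0 := by
  obtain ⟨h1, h2, rfl | rfl⟩ := hl
  · have h3 := dr_near hφ ((H.side_k hk hx).1 ((sin_rel H.sg ⟨h1, h2⟩).1 rfl))
    rw [cos_rel H.sg, cos_three_half] at h3
    linarith
  · have h3 := dr_far hφ ((H.side_k hk hx).2 ((sin_rel H.sg ⟨h1, h2⟩).2 rfl))
    rwa [cos_rel H.sg, cos_nine_half] at h3

theorem dir_i (H : Hub U T z p s i o x) {φ : ℝ} (hφ : p + s * φ ∈ Dr T (pt z p) i) :
    Real.cos (φ * (Real.pi / 3)) ≤ 0 := by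
  have h1 := dr_near (u := p + 3) hφ (by rw [pt_back]; exact H.inn)
  have e : (p + s * φ - (p + 3)) * (Real.pi / 3) = s * φ * (Real.pi / 3) - Real.pi := by ring
  rw [e, Real.cos_sub_pi] at h1
  rcases H.sg with rfl | rfl
  · rw [one_mul] at h1; linarith
  · rw [show -1 * φ * (Real.pi / 3) = -(φ * (Real.pi / 3)) by ring, Real.cos_neg] at h1; linarith

theorem dir_o (H : Hub U T z p s i o x) {φ : ℝ} (hφ : p + s * φ ∈ Dr T (pt z p) o) :
    0 ≤ Real.cos (φ * (Real.pi / 3)) := by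
  have h1 := dr_far (u := p + 3) hφ (by rw [pt_back]; exact H.out)
  have e : (p + s * φ - (p + 3)) * (Real.pi / 3) = s * φ * (Real.pi / 3) - Real.pi := by ring
  rw [e, Real.cos_sub_pi] at h1
  rcases H.sg with rfl | rfl
  · rw [one_mul] at h1; linarith
  · rw [show -1 * φ * (Real.pi / 3) = -(φ * (Real.pi / 3)) by ring, Real.cos_neg] at h1; linarith

theorem cov (H : Hub U T z p s i o x) (φ : ℝ) : p + s * φ ∈ Dr T (pt z p) i ∨ p + s * φ ∈ Dr T (pt z p) o ∨
    p + s * φ ∈ Dr T (pt z p) x := by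
  obtain ⟨c, hc⟩ := dr_cover H.irr (pt z p) (p + s * φ)
  have h1 := dr_pal H.irr hc
  rw [H.pal] at h1
  rcases h1 with rfl | rfl | h1
  · exact Or.inl hc
  · exact Or.inr (Or.inl hc)
  · rw [mem_singleton_iff] at h1
    subst h1
    exact Or.inr (Or.inr hc)

theorem sin_lt {t : ℝ} (h1 : -3 < t) (h2 : t < 0) : Real.sin (t * (Real.pi / 3)) < 0 :=
  Real.sin_neg_of_neg_of_neg_pi_lt (by nlinarith [Real.pi_pos]) (by nlinarith [Real.pi_pos])

theorem sin_gt {t : ℝ} (h1 : 0 < t) (h2 : t < 3) : 0 < Real.sin (t * (Real.pi / 3)) :=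
  Real.sin_pos_of_pos_of_lt_pi (by nlinarith [Real.pi_pos]) (by nlinarith [Real.pi_pos])

theorem cos_lt {t : ℝ} (h1 : 3 / 2 < t) (h2 : t < 9 / 2) : Real.cos (t * (Real.pi / 3)) < 0 :=
  Real.cos_neg_of_pi_div_two_lt_of_lt (by nlinarith [Real.pi_pos]) (by nlinarith [Real.pi_pos])

theorem cos_gt {t : ℝ} (h1 : 9 / 2 < t) (h2 : t < 15 / 2) : 0 < Real.cos (t * (Real.pi / 3)) := by
  have h3 : Real.cos (t * (Real.pi / 3)) = Real.cos ((t - 6) * (Real.pi / 3)) := by
    rw [show t * (Real.pi / 3) = (t - 6) * (Real.pi / 3) + 2 * Real.pi by ring, Real.cos_add_two_pi]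
  rw [h3]
  exact Real.cos_pos_of_mem_Ioo ⟨by nlinarith [Real.pi_pos], by nlinarith [Real.pi_pos]⟩

/-- the inner colour is at the last corner only -/
theorem no_inner (H : Hub U T z p s i o x) {l l' q q' : ℝ} (hl : Rel p s l q) (hl' : Rel p s l' q') (hll : l < l')
    (hx' : x ∈ Pal U (pt (pt z p) q')) : i ∉ Pal U (pt (pt z p) q) := by
  intro hi
  have a1 := hl.1; have a2 := hl.2.1; have a3 := hl'.1; have a4 := hl'.2.1
  have e1 : -3 < (l + l') / 2 - l' := by linarith
  have e2 : (l + l') / 2 - l' < 0 := by linarith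
  rcases H.cov ((l + l') / 2) with h1 | h1 | h1
  · have := H.dir_k hl (Or.inl rfl) hi h1
    have := sin_gt (t := (l + l') / 2 - l) (by linarith) (by linarith)
    linarith
  · have := H.dir_o h1
    have := cos_lt (t := (l + l') / 2) (by linarith) (by linarith)
    linarith
  · have := H.dir_x hl' hx' h1
    have := sin_lt e1 e2
    linarith

/-- the outer colour is at the first corner only -/
theorem no_outer (H : Hub U T z p s i o x) {l l' q q' : ℝ} (hl : Rel p s l q) (hl' : Rel p s l' q') (hll : l < l')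
    (hx : x ∈ Pal U (pt (pt z p) q)) : o ∉ Pal U (pt (pt z p) q') := by
  intro ho
  have a1 := hl.1; have a2 := hl.2.1; have a3 := hl'.1; have a4 := hl'.2.1
  rcases H.cov ((l + l') / 2 + 3) with h1 | h1 | h1
  · have := H.dir_i h1
    have := cos_gt (t := (l + l') / 2 + 3) (by linarith) (by linarith)
    linarith
  · have h2 := H.dir_k hl' (Or.inr rfl) ho h1
    have h3 := sin_lt (t := (l + l') / 2 - l') (by linarith) (by linarith)
    rw [show ((l + l') / 2 + 3 - l') * (Real.pi / 3) = ((l + l') / 2 - l') * (Real.pi / 3) + Real.pi by ring,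
      Real.sin_add_pi] at h2
    linarith
  · have h2 := H.dir_x hl hx h1
    have h3 := sin_gt (t := (l + l') / 2 - l) (by linarith) (by linarith)
    rw [show ((l + l') / 2 + 3 - l) * (Real.pi / 3) = ((l + l') / 2 - l) * (Real.pi / 3) + Real.pi by ring,
      Real.sin_add_pi] at h2
    linarith

/-- **Hub lines.** Three corners of a hub are not on three lines: the corners carry the third colour `x` and one
of the colours of the arc -/
theorem lines (H : Hub U T z p s i o x) {l₁ l₂ l₃ q₁ q₂ q₃ : ℝ} (h₁ : Rel p s l₁ q₁) (h₂ : Rel p s l₂ q₂)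
    (h₃ : Rel p s l₃ q₃) (h12 : l₁ < l₂) (h23 : l₂ < l₃) (x₁ : x ∈ Pal U (pt (pt z p) q₁))
    (x₃ : x ∈ Pal U (pt (pt z p) q₃)) : ¬ (i ∈ Pal U (pt (pt z p) q₂) ∨ o ∈ Pal U (pt (pt z p) q₂)) := by
  rintro (h | h)
  · exact H.no_inner h₂ h₃ h23 x₃ h
  · exact H.no_outer h₁ h₂ h12 x₁ h

end Hub

end Vale.Agent.P032.H183
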