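import Vale.Agent.P032.H183.Hub
import Vale.Agent.P032.S5.H80.Ends

/-!
# P032: the hub rule in the wild frame (`Irr U T` only; helper189, row 9548)

`z` a two-pair centre, `P = pt z p` a three-coloured point of `S(z)`, start of an exact arc `J` on the
side `s`; `w = pt P q` the corner of a complementary three-coloured point `Q = pt z q`.

* `arc_kill_pos`, `arc_kill_neg` : near every point `V` of `S(P)` the directions of a colour carried by a
  one-sided arc through `P` are in a closed half plane (no connectivity of the colour classes);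
* `HubW`, `CorW` : the hub and a corner; `HubW.dir_x`, `dir_i`, `dir_o`;
* `HubW.inW`, `outW` : the inner (outer) part of `S(w)` at `P` is exact `{i, x}` (`{o, x}`), if `i ∈ T w`
  (`o ∈ T w`), for any number of colours of `w`;
* `HubW.le_of_inner`, `le_of_outer`, `lines` : at most two lines.
-/

open Set Filter Topology Metric

noncomputable section

namespace Vale.Agent.P032.H183

open Vale.Agent.P032.Six Vale.Agent.P032.Words Vale.Agent.P032.S5.H767 Vale.Agent.P032.H892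

variable {U : Fin 6 → Set ℂ} {T : ℂ → Set (Fin 6)}

/-! ### one-sided arcs -/

/-- a solid one-sided arc as a connected set -/
theorem exists_arc (h : Irr U T) {C : ℂ} {p s : ℝ} {i : Fin 6} (harc : ∀ᶠ r in 𝓝[>] (0 : ℝ), i ∈ T (pt C (p + s * r))) :
    ∃ δ > 0, ∀ r : ℝ, 0 ≤ r → r < δ → i ∈ T (pt C (p + s * r)) := by
  obtain ⟨δ, hδ, hd⟩ := mem_nhdsGT_iff_exists_Ioo_subset.1 harc
  refine ⟨δ, hδ, fun r h0 h1 => ?_⟩
  rcases h0.lt_or_eq with h2 | h2
  · exact hd ⟨h2, h1⟩
  · subst h2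
    have hcl : IsClosed ((fun r : ℝ => pt C (p + s * r)) ⁻¹' {x | i ∈ T x}) :=
      (h.closed i).preimage ((continuous_pt C).comp (by fun_prop))
    have hf : ∃ᶠ r in 𝓝 (0 : ℝ), i ∈ T (pt C (p + s * r)) :=
      Frequently.filter_mono harc.frequently nhdsWithin_le_nhds
    have : (0 : ℝ) ∈ closure ((fun r : ℝ => pt C (p + s * r)) ⁻¹' {x | i ∈ T x}) :=
      mem_closure_iff_frequently.2 hf
    rw [hcl.closure_eq] at this
    exact this

/-- the distance to the centre of the polar coordinates -/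
theorem po_dist_near {V : ℂ} {u θ : ℝ} (hc : 0 < Real.cos ((θ - u) * (Real.pi / 3))) :
    ∀ᶠ p : ℝ × ℝ in 𝓝 ((0 : ℝ), θ), 0 < p.1 → dist (po V p) (pt V u) < 1 := by
  set C := Real.cos ((θ - u) * (Real.pi / 3)) with hC
  have h2 : ∀ᶠ p : ℝ × ℝ in 𝓝 ((0 : ℝ), θ), C / 2 < Real.cos ((p.2 - u) * (Real.pi / 3)) :=
    (cosc u).continuousAt.eventually_const_lt (by show C / 2 < C; linarith)
  have h3 : ∀ᶠ p : ℝ × ℝ in 𝓝 ((0 : ℝ), θ), p.1 < C :=
    continuous_fst.continuousAt.eventually_lt_const hc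
  filter_upwards [h2, h3] with p hp2 hp3 hp
  have h4 := sq_dist_po V p.1 p.2 u
  have h5 := dist_nonneg (x := po V p) (y := pt V u)
  rw [show (p.1, p.2) = p from rfl] at h4
  have h7 : dist (po V p) (pt V u) ^ 2 < 1 := by rw [h4]; nlinarith
  nlinarith

theorem po_dist_far {V : ℂ} {u θ : ℝ} (hc : Real.cos ((θ - u) * (Real.pi / 3)) < 0) :
    ∀ᶠ p : ℝ × ℝ in 𝓝 ((0 : ℝ), θ), 0 < p.1 → 1 < dist (po V p) (pt V u) := by
  have h2 : ∀ᶠ p : ℝ × ℝ in 𝓝 ((0 : ℝ), θ), Real.cos ((p.2 - u) * (Real.pi / 3)) < 0 :=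
    (cosc u).continuousAt.eventually_lt_const hc
  filter_upwards [h2] with p hp2 hp
  have h4 := sq_dist_po V p.1 p.2 u
  have h5 := dist_nonneg (x := po V p) (y := pt V u)
  rw [show (p.1, p.2) = p from rfl] at h4
  have h7 : 1 < dist (po V p) (pt V u) ^ 2 := by rw [h4]; nlinarith
  nlinarith

theorem tendsto_po (V : ℂ) (θ : ℝ) : Tendsto (po V) (𝓝 ((0 : ℝ), θ)) (𝓝 V) := by
  have := (continuous_po V).tendsto ((0 : ℝ), θ)
  rwa [po_zero] at this

/-- a solid one-sided arc of `S(C)` through `X = pt C p`, near `V = pt X q` -/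
theorem arc_kill_pos (h : Irr U T) {C : ℂ} {p s q θ : ℝ} {i : Fin 6} (hs : s = 1 ∨ s = -1)
    (harc : ∀ᶠ r in 𝓝[>] (0 : ℝ), i ∈ T (pt C (p + s * r))) (hq : 0 < s * Real.sin ((q - p) * (Real.pi / 3)))
    (hθ : θ ∈ Dr T (pt (pt C p) q) i) : Real.cos ((θ - q) * (Real.pi / 3)) ≤ 0 := by
  by_contra hcon
  push Not at hcon
  obtain ⟨δ, hδ, hJ⟩ := exists_arc h harc
  obtain ⟨r, hr1, hr2, hr3⟩ := ((ev_pos C hs hq).1.and (show ∀ᶠ r in 𝓝[>] (0 : ℝ), 0 < r ∧ r < δ by
    filter_upwards [self_mem_nhdsWithin, mem_nhdsWithin_of_mem_nhds (Iio_mem_nhds hδ)] with r a b using ⟨a, b⟩)).exists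
  set V := pt (pt C p) q with hV
  have hX : pt C p = pt V (q + 3) := by rw [hV, pt_three]; unfold pt; ring
  have e1 : ∀ᶠ v in 𝓝 V, dist (pt C (p + s * r)) v < 1 :=
    (continuous_const.dist continuous_id).continuousAt.eventually_lt_const hr1
  have e2 : ∀ᶠ a : ℝ × ℝ in 𝓝 ((0 : ℝ), θ), 0 < a.1 → 1 < dist (po V a) (pt V (q + 3)) := by
    apply po_dist_far
    rw [show (θ - (q + 3)) * (Real.pi / 3) = (θ - q) * (Real.pi / 3) - Real.pi by ring, Real.cos_sub_pi]
    linarith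
  rw [mem_dr] at hθ
  obtain ⟨a, ha, ha1, ha2⟩ := (hθ.and_eventually (((tendsto_po V θ).eventually e1).and e2)).exists
  have hc : IsPreconnected ((fun t : ℝ => pt C (p + s * t)) '' Icc 0 r) :=
    isPreconnected_Icc.image _ ((continuous_pt C).comp (by fun_prop)).continuousOn
  refine crossing h hc (i := i) ?_ ha.2 (p := pt C (p + s * r)) (q := pt C p)
    ⟨r, ⟨hr2.le, le_rfl⟩, rfl⟩ ⟨0, ⟨le_rfl, hr2.le⟩, by simp⟩ ha1 ?_
  · rintro _ ⟨t, ht, rfl⟩
    exact hJ t ht.1 (lt_of_le_of_lt ht.2 hr3)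
  · rw [hX, dist_comm]; exact ha2 ha.1

theorem arc_kill_neg (h : Irr U T) {C : ℂ} {p s q θ : ℝ} {i : Fin 6} (hs : s = 1 ∨ s = -1)
    (harc : ∀ᶠ r in 𝓝[>] (0 : ℝ), i ∈ T (pt C (p + s * r))) (hq : s * Real.sin ((q - p) * (Real.pi / 3)) < 0)
    (hθ : θ ∈ Dr T (pt (pt C p) q) i) : 0 ≤ Real.cos ((θ - q) * (Real.pi / 3)) := by
  by_contra hcon
  push Not at hcon
  obtain ⟨δ, hδ, hJ⟩ := exists_arc h harc
  obtain ⟨r, hr1, hr2, hr3⟩ := ((ev_neg C hs hq).1.and (show ∀ᶠ r in 𝓝[>] (0 : ℝ), 0 < r ∧ r < δ by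
    filter_upwards [self_mem_nhdsWithin, mem_nhdsWithin_of_mem_nhds (Iio_mem_nhds hδ)] with r a b using ⟨a, b⟩)).exists
  set V := pt (pt C p) q with hV
  have hX : pt C p = pt V (q + 3) := by rw [hV, pt_three]; unfold pt; ring
  have e1 : ∀ᶠ v in 𝓝 V, 1 < dist (pt C (p + s * r)) v :=
    (continuous_const.dist continuous_id).continuousAt.eventually_const_lt hr1
  have e2 : ∀ᶠ a : ℝ × ℝ in 𝓝 ((0 : ℝ), θ), 0 < a.1 → dist (po V a) (pt V (q + 3)) < 1 := by
    apply po_dist_near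
    rw [show (θ - (q + 3)) * (Real.pi / 3) = (θ - q) * (Real.pi / 3) - Real.pi by ring, Real.cos_sub_pi]
    linarith
  rw [mem_dr] at hθ
  obtain ⟨a, ha, ha1, ha2⟩ := (hθ.and_eventually (((tendsto_po V θ).eventually e1).and e2)).exists
  have hc : IsPreconnected ((fun t : ℝ => pt C (p + s * t)) '' Icc 0 r) :=
    isPreconnected_Icc.image _ ((continuous_pt C).comp (by fun_prop)).continuousOn
  refine crossing h hc (i := i) ?_ ha.2 (p := pt C p) (q := pt C (p + s * r))
    ⟨0, ⟨le_rfl, hr2.le⟩, by simp⟩ ⟨r, ⟨hr2.le, le_rfl⟩, rfl⟩ ?_ ha1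
  · rintro _ ⟨t, ht, rfl⟩
    exact hJ t ht.1 (lt_of_le_of_lt ht.2 hr3)
  · rw [hX, dist_comm]; exact ha2 ha.1

/-! ### the wild hub -/

/-- `P = pt z p` is a three-coloured point of `S(z)`, end of an exact arc `J` on the side `s`, `i` inside and
`o` outside; the third colour is `x` -/
structure HubW (U : Fin 6 → Set ℂ) (T : ℂ → Set (Fin 6)) (z : ℂ) (p s : ℝ) (i o x : Fin 6) : Prop where
  irr : Irr U T
  sg : s = 1 ∨ s = -1
  pal : T (pt z p) = {i, o, x}
  sd : Sd U z (pt z p) i o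
  arc : ∀ᶠ r in 𝓝[>] (0 : ℝ), T (pt z (p + s * r)) = {i, o}

/-- a corner of the hub in the direction `q`, relative angle `l` -/
structure CorW (U : Fin 6 → Set ℂ) (T : ℂ → Set (Fin 6)) (z : ℂ) (p s : ℝ) (i o x : Fin 6) (l q : ℝ) : Prop where
  rel : Rel p s l q
  sol : ∀ᶠ r in 𝓝[>] (0 : ℝ), x ∈ T (pt (pt z q) (p + s * r))
  io : i ∈ T (pt (pt z p) q) ∨ o ∈ T (pt (pt z p) q)

namespace HubW

variable {z : ℂ} {p s : ℝ} {i o x : Fin 6}

theorem dir_i (H : HubW U T z p s i o x) {φ : ℝ} (hφ : p + s * φ ∈ Dr T (pt z p) i) :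
    Real.cos (φ * (Real.pi / 3)) ≤ 0 := by
  have h1 := dr_in H.irr (u := p + 3) hφ (by rw [Hub.pt_back]; exact H.sd.mono fun x hx => hx.1)
  have e : (p + s * φ - (p + 3)) * (Real.pi / 3) = s * φ * (Real.pi / 3) - Real.pi := by ring
  rw [e, Real.cos_sub_pi] at h1
  rcases H.sg with rfl | rfl
  · rw [one_mul] at h1; linarith
  · rw [show -1 * φ * (Real.pi / 3) = -(φ * (Real.pi / 3)) by ring, Real.cos_neg] at h1; linarith

theorem dir_o (H : HubW U T z p s i o x) {φ : ℝ} (hφ : p + s * φ ∈ Dr T (pt z p) o) :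
    0 ≤ Real.cos (φ * (Real.pi / 3)) := by
  have h1 := dr_out H.irr (u := p + 3) hφ (by rw [Hub.pt_back]; exact H.sd.mono fun x hx => hx.2)
  have e : (p + s * φ - (p + 3)) * (Real.pi / 3) = s * φ * (Real.pi / 3) - Real.pi := by ring
  rw [e, Real.cos_sub_pi] at h1
  rcases H.sg with rfl | rfl
  · rw [one_mul] at h1; linarith
  · rw [show -1 * φ * (Real.pi / 3) = -(φ * (Real.pi / 3)) by ring, Real.cos_neg] at h1; linarith

/-- the third colour is in the corner -/
theorem xw (H : HubW U T z p s i o x) {l q : ℝ} (K : CorW U T z p s i o x l q) : x ∈ T (pt (pt z p) q) := by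
  obtain ⟨δ, hδ, hJ⟩ := exists_arc H.irr K.sol
  have := hJ 0 le_rfl hδ
  rw [mul_zero, add_zero] at this
  rwa [pt_comm]

/-- **the third colour at the hub**: on the far (near) side of the corner; wild -/
theorem dir_x (H : HubW U T z p s i o x) {l q : ℝ} (K : CorW U T z p s i o x l q) {φ : ℝ}
    (hφ : p + s * φ ∈ Dr T (pt z p) x) : 0 ≤ Real.sin ((φ - l) * (Real.pi / 3)) := by
  have eP : pt (pt (pt z q) p) (q + 3) = pt z p := by rw [← pt_comm, pt_three]; unfold pt; ring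
  have es : Real.sin ((q + 3 - p) * (Real.pi / 3)) = -Real.sin ((q - p) * (Real.pi / 3)) := by
    rw [show (q + 3 - p) * (Real.pi / 3) = (q - p) * (Real.pi / 3) + Real.pi by ring, Real.sin_add_pi]
  have ec : ∀ θ : ℝ, Real.cos ((θ - (q + 3)) * (Real.pi / 3)) = -Real.cos ((θ - q) * (Real.pi / 3)) := by
    intro θ
    rw [show (θ - (q + 3)) * (Real.pi / 3) = (θ - q) * (Real.pi / 3) - Real.pi by ring, Real.cos_sub_pi]
  obtain ⟨h1, h2, h3⟩ := K.rel
  have hsr := Hub.sin_rel (p := p) H.sg (l := l) (q := q) ⟨h1, h2⟩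
  rcases h3 with h3 | h3
  · have h4 := arc_kill_neg H.irr H.sg K.sol (q := q + 3) (by rw [es]; have := hsr.1 h3; linarith)
      (θ := p + s * φ) (by rw [eP]; exact hφ)
    rw [ec] at h4
    rw [h3, Hub.cos_rel H.sg, Hub.cos_three_half] at h4
    linarith
  · have h4 := arc_kill_pos H.irr H.sg K.sol (q := q + 3) (by rw [es]; have := hsr.2 h3; linarith)
      (θ := p + s * φ) (by rw [eP]; exact hφ)
    rw [ec] at h4
    rw [h3, Hub.cos_rel H.sg, Hub.cos_nine_half] at h4
    linarith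

/-- the inner part of a circle through `P` with the colours `i, x` is exact -/
theorem inW (H : HubW U T z p s i o x) {w : ℂ} (hi : i ∈ Pal U w) (hx : x ∈ Pal U w) :
    ∀ᶠ y in 𝓝 (pt z p), dist y w = 1 → dist y z < 1 → T y = {i, x} := by
  filter_upwards [H.sd, H.irr.nhd (pt z p)] with y h1 h2 h3 h4
  have haU : y ∉ U i := H.irr.mx.notMem hi h3
  have heU : y ∉ U x := H.irr.mx.notMem hx h3
  have h5 : T y ⊆ {i, x} := by
    intro j hj
    have := h2 hj
    rw [H.pal] at this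
    rcases this with rfl | rfl | h6
    · simp
    · exact absurd (H.irr.sub _ hj) (h1.2 h4)
    · rw [mem_singleton_iff] at h6; subst h6; simp
  have ha : i ∈ T y := by
    by_contra ha
    refine heU (H.irr.mem_of_single fun j hj => ?_)
    rcases h5 hj with rfl | h7
    · exact absurd hj ha
    · exact h7
  have he : x ∈ T y := by
    by_contra he
    refine haU (H.irr.mem_of_single fun j hj => ?_)
    rcases h5 hj with rfl | h7
    · rfl
    · rw [mem_singleton_iff] at h7; subst h7; exact absurd hj he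
  refine Subset.antisymm h5 ?_
  rintro j (rfl | hj)
  · exact ha
  · rw [mem_singleton_iff] at hj; subst hj; exact he

/-- the outer part -/
theorem outW (H : HubW U T z p s i o x) {w : ℂ} (ho : o ∈ Pal U w) (hx : x ∈ Pal U w) :
    ∀ᶠ y in 𝓝 (pt z p), dist y w = 1 → 1 < dist y z → T y = {o, x} := by
  filter_upwards [H.sd, H.irr.nhd (pt z p)] with y h1 h2 h3 h4
  have haU : y ∉ U o := H.irr.mx.notMem ho h3
  have heU : y ∉ U x := H.irr.mx.notMem hx h3
  have h5 : T y ⊆ {o, x} := by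
    intro j hj
    have := h2 hj
    rw [H.pal] at this
    rcases this with rfl | rfl | h6
    · exact absurd (H.irr.sub _ hj) (h1.1 h4)
    · simp
    · rw [mem_singleton_iff] at h6; subst h6; simp
  have ha : o ∈ T y := by
    by_contra ha
    refine heU (H.irr.mem_of_single fun j hj => ?_)
    rcases h5 hj with rfl | h7
    · exact absurd hj ha
    · exact h7
  have he : x ∈ T y := by
    by_contra he
    refine haU (H.irr.mem_of_single fun j hj => ?_)
    rcases h5 hj with rfl | h7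
    · rfl
    · rw [mem_singleton_iff] at h7; subst h7; exact absurd hj he
  refine Subset.antisymm h5 ?_
  rintro j (rfl | hj)
  · exact ha
  · rw [mem_singleton_iff] at hj; subst hj; exact he

end HubW

/-! ### directions of a circle at one of its points -/

/-- polar coordinates about a point of the circle -/
theorem pt_po (w : ℂ) (q σ τ : ℝ) (hσ : σ = 1 ∨ σ = -1) :
    pt w (q + 3 - σ * τ) = po (pt w (q + 3)) (2 * Real.sin (τ / 2 * (Real.pi / 3)), q + σ * (3 / 2) - σ * τ / 2) := by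
  unfold po pt
  simp only
  have key : cis ((q + 3 - σ * τ) * (Real.pi / 3)) = cis ((q + 3) * (Real.pi / 3)) +
      ((2 * Real.sin (τ / 2 * (Real.pi / 3)) : ℝ) : ℂ) * cis ((q + σ * (3 / 2) - σ * τ / 2) * (Real.pi / 3)) := by
    set A := q * (Real.pi / 3) with hA
    set B := τ / 2 * (Real.pi / 3) with hB
    rcases hσ with rfl | rfl
    · have e1 : (q + 3 - 1 * τ) * (Real.pi / 3) = A - B - B + Real.pi := by rw [hA, hB]; ring
      have e2 : (q + 3) * (Real.pi / 3) = A + Real.pi := by rw [hA]; ring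
      have e3 : (q + 1 * (3 / 2) - 1 * τ / 2) * (Real.pi / 3) = A - B + Real.pi / 2 := by rw [hA, hB]; ring
      rw [e1, e2, e3]
      apply Complex.ext
      · simp only [Complex.add_re, Complex.mul_re, Complex.ofReal_re, Complex.ofReal_im, cis_re, cis_im,
          Real.cos_add_pi, Real.cos_add_pi_div_two]
        rw [Real.cos_sub (A - B) B, Real.sin_sub A B, Real.cos_sub A B]
        have := Real.sin_sq_add_cos_sq B
        linear_combination (-Real.cos A) * this
      · simp only [Complex.add_im, Complex.mul_im, Complex.ofReal_re, Complex.ofReal_im, cis_re, cis_im,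
          Real.sin_add_pi, Real.sin_add_pi_div_two]
        rw [Real.sin_sub (A - B) B, Real.sin_sub A B, Real.cos_sub A B]
        have := Real.sin_sq_add_cos_sq B
        linear_combination (-Real.sin A) * this
    · have e1 : (q + 3 - -1 * τ) * (Real.pi / 3) = A + B + B + Real.pi := by rw [hA, hB]; ring
      have e2 : (q + 3) * (Real.pi / 3) = A + Real.pi := by rw [hA]; ring
      have e3 : (q + -1 * (3 / 2) - -1 * τ / 2) * (Real.pi / 3) = A + B - Real.pi / 2 := by rw [hA, hB]; ring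
      rw [e1, e2, e3]
      apply Complex.ext
      · simp only [Complex.add_re, Complex.mul_re, Complex.ofReal_re, Complex.ofReal_im, cis_re, cis_im,
          Real.cos_add_pi, Real.cos_sub_pi_div_two]
        rw [Real.cos_add (A + B) B, Real.sin_add A B, Real.cos_add A B]
        have := Real.sin_sq_add_cos_sq B
        linear_combination (-Real.cos A) * this
      · simp only [Complex.add_im, Complex.mul_im, Complex.ofReal_re, Complex.ofReal_im, cis_re, cis_im,
          Real.sin_add_pi, Real.sin_sub_pi_div_two]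
        rw [Real.sin_add (A + B) B, Real.sin_add A B, Real.cos_add A B]
        have := Real.sin_sq_add_cos_sq B
        linear_combination (-Real.sin A) * this
  rw [key]; ring

theorem tendsto_circ (q σ : ℝ) : Tendsto (fun τ : ℝ => ((2 * Real.sin (τ / 2 * (Real.pi / 3)) : ℝ), q + σ * (3 / 2) - σ * τ / 2))
    (𝓝[>] 0) (𝓝 ((0 : ℝ), q + σ * (3 / 2))) := by
  have : Continuous fun τ : ℝ => ((2 * Real.sin (τ / 2 * (Real.pi / 3)) : ℝ), q + σ * (3 / 2) - σ * τ / 2) := by fun_prop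
  have h2 := this.tendsto 0
  simp only [zero_div, zero_mul, Real.sin_zero, mul_zero, sub_zero] at h2
  exact h2.mono_left nhdsWithin_le_nhds

theorem ev_sin_pos : ∀ᶠ τ in 𝓝[>] (0 : ℝ), 0 < 2 * Real.sin (τ / 2 * (Real.pi / 3)) := by
  filter_upwards [self_mem_nhdsWithin, mem_nhdsWithin_of_mem_nhds (Iio_mem_nhds (show (0:ℝ) < 1 by norm_num))]
    with r a b
  have a' : 0 < r := a
  have b' : r < 1 := b
  have : 0 < Real.sin (r / 2 * (Real.pi / 3)) :=
    Real.sin_pos_of_pos_of_lt_pi (by positivity) (by nlinarith [Real.pi_pos])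
  linarith

/-- a colour on one side of the circle has the tangent direction -/
theorem dr_circ {w : ℂ} {q σ : ℝ} (hσ : σ = 1 ∨ σ = -1) {c : Fin 6}
    (hc : ∃ᶠ τ in 𝓝[>] (0 : ℝ), c ∈ T (pt w (q + 3 - σ * τ))) : q + σ * (3 / 2) ∈ Dr T (pt w (q + 3)) c := by
  rw [mem_dr]
  refine (tendsto_circ q σ).frequently ?_
  refine (hc.and_eventually ev_sin_pos).mono fun τ hτ => ⟨hτ.2, ?_⟩
  show c ∈ T (po (pt w (q + 3)) _)
  rw [← pt_po w q σ τ hσ]
  exact hτ.1

/-- the side of `S(z)` on which the circle about the corner runs -/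
theorem circ_side (z : ℂ) {p q σ : ℝ} (hσ : σ = 1 ∨ σ = -1) :
    (0 < σ * Real.sin ((q - p) * (Real.pi / 3)) →
      ∀ᶠ τ in 𝓝[>] (0 : ℝ), dist (pt (pt (pt z p) q) (q + 3 - σ * τ)) z < 1) ∧
    (σ * Real.sin ((q - p) * (Real.pi / 3)) < 0 →
      ∀ᶠ τ in 𝓝[>] (0 : ℝ), 1 < dist (pt (pt (pt z p) q) (q + 3 - σ * τ)) z) := by
  have eP : pt (pt (pt z p) q) (q + 3) = pt z p := by rw [pt_three]; unfold pt; ring
  have ec : Real.cos ((q + σ * (3 / 2) - (p + 3)) * (Real.pi / 3)) = σ * Real.sin ((q - p) * (Real.pi / 3)) := by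
    rcases hσ with rfl | rfl
    · rw [show (q + 1 * (3 / 2) - (p + 3)) * (Real.pi / 3) = (q - p) * (Real.pi / 3) - Real.pi / 2 by ring,
        Real.cos_sub_pi_div_two, one_mul]
    · rw [show (q + -1 * (3 / 2) - (p + 3)) * (Real.pi / 3) = ((q - p) * (Real.pi / 3) - Real.pi / 2) - Real.pi by ring,
        Real.cos_sub_pi, Real.cos_sub_pi_div_two]
      ring
  constructor
  · intro h1
    have h2 := po_dist_near (V := pt z p) (u := p + 3) (θ := q + σ * (3 / 2)) (by rw [ec]; exact h1)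
    filter_upwards [(tendsto_circ q σ).eventually h2, ev_sin_pos] with τ h3 h4
    rw [pt_po _ q σ τ hσ, eP]
    have := h3 h4
    rwa [Hub.pt_back] at this
  · intro h1
    have h2 := po_dist_far (V := pt z p) (u := p + 3) (θ := q + σ * (3 / 2)) (by rw [ec]; exact h1)
    filter_upwards [(tendsto_circ q σ).eventually h2, ev_sin_pos] with τ h3 h4
    rw [pt_po _ q σ τ hσ, eP]
    have := h3 h4
    rwa [Hub.pt_back] at this

theorem tendsto_ptc (w : ℂ) (q σ : ℝ) :
    Tendsto (fun τ : ℝ => pt w (q + 3 - σ * τ)) (𝓝[>] 0) (𝓝 (pt w (q + 3))) := by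
  have : Continuous fun τ : ℝ => pt w (q + 3 - σ * τ) := (continuous_pt w).comp (by fun_prop)
  have h2 := this.tendsto 0
  simp only [mul_zero, sub_zero] at h2
  exact h2.mono_left nhdsWithin_le_nhds

namespace HubW

variable {z : ℂ} {p s : ℝ} {i o x : Fin 6}

/-- **the inner wall**: `i ∈ T w`: the part of `S(w)` inside `D(z)` next to `P` is exact `{i, x}` -/
theorem exact_in (H : HubW U T z p s i o x) {q σ : ℝ} (hσ : σ = 1 ∨ σ = -1)
    (h1 : 0 < σ * Real.sin ((q - p) * (Real.pi / 3))) (hi : i ∈ Pal U (pt (pt z p) q))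
    (hx : x ∈ Pal U (pt (pt z p) q)) :
    ∀ᶠ τ in 𝓝[>] (0 : ℝ), T (pt (pt (pt z p) q) (q + 3 - σ * τ)) = {i, x} := by
  have eP : pt (pt (pt z p) q) (q + 3) = pt z p := by rw [pt_three]; unfold pt; ring
  have ht := tendsto_ptc (pt (pt z p) q) q σ
  rw [eP] at ht
  filter_upwards [(circ_side z hσ).1 h1, ht.eventually (H.inW hi hx)] with τ h2 h3
  exact h3 (dist_pt _ _) h2

/-- **the outer wall** -/
theorem exact_out (H : HubW U T z p s i o x) {q σ : ℝ} (hσ : σ = 1 ∨ σ = -1)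
    (h1 : σ * Real.sin ((q - p) * (Real.pi / 3)) < 0) (ho : o ∈ Pal U (pt (pt z p) q))
    (hx : x ∈ Pal U (pt (pt z p) q)) :
    ∀ᶠ τ in 𝓝[>] (0 : ℝ), T (pt (pt (pt z p) q) (q + 3 - σ * τ)) = {o, x} := by
  have eP : pt (pt (pt z p) q) (q + 3) = pt z p := by rw [pt_three]; unfold pt; ring
  have ht := tendsto_ptc (pt (pt z p) q) q σ
  rw [eP] at ht
  filter_upwards [(circ_side z hσ).2 h1, ht.eventually (H.outW ho hx)] with τ h2 h3
  exact h3 (dist_pt _ _) h2

/-- `i ∈ T w`: the direction `l` of the corner is a direction of `x` and of `i` at the hub -/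
theorem dr_inner (H : HubW U T z p s i o x) {l q : ℝ} (hl : Rel p s l q) (hi : i ∈ Pal U (pt (pt z p) q))
    (hx : x ∈ Pal U (pt (pt z p) q)) : p + s * l ∈ Dr T (pt z p) x ∧ p + s * l ∈ Dr T (pt z p) i := by
  have eP : pt (pt (pt z p) q) (q + 3) = pt z p := by rw [pt_three]; unfold pt; ring
  obtain ⟨h1, h2, h3⟩ := hl
  have hsr := Hub.sin_rel (p := p) H.sg (l := l) (q := q) ⟨h1, h2⟩
  have key : ∀ σ : ℝ, (σ = 1 ∨ σ = -1) → 0 < σ * Real.sin ((q - p) * (Real.pi / 3)) →
      q + σ * (3 / 2) ∈ Dr T (pt z p) x ∧ q + σ * (3 / 2) ∈ Dr T (pt z p) i := by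
    intro σ hσ h4
    have h5 := H.exact_in hσ h4 hi hx
    rw [← eP]
    exact ⟨dr_circ hσ (h5.mono fun τ h6 => by rw [h6]; simp).frequently,
      dr_circ hσ (h5.mono fun τ h6 => by rw [h6]; simp).frequently⟩
  rcases h3 with h3 | h3
  · have h4 := key s H.sg (hsr.1 h3)
    rw [h3] at h4
    rw [show p + s * (l - 3 / 2) + s * (3 / 2) = p + s * l by ring] at h4
    exact h4
  · have h4 := key (-s) (by rcases H.sg with h | h <;> rw [h] <;> norm_num) (by have := hsr.2 h3; linarith)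
    rw [h3] at h4
    rcases H.sg with rfl | rfl
    · rw [show p + 1 * (l - 9 / 2) + -1 * (3 / 2) = p + 1 * l + 6 * ((-1 : ℤ) : ℝ) by push_cast; ring] at h4
      rwa [dr_per_int, dr_per_int] at h4
    · rw [show p + -1 * (l - 9 / 2) + - -1 * (3 / 2) = p + -1 * l + 6 * ((1 : ℤ) : ℝ) by push_cast; ring] at h4
      rwa [dr_per_int, dr_per_int] at h4

/-- `o ∈ T w`: the direction `l - 3` is a direction of `x` and of `o` at the hub -/
theorem dr_outer (H : HubW U T z p s i o x) {l q : ℝ} (hl : Rel p s l q) (ho : o ∈ Pal U (pt (pt z p) q))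
    (hx : x ∈ Pal U (pt (pt z p) q)) :
    p + s * (l - 3) ∈ Dr T (pt z p) x ∧ p + s * (l - 3) ∈ Dr T (pt z p) o := by
  have eP : pt (pt (pt z p) q) (q + 3) = pt z p := by rw [pt_three]; unfold pt; ring
  obtain ⟨h1, h2, h3⟩ := hl
  have hsr := Hub.sin_rel (p := p) H.sg (l := l) (q := q) ⟨h1, h2⟩
  have key : ∀ σ : ℝ, (σ = 1 ∨ σ = -1) → σ * Real.sin ((q - p) * (Real.pi / 3)) < 0 →
      q + σ * (3 / 2) ∈ Dr T (pt z p) x ∧ q + σ * (3 / 2) ∈ Dr T (pt z p) o := by
    intro σ hσ h4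
    have h5 := H.exact_out hσ h4 ho hx
    rw [← eP]
    exact ⟨dr_circ hσ (h5.mono fun τ h6 => by rw [h6]; simp).frequently,
      dr_circ hσ (h5.mono fun τ h6 => by rw [h6]; simp).frequently⟩
  rcases h3 with h3 | h3
  · have h4 := key (-s) (by rcases H.sg with h | h <;> rw [h] <;> norm_num) (by have := hsr.1 h3; linarith)
    rw [h3] at h4
    rw [show p + s * (l - 3 / 2) + -s * (3 / 2) = p + s * (l - 3) by ring] at h4
    exact h4
  · have h4 := key s H.sg (hsr.2 h3)
    rw [h3] at h4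
    rw [show p + s * (l - 9 / 2) + s * (3 / 2) = p + s * (l - 3) by ring] at h4
    exact h4

/-- **the corner with the inner colour is the last one** -/
theorem le_of_inner (H : HubW U T z p s i o x) {l q l' q' : ℝ} (K : CorW U T z p s i o x l q)
    (K' : CorW U T z p s i o x l' q') (hi : i ∈ T (pt (pt z p) q)) : l' ≤ l := by
  by_contra hcon
  push Not at hcon
  have h1 := H.dir_x K' (H.dr_inner K.rel (H.irr.sub _ hi) (H.irr.sub _ (H.xw K))).1
  have h2 := Hub.sin_lt (t := l - l') (by linarith [K.rel.1, K'.rel.2.1]) (by linarith)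
  linarith

/-- **the corner with the outer colour is the first one** -/
theorem le_of_outer (H : HubW U T z p s i o x) {l q l' q' : ℝ} (K : CorW U T z p s i o x l q)
    (K' : CorW U T z p s i o x l' q') (ho : o ∈ T (pt (pt z p) q)) : l ≤ l' := by
  by_contra hcon
  push Not at hcon
  have h1 := H.dir_x K' (H.dr_outer K.rel (H.irr.sub _ ho) (H.irr.sub _ (H.xw K))).1
  have h2 := Hub.sin_gt (t := l - l') (by linarith) (by linarith [K.rel.2.1, K'.rel.1])
  rw [show (l - 3 - l') * (Real.pi / 3) = (l - l') * (Real.pi / 3) - Real.pi by ring, Real.sin_sub_pi] at h1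
  linarith

/-- **Hub lines, wild.** -/
theorem lines (H : HubW U T z p s i o x) {l₁ l₂ l₃ q₁ q₂ q₃ : ℝ} (K₁ : CorW U T z p s i o x l₁ q₁)
    (K₂ : CorW U T z p s i o x l₂ q₂) (K₃ : CorW U T z p s i o x l₃ q₃) (h12 : l₁ < l₂) (h23 : l₂ < l₃) : False := by
  rcases K₂.io with h | h
  · exact absurd (H.le_of_inner K₂ K₃ h) (not_le.2 h23)
  · exact absurd (H.le_of_outer K₂ K₁ h) (not_le.2 h12)

end HubW

/-! ### existence -/

/-- a direction off the line of `p` has a relative angle, up to full turns -/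
theorem exists_rel {p s q : ℝ} (hs : s = 1 ∨ s = -1) (hq : Real.sin ((q - p) * (Real.pi / 3)) ≠ 0) :
    ∃ (l : ℝ) (n : ℤ), Rel p s l (q + 6 * n) := by
  have hss : s * s = 1 := by rcases hs with rfl | rfl <;> norm_num
  -- reduce `s (q - p)` modulo `6` to `[-3, 3)`
  set m : ℤ := ⌊(s * (q - p) + 3) / 6⌋ with hm
  have f1 := Int.floor_le ((s * (q - p) + 3) / 6)
  have f2 := Int.lt_floor_add_one ((s * (q - p) + 3) / 6)
  rw [← hm] at f1 f2
  set v := s * (q - p) - 6 * m with hv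
  have v1 : -3 ≤ v := by rw [hv]; linarith
  have v2 : v < 3 := by rw [hv]; linarith
  obtain ⟨n, hn⟩ : ∃ n : ℤ, (n : ℝ) = -s * m := by
    rcases hs with rfl | rfl
    · exact ⟨-m, by push_cast; ring⟩
    · exact ⟨m, by ring⟩
  have hqn : q + 6 * (n : ℝ) = p + s * v := by
    rw [hn, hv]
    linear_combination (-(q - p)) * hss
  have hsin : Real.sin ((q - p) * (Real.pi / 3)) = Real.sin (s * v * (Real.pi / 3)) := by
    have e : (q - p) * (Real.pi / 3) = s * v * (Real.pi / 3) - n * (2 * Real.pi) := by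
      have : q = p + s * v - 6 * n := by linarith
      rw [this]; ring
    rw [e, Real.sin_sub_int_mul_two_pi]
  have v0 : v ≠ 0 := by
    intro h0
    apply hq
    rw [hsin, h0]; simp
  have v3 : v ≠ -3 := by
    intro h0
    apply hq
    rw [hsin, h0]
    rcases hs with rfl | rfl
    · rw [show (1 : ℝ) * -3 * (Real.pi / 3) = -Real.pi by ring, Real.sin_neg, Real.sin_pi, neg_zero]
    · rw [show (-1 : ℝ) * -3 * (Real.pi / 3) = Real.pi by ring, Real.sin_pi]
  rcases lt_or_gt_of_ne v0 with h0 | h0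
  · have h3 : -3 < v := lt_of_le_of_ne v1 (Ne.symm v3)
    exact ⟨v + 9 / 2, n, by linarith, by linarith, Or.inr (by rw [hqn]; ring)⟩
  · exact ⟨v + 3 / 2, n, by linarith, by linarith, Or.inl (by rw [hqn]; ring)⟩

/-- the middle of an exact arc: none of its colours at `R + Q - z` -/
theorem off_mid (h : Irr U T) {z : ℂ} {p s q δ r : ℝ} {i : Fin 6} (hs : s = 1 ∨ s = -1)
    (harc : ∀ t : ℝ, 0 < t → t < δ → i ∈ T (pt z (p + s * t))) (hr : 0 < r) (hr' : r < δ)
    (hq : Real.sin ((q - (p + s * r)) * (Real.pi / 3)) ≠ 0) : i ∉ T (pt (pt z (p + s * r)) q) := by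
  intro hi
  have hpre : ∀ a b : ℝ, IsPreconnected ((fun t : ℝ => pt z (p + s * t)) '' Icc a b) := fun a b =>
    isPreconnected_Icc.image _ ((continuous_pt z).comp (by fun_prop)).continuousOn
  have hsm : ∀ᶠ t in 𝓝[>] (0 : ℝ), 0 < t ∧ t < r ∧ t < δ - r := by
    filter_upwards [self_mem_nhdsWithin, mem_nhdsWithin_of_mem_nhds (Iio_mem_nhds hr),
      mem_nhdsWithin_of_mem_nhds (Iio_mem_nhds (show (0 : ℝ) < δ - r by linarith))] with t a b c using ⟨a, b, c⟩
  have hq' : s * Real.sin ((q - (p + s * r)) * (Real.pi / 3)) ≠ 0 := by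
    rcases hs with rfl | rfl
    · simpa using hq
    · simpa using hq
  have e1 : ∀ t : ℝ, p + s * r + s * t = p + s * (r + t) := fun t => by ring
  have e2 : ∀ t : ℝ, p + s * r - s * t = p + s * (r - t) := fun t => by ring
  rcases lt_or_gt_of_ne hq' with h0 | h0
  · obtain ⟨t, h1, h2, h3⟩ := ((ev_neg z hs h0).1.and ((ev_neg z hs h0).2.and hsm)).exists
    rw [e1] at h1
    rw [e2] at h2
    exact crossing h (hpre (r - t) (r + t)) (i := i) (by
      rintro _ ⟨u, hu, rfl⟩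
      exact harc u (by linarith [hu.1]) (by linarith [hu.2])) hi (p := pt z (p + s * (r - t)))
      (q := pt z (p + s * (r + t))) ⟨r - t, ⟨le_rfl, by linarith⟩, rfl⟩ ⟨r + t, ⟨by linarith, le_rfl⟩, rfl⟩ h2 h1
  · obtain ⟨t, h1, h2, h3⟩ := ((ev_pos z hs h0).1.and ((ev_pos z hs h0).2.and hsm)).exists
    rw [e1] at h1
    rw [e2] at h2
    exact crossing h (hpre (r - t) (r + t)) (i := i) (by
      rintro _ ⟨u, hu, rfl⟩
      exact harc u (by linarith [hu.1]) (by linarith [hu.2])) hi (p := pt z (p + s * (r + t)))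
      (q := pt z (p + s * (r - t))) ⟨r + t, ⟨by linarith, le_rfl⟩, rfl⟩ ⟨r - t, ⟨le_rfl, by linarith⟩, rfl⟩ h1 h2

namespace HubW

variable {z : ℂ} {p s : ℝ} {i o x : Fin 6}

/-- the arc of the hub, shifted to a complementary three-coloured point, is solid in the third colour -/
theorem sol_of (H : HubW U T z p s i o x) {q : ℝ} {c d y : Fin 6} (nd : [i, o, c, d, x, y].Nodup)
    (hQ : T (pt z q) = {c, d, y}) (hq : Real.sin ((q - p) * (Real.pi / 3)) ≠ 0) :
    ∀ᶠ r in 𝓝[>] (0 : ℝ), x ∈ T (pt (pt z q) (p + s * r)) := by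
  obtain ⟨δ, hδ, hd⟩ := mem_nhdsGT_iff_exists_Ioo_subset.1 H.arc
  have harc : ∀ t : ℝ, 0 < t → t < δ → T (pt z (p + s * t)) = {i, o} := fun t h1 h2 => hd ⟨h1, h2⟩
  have hc : Continuous fun r : ℝ => Real.sin ((q - (p + s * r)) * (Real.pi / 3)) := by fun_prop
  have h1 : ∀ᶠ r in 𝓝 (0 : ℝ), Real.sin ((q - (p + s * r)) * (Real.pi / 3)) ≠ 0 := by
    refine hc.continuousAt.eventually_ne ?_
    simpa using hq
  have h3' : (T (pt z q)).ncard ≤ 3 := by
    rw [hQ]; exact (Set.ncard_insert_le _ _).trans (by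
      have := Set.ncard_insert_le d ({y} : Set (Fin 6))
      rw [Set.ncard_singleton] at this; omega)
  filter_upwards [self_mem_nhdsWithin, mem_nhdsWithin_of_mem_nhds (Iio_mem_nhds (show (0 : ℝ) < δ from hδ)),
    mem_nhdsWithin_of_mem_nhds h1] with r hr0 hr1 hr2
  have hi := off_mid H.irr (i := i) H.sg (fun t a b => by rw [harc t a b]; simp) hr0 hr1 hr2
  have ho := off_mid H.irr (i := o) H.sg (fun t a b => by rw [harc t a b]; simp) hr0 hr1 hr2
  rw [pt_comm] at hi ho
  obtain ⟨t, ht1, ht2⟩ := H.irr.not_sub' (x := pt z q) (y := pt (pt z q) (p + s * r)) (dist_pt _ _) h3'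
  rw [hQ] at ht2
  rcases all6 nd t with rfl | rfl | rfl | rfl | rfl | rfl
  · exact absurd ht1 hi
  · exact absurd ht1 ho
  · exact absurd (by simp) ht2
  · exact absurd (by simp) ht2
  · exact ht1
  · exact absurd (by simp) ht2

/-- **a complementary three-coloured point gives a corner** -/
theorem exists_cor (H : HubW U T z p s i o x) {q : ℝ} {c d y : Fin 6} (hz : DPt T z i o c d)
    (nd : [i, o, c, d, x, y].Nodup) (hQ : T (pt z q) = {c, d, y}) :
    ∃ (l : ℝ) (n : ℤ), CorW U T z p s i o x l (q + 6 * n) := by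
  have nd' := nd
  simp only [List.nodup_cons, List.mem_cons, List.not_mem_nil, or_false, not_or, List.nodup_nil,
    and_true, not_false_eq_true] at nd'
  obtain ⟨⟨-, -, -, ix, iy⟩, ⟨-, -, ox, oy⟩, ⟨-, cx, cy⟩, ⟨dx, dy⟩, xy⟩ := nd'
  have C : Cfg T z (pt z p) (pt z q) i o c d x y := ⟨hz, dist_pt _ _, dist_pt _ _, H.pal, hQ, by
    rw [hz.pal]; simp only [mem_insert_iff, mem_singleton_iff, not_or]
    exact ⟨Ne.symm ix, Ne.symm ox, Ne.symm cx, Ne.symm dx⟩, by
    rw [hz.pal]; simp only [mem_insert_iff, mem_singleton_iff, not_or]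
    exact ⟨Ne.symm iy, Ne.symm oy, Ne.symm cy, Ne.symm dy⟩, xy⟩
  have hsin : Real.sin ((q - p) * (Real.pi / 3)) ≠ 0 := by
    intro h0
    have hcr : cr (pt z p - z) (pt z q - z) = 0 := by
      unfold cr pt
      simp only [add_sub_cancel_left, cis_re, cis_im]
      have e : Real.sin ((q - p) * (Real.pi / 3)) =
          Real.sin (q * (Real.pi / 3)) * Real.cos (p * (Real.pi / 3)) -
            Real.cos (q * (Real.pi / 3)) * Real.sin (p * (Real.pi / 3)) := by
        rw [← Real.sin_sub]; ring_nf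
      rw [e] at h0
      linarith
    exact cr_ne_of (dist_pt z p) (dist_pt z q) C.VQ (C.anti H.irr) hcr
  obtain ⟨l, n, hl⟩ := exists_rel (p := p) (s := s) H.sg hsin
  have e0 : pt z (q + 6 * (n : ℝ)) = pt z q := pt_per z q n
  have e1 : pt (pt z p) (q + 6 * (n : ℝ)) = pt z p + pt z q - z := by
    rw [pt_pg, e0]
  refine ⟨l, n, hl, ?_, ?_⟩
  · rw [e0]; exact H.sol_of nd hQ hsin
  · rw [e1]
    obtain ⟨t, h1, h2, h3⟩ := C.two_V H.irr x
    rw [H.pal] at h2
    rcases h2 with rfl | rfl | h2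
    · exact Or.inl h1
    · exact Or.inr h1
    · exact absurd h2 h3

end HubW

/-- **the hub of a two-pair centre** -/
theorem exists_hub (h : Irr U T) {z : ℂ} {a b c d x : Fin 6} (hz : DPt T z a b c d) {p s : ℝ} (hs : s = 1 ∨ s = -1)
    (hP : T (pt z p) = {a, b, x}) (harc : ∀ᶠ r in 𝓝[>] (0 : ℝ), T (pt z (p + s * r)) = {a, b}) :
    HubW U T z p s a b x ∨ HubW U T z p s b a x := by
  rcases h.sides hz (dist_pt z p) with h1 | h1
  · exact Or.inl ⟨h, hs, hP, h1, harc⟩
  · refine Or.inr ⟨h, hs, ?_, h1, harc.mono fun r hr => by rw [hr, pair_comm]⟩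
    rw [hP]; ext i; simp only [mem_insert_iff, mem_singleton_iff]; tauto

end Vale.Agent.P032.H183
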