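import Vale.Agent.P032.H183.Chain

/-!
# P032: columns of exact arcs and the needle

`Col z s l e` is the union of the arcs of `S(z (i+1))` from `z i` to `z (i+2)`, `i = e, e+2, e+4, ..`.
If all these arcs are exact with the common outer colour `r`, then (`far`, `near`) the column of
`z (i+1)` is at distance at least one, the column of `z i` at distance at most one from `z i`; if
`r` is the common inner colour, all distances are at most one (`near_in`).

`Irr.cluster`: a bounded sequence with differences tending to zero, such that two consecutive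
members have five colours together, is impossible.
-/

open Set Filter Topology Metric

noncomputable section

namespace Vale.Agent.P032.Six

variable {k : ℕ} {U : Fin k → Set ℂ} {T : ℂ → Set (Fin k)}

/-- inside `S(z)` near `p` there is only the inner colour -/
theorem Irr.half_in183 (h : Irr U T) {z p : ℂ} {x y : Fin k} (hT : T p ⊆ {x, y})
    (hs : Sd U z p x y) : ∀ᶠ w in 𝓝 p, dist w z < 1 → w ∈ U x := by
  filter_upwards [hs, h.nhd p] with w h1 h2 h3
  refine h.mem_of_single fun i hi => ?_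
  rcases hT (h2 hi) with rfl | rfl
  · rfl
  · exact absurd (h.sub _ hi) (h1.2 h3)

/-- outside `S(z)` near `p` there is only the outer colour -/
theorem Irr.half_out183 (h : Irr U T) {z p : ℂ} {x y : Fin k} (hT : T p ⊆ {x, y})
    (hs : Sd U z p x y) : ∀ᶠ w in 𝓝 p, 1 < dist w z → w ∈ U y := by
  filter_upwards [hs, h.nhd p] with w h1 h2 h3
  refine h.mem_of_single fun i hi => ?_
  rcases hT (h2 hi) with rfl | rfl
  · exact absurd (h.sub _ hi) (h1.1 h3)
  · rfl

/-- a point just outside or just inside -/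
theorem Irr.radial_out (h : Irr U T) {z p : ℂ} {x y : Fin k} (hp : dist p z = 1) (hT : T p ⊆ {x, y})
    (hs : Sd U z p x y) : ∀ᶠ e : ℝ in 𝓝[>] 0, p + e * (p - z) ∈ U y := by
  have h1 : Tendsto (fun e : ℝ => p + e * (p - z)) (𝓝[>] 0) (𝓝 p) := by
    have : Continuous fun e : ℝ => p + e * (p - z) := by fun_prop
    have h2 := this.tendsto 0
    simp only [Complex.ofReal_zero, zero_mul, add_zero] at h2
    exact h2.mono_left nhdsWithin_le_nhds
  filter_upwards [h1.eventually (h.half_out183 hT hs), self_mem_nhdsWithin] with e h2 h3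
  have h3' : (0 : ℝ) < e := h3
  apply h2
  rw [dist_eq_norm, show p + e * (p - z) - z = (1 + e : ℝ) * (p - z) by push_cast; ring, norm_mul,
    ← dist_eq_norm, hp, mul_one, Complex.norm_real, Real.norm_eq_abs, abs_of_pos (by linarith)]
  linarith

theorem Irr.radial_in (h : Irr U T) {z p : ℂ} {x y : Fin k} (hp : dist p z = 1) (hT : T p ⊆ {x, y})
    (hs : Sd U z p x y) : ∀ᶠ e : ℝ in 𝓝[>] 0, p - e * (p - z) ∈ U x := by
  have h1 : Tendsto (fun e : ℝ => p - e * (p - z)) (𝓝[>] 0) (𝓝 p) := by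
    have : Continuous fun e : ℝ => p - e * (p - z) := by fun_prop
    have h2 := this.tendsto 0
    simp only [Complex.ofReal_zero, zero_mul, sub_zero] at h2
    exact h2.mono_left nhdsWithin_le_nhds
  filter_upwards [h1.eventually (h.half_in183 hT hs), Ioo_mem_nhdsGT (zero_lt_one' ℝ)] with e h2 h3
  apply h2
  rw [dist_eq_norm, show p - e * (p - z) - z = (1 - e : ℝ) * (p - z) by push_cast; ring, norm_mul,
    ← dist_eq_norm, hp, mul_one, Complex.norm_real, Real.norm_eq_abs, abs_of_pos (by linarith [h3.2])]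
  linarith [h3.1]

/-- a connected set of palette colour `y` and a point of `U y` -/
theorem Irr.side_lt (h : Irr U T) {q g0 : ℂ} {y : Fin k} (hq : q ∈ U y) {G : Set ℂ}
    (hG : IsPreconnected G) (hy : ∀ g ∈ G, y ∈ Pal U g) (h0 : g0 ∈ G) (hd : dist g0 q < 1) :
    ∀ g ∈ G, dist g q < 1 := by
  intro g hg
  by_contra hcon
  have hcont : ContinuousOn (fun g : ℂ => dist g q) G := by fun_prop
  obtain ⟨g', hg', h1⟩ := hG.intermediate_value h0 hg hcont ⟨hd.le, not_lt.1 hcon⟩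
  exact h.mx.free y q hq g' (hy g' hg') (by rw [dist_comm]; exact h1)

theorem Irr.side_gt (h : Irr U T) {q g0 : ℂ} {y : Fin k} (hq : q ∈ U y) {G : Set ℂ}
    (hG : IsPreconnected G) (hy : ∀ g ∈ G, y ∈ Pal U g) (h0 : g0 ∈ G) (hd : 1 < dist g0 q) :
    ∀ g ∈ G, 1 < dist g q := by
  intro g hg
  by_contra hcon
  have hcont : ContinuousOn (fun g : ℂ => dist g q) G := by fun_prop
  obtain ⟨g', hg', h1⟩ := hG.intermediate_value hg h0 hcont ⟨not_lt.1 hcon, hd.le⟩
  exact h.mx.free y q hq g' (hy g' hg') (by rw [dist_comm]; exact h1)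

/-- the set through the centre is far from an inner point of an arc, outer colour -/
theorem Irr.col_far (h : Irr U T) {z p : ℂ} {x y : Fin k} (hp : dist p z = 1) (hT : T p ⊆ {x, y})
    (hs : Sd U z p x y) {G : Set ℂ} (hG : IsPreconnected G) (hy : ∀ g ∈ G, y ∈ Pal U g)
    (hz : z ∈ G) : ∀ g ∈ G, 1 ≤ dist g p := by
  intro g hg
  have hc : Tendsto (fun e : ℝ => dist g (p + e * (p - z))) (𝓝[>] 0) (𝓝 (dist g p)) := by
    have : Continuous fun e : ℝ => dist g (p + e * (p - z)) := by fun_prop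
    have h2 := this.tendsto 0
    simp only [Complex.ofReal_zero, zero_mul, add_zero] at h2
    exact h2.mono_left nhdsWithin_le_nhds
  refine ge_of_tendsto hc ?_
  filter_upwards [h.radial_out hp hT hs, self_mem_nhdsWithin] with e h1 h2
  have h2' : (0 : ℝ) < e := h2
  refine (h.side_gt h1 hG hy hz ?_ g hg).le
  rw [dist_comm, dist_eq_norm, show p + e * (p - z) - z = (1 + e : ℝ) * (p - z) by push_cast; ring,
    norm_mul, ← dist_eq_norm, hp, mul_one, Complex.norm_real, Real.norm_eq_abs,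
    abs_of_pos (by linarith)]
  linarith

/-- the set through an inner point of an arc is near to it, outer colour -/
theorem Irr.col_near (h : Irr U T) {z p : ℂ} {x y : Fin k} (hp : dist p z = 1) (hT : T p ⊆ {x, y})
    (hs : Sd U z p x y) {G : Set ℂ} (hG : IsPreconnected G) (hy : ∀ g ∈ G, y ∈ Pal U g)
    (hpG : p ∈ G) : ∀ g ∈ G, dist g p ≤ 1 := by
  intro g hg
  have hc : Tendsto (fun e : ℝ => dist g (p + e * (p - z))) (𝓝[>] 0) (𝓝 (dist g p)) := by
    have : Continuous fun e : ℝ => dist g (p + e * (p - z)) := by fun_prop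
    have h2 := this.tendsto 0
    simp only [Complex.ofReal_zero, zero_mul, add_zero] at h2
    exact h2.mono_left nhdsWithin_le_nhds
  refine le_of_tendsto hc ?_
  filter_upwards [h.radial_out hp hT hs, Ioo_mem_nhdsGT (zero_lt_one' ℝ)] with e h1 h2
  refine (h.side_lt h1 hG hy hpG ?_ g hg).le
  rw [dist_eq_norm, show p - (p + e * (p - z)) = -((e : ℝ) * (p - z)) by ring, norm_neg,
    norm_mul, ← dist_eq_norm, hp, mul_one, Complex.norm_real, Real.norm_eq_abs, abs_of_pos h2.1]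
  exact h2.2

/-- inner colour: a connected set through the centre or through the point -/
theorem Irr.col_in (h : Irr U T) {z p : ℂ} {x y : Fin k} (hp : dist p z = 1) (hT : T p ⊆ {x, y})
    (hs : Sd U z p x y) {G : Set ℂ} (hG : IsPreconnected G) (hx : ∀ g ∈ G, x ∈ Pal U g)
    (hz : z ∈ G ∨ p ∈ G) : ∀ g ∈ G, dist g p ≤ 1 := by
  intro g hg
  have hc : Tendsto (fun e : ℝ => dist g (p - e * (p - z))) (𝓝[>] 0) (𝓝 (dist g p)) := by
    have : Continuous fun e : ℝ => dist g (p - e * (p - z)) := by fun_prop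
    have h2 := this.tendsto 0
    simp only [Complex.ofReal_zero, zero_mul, sub_zero] at h2
    exact h2.mono_left nhdsWithin_le_nhds
  refine le_of_tendsto hc ?_
  filter_upwards [h.radial_in hp hT hs, Ioo_mem_nhdsGT (zero_lt_one' ℝ)] with e h1 h2
  rcases hz with hz | hz
  · refine (h.side_lt h1 hG hx hz ?_ g hg).le
    rw [dist_comm, dist_eq_norm,
      show p - e * (p - z) - z = (1 - e : ℝ) * (p - z) by push_cast; ring,
      norm_mul, ← dist_eq_norm, hp, mul_one, Complex.norm_real, Real.norm_eq_abs,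
      abs_of_pos (by linarith [h2.2])]
    linarith [h2.1]
  · refine (h.side_lt h1 hG hx hz ?_ g hg).le
    rw [dist_eq_norm, show p - (p - e * (p - z)) = (e : ℝ) * (p - z) by ring,
      norm_mul, ← dist_eq_norm, hp, mul_one, Complex.norm_real, Real.norm_eq_abs, abs_of_pos h2.1]
    exact h2.2

/-- **Cluster points.** -/
theorem Irr.cluster (h : Irr U T) (h4 : ∀ z, (T z).ncard ≤ 4) {y : ℕ → ℂ} {C : ℝ}
    (hb : ∀ i, dist (y i) (y 0) ≤ C) (hd : Tendsto (fun i => y (i + 1) - y i) atTop (𝓝 0))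
    (h5 : ∀ i, 5 ≤ (T (y i) ∪ T (y (i + 1))).ncard) : False := by
  obtain ⟨a, -, φ, hφ, ha⟩ := tendsto_subseq_of_bounded (x := y) (s := closedBall (y 0) C)
    isBounded_closedBall (fun i => mem_closedBall.2 (hb i))
  have ha' : Tendsto (fun i => y (φ i + 1)) atTop (𝓝 a) := by
    have h1 := ha.add (hd.comp hφ.tendsto_atTop)
    rw [add_zero] at h1
    refine h1.congr fun i => ?_
    simp only [Function.comp_apply]
    ring
  obtain ⟨i, h1, h2⟩ := ((ha.eventually (h.nhd a)).and (ha'.eventually (h.nhd a))).exists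
  have h3 := h5 (φ i)
  have h6 : T (y (φ i)) ∪ T (y (φ i + 1)) ⊆ T a := union_subset h1 h2
  have h7 := Set.ncard_le_ncard h6 (Set.toFinite _)
  have h8 := h4 a
  omega

/-- the arc of `S(z (i+1))` from `z i` -/
def arcS (z : ℕ → ℂ) (s l : ℕ → ℝ) (i : ℕ) : Set ℂ :=
  (fun t => hb (z (i + 1)) (z i) (s i) t) '' Icc 0 (l i)

/-- the column through `z e`, `z (e+2)`, .. -/
def Col (z : ℕ → ℂ) (s l : ℕ → ℝ) (e : ℕ) : Set ℂ := ⋃ n, arcS z s l (e + 2 * n)

/-- the data of a needle: consecutive points at distance one, rotations about `z (i+1)` -/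
structure Ndl (z : ℕ → ℂ) (s l : ℕ → ℝ) : Prop where
  d1 : ∀ i, dist (z i) (z (i + 1)) = 1
  hs : ∀ i, s i = 1 ∨ s i = -1
  l0 : ∀ i, 0 < l i
  l1 : ∀ i, l i < Real.pi
  step : ∀ i, z (i + 2) = hb (z (i + 1)) (z i) (s i) (l i)

variable {z : ℕ → ℂ} {s l : ℕ → ℝ}

theorem Ndl.left_mem (_N : Ndl z s l) (i : ℕ) : z i ∈ arcS z s l i := by
  refine ⟨0, ⟨le_refl _, (_N.l0 i).le⟩, ?_⟩
  simp only [hb_eq_an, mul_zero, an_zero]

theorem Ndl.right_mem (N : Ndl z s l) (i : ℕ) : z (i + 2) ∈ arcS z s l i :=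
  ⟨l i, ⟨(N.l0 i).le, le_refl _⟩, (N.step i).symm⟩

theorem Ndl.arc_pre (_N : Ndl z s l) (i : ℕ) : IsPreconnected (arcS z s l i) := by
  refine isPreconnected_Icc.image _ (Continuous.continuousOn ?_)
  unfold hb
  have := continuous_cis
  fun_prop

theorem Ndl.col_pre (N : Ndl z s l) (e : ℕ) : IsPreconnected (Col z s l e) := by
  refine IsPreconnected.iUnion_of_chain (fun n => N.arc_pre _) fun n => ?_
  refine ⟨z (e + 2 * n + 2), N.right_mem _, ?_⟩
  have h1 := N.left_mem (e + 2 * (n + 1))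
  have h2 : Order.succ n = n + 1 := rfl
  rw [h2, show e + 2 * n + 2 = e + 2 * (n + 1) by ring]
  exact h1

theorem Ndl.mem_col (N : Ndl z s l) (e n : ℕ) : z (e + 2 * n) ∈ Col z s l e :=
  mem_iUnion.2 ⟨n, N.left_mem _⟩

theorem Ndl.arc_sub (_N : Ndl z s l) (e n : ℕ) : arcS z s l (e + 2 * n) ⊆ Col z s l e :=
  subset_iUnion (fun n => arcS z s l (e + 2 * n)) n

/-- the arcs have the colour `r` -/
def Clr (U : Fin k → Set ℂ) (z : ℕ → ℂ) (s l : ℕ → ℝ) (r : Fin k) : Prop :=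
  ∀ i, ∀ g ∈ arcS z s l i, r ∈ Pal U g

theorem Clr.col {r : Fin k} (hc : Clr U z s l r) (e : ℕ) : ∀ g ∈ Col z s l e, r ∈ Pal U g := by
  intro g hg
  obtain ⟨n, hn⟩ := mem_iUnion.1 hg
  exact hc _ g hn

/-- exact arcs with `r` outside -/
structure Out (U : Fin k → Set ℂ) (T : ℂ → Set (Fin k)) (z : ℕ → ℂ) (s l : ℕ → ℝ) (r : Fin k) :
    Prop where
  clr : Clr U z s l r
  ex : ∀ i, ∀ t ∈ Ioo 0 (l i), ∃ x, T (hb (z (i + 1)) (z i) (s i) t) ⊆ {x, r} ∧
    Sd U (z (i + 1)) (hb (z (i + 1)) (z i) (s i) t) x r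

/-- exact arcs with `r` inside -/
structure Inn (U : Fin k → Set ℂ) (T : ℂ → Set (Fin k)) (z : ℕ → ℂ) (s l : ℕ → ℝ) (r : Fin k) :
    Prop where
  clr : Clr U z s l r
  ex : ∀ i, ∀ t ∈ Ioo 0 (l i), ∃ y, T (hb (z (i + 1)) (z i) (s i) t) ⊆ {r, y} ∧
    Sd U (z (i + 1)) (hb (z (i + 1)) (z i) (s i) t) r y

/-- limits of inner points of an arc -/
theorem Ndl.lim (N : Ndl z s l) (i : ℕ) {p : ℝ → Prop} (hp : IsClosed {x | p x}) {g : ℂ}
    (h : ∀ t ∈ Ioo 0 (l i), p (dist g (hb (z (i + 1)) (z i) (s i) t))) : p (dist g (z i)) := by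
  have hc : Tendsto (fun t : ℝ => dist g (hb (z (i + 1)) (z i) (s i) t)) (𝓝[>] 0)
      (𝓝 (dist g (z i))) := by
    have h1 : Tendsto (fun t : ℝ => hb (z (i + 1)) (z i) (s i) t) (𝓝[>] 0) (𝓝 (z i)) :=
      tendsto_hb _ _ _
    exact tendsto_const_nhds.dist h1
  refine hp.mem_of_tendsto hc ?_
  filter_upwards [Ioo_mem_nhdsGT (N.l0 i)] with t ht
  exact h t ht

theorem Out.far (h : Irr U T) (N : Ndl z s l) {r : Fin k} (O : Out U T z s l r) (i : ℕ)
    {G : Set ℂ} (hG : IsPreconnected G) (hy : ∀ g ∈ G, r ∈ Pal U g) (hz : z (i + 1) ∈ G) :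
    ∀ g ∈ G, 1 ≤ dist g (z i) := by
  intro g hg
  refine N.lim i (p := fun x => 1 ≤ x) isClosed_Ici fun t ht => ?_
  obtain ⟨x, h1, h2⟩ := O.ex i t ht
  exact h.col_far (dist_hb (N.d1 i) _ _) h1 h2 hG hy hz g hg

theorem Out.near (h : Irr U T) (N : Ndl z s l) {r : Fin k} (O : Out U T z s l r) (i : ℕ)
    {G : Set ℂ} (hG : IsPreconnected G) (hy : ∀ g ∈ G, r ∈ Pal U g) (hz : arcS z s l i ⊆ G) :
    ∀ g ∈ G, dist g (z i) ≤ 1 := by
  intro g hg
  refine N.lim i (p := fun x => x ≤ 1) isClosed_Iic fun t ht => ?_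
  obtain ⟨x, h1, h2⟩ := O.ex i t ht
  exact h.col_near (dist_hb (N.d1 i) _ _) h1 h2 hG hy (hz ⟨t, ⟨ht.1.le, ht.2.le⟩, rfl⟩) g hg

theorem Inn.near (h : Irr U T) (N : Ndl z s l) {r : Fin k} (O : Inn U T z s l r) (i : ℕ)
    {G : Set ℂ} (hG : IsPreconnected G) (hy : ∀ g ∈ G, r ∈ Pal U g)
    (hz : z (i + 1) ∈ G ∨ arcS z s l i ⊆ G) : ∀ g ∈ G, dist g (z i) ≤ 1 := by
  intro g hg
  refine N.lim i (p := fun x => x ≤ 1) isClosed_Iic fun t ht => ?_
  obtain ⟨y, h1, h2⟩ := O.ex i t ht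
  refine h.col_in (dist_hb (N.d1 i) _ _) h1 h2 hG hy ?_ g hg
  rcases hz with hz | hz
  · exact Or.inl hz
  · exact Or.inr (hz ⟨t, ⟨ht.1.le, ht.2.le⟩, rfl⟩)

theorem par_cases (i : ℕ) : ∃ n, i = 2 * n ∨ i = 1 + 2 * n := by
  rcases Nat.even_or_odd i with ⟨n, hn⟩ | ⟨n, hn⟩
  · exact ⟨n, Or.inl (by omega)⟩
  · exact ⟨n, Or.inr (by omega)⟩

/-- the column of `z i` -/
theorem Ndl.col_of (N : Ndl z s l) (i : ℕ) : ∃ e, e < 2 ∧ i % 2 = e ∧ z i ∈ Col z s l e ∧
    arcS z s l i ⊆ Col z s l e := by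
  obtain ⟨n, h1 | h1⟩ := par_cases i
  · refine ⟨0, by omega, by omega, ?_, ?_⟩
    · have := N.mem_col 0 n
      rw [zero_add] at this
      rw [h1]; exact this
    · have := N.arc_sub 0 n
      rw [zero_add] at this
      rw [h1]; exact this
  · refine ⟨1, by omega, by omega, ?_, ?_⟩
    · rw [h1]; exact N.mem_col 1 n
    · rw [h1]; exact N.arc_sub 1 n

/-- **distances, outer colour** -/
theorem Out.dst (h : Irr U T) (N : Ndl z s l) {r : Fin k} (O : Out U T z s l r) (i j : ℕ) :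
    (i % 2 = j % 2 → dist (z j) (z i) ≤ 1) ∧ (i % 2 ≠ j % 2 → 1 ≤ dist (z j) (z i)) := by
  obtain ⟨e, he, hi, h1, h2⟩ := N.col_of i
  obtain ⟨e', he', hj, h3, -⟩ := N.col_of j
  obtain ⟨e'', he'', hi', h5, -⟩ := N.col_of (i + 1)
  constructor
  · intro hij
    have : e' = e := by omega
    subst this
    exact O.near h N i (N.col_pre _) (O.clr.col _) h2 _ h3
  · intro hij
    have : e'' = e' := by omega
    subst this
    exact O.far h N i (N.col_pre _) (O.clr.col _) h5 _ h3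

/-- **distances, inner colour** -/
theorem Inn.dst (h : Irr U T) (N : Ndl z s l) {r : Fin k} (O : Inn U T z s l r) (i j : ℕ) :
    dist (z j) (z i) ≤ 1 := by
  obtain ⟨e, he, hi, h1, h2⟩ := N.col_of i
  obtain ⟨e', he', hj, h3, -⟩ := N.col_of j
  obtain ⟨e'', he'', hi', h5, -⟩ := N.col_of (i + 1)
  by_cases hij : i % 2 = j % 2
  · have : e' = e := by omega
    subst this
    exact O.near h N i (N.col_pre _) (O.clr.col _) (Or.inr h2) _ h3
  · have : e'' = e' := by omega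
    subst this
    exact O.near h N i (N.col_pre _) (O.clr.col _) (Or.inl h5) _ h3

end Vale.Agent.P032.Six
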