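import Vale.Agent.P032.Net.H672.Net

/-!
# P032: the network of two-pair centres without the facts on words

`Net0 tE cE` is `Net` without `L2`, `L3`: the rhombus, three centres at every vertex and the
separation of the two kinds of lines.  `Reg2 c`, `Reg3 c`, `Reg3' c` are the facts `L2`, `L3`,
`L3'` at one centre.  Results:

* `Net0.tri_bad`: three pairwise adjacent owners of one hub force a violation of `L3` at one of the
  three owners or of `L2` at a centre at distance one of one of them;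
* `Net0.no_third`, `Net0.star`: without such triangles the four rhombus centres of a centre with
  two ends of each type have exactly one end of each type;
* `Net0.star_reg`: so `Reg2` fails at these four centres;
* `Net0.ladder`: a centre with one end `v` of the first type and two ends of the second type, at
  which nothing else is known, has neighbours with exactly one end of the second type.
-/

open Complex

set_option linter.dupNamespace false

namespace Vale.Agent.P032.H183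

open Vale.Agent.P032.Net.H672

/-- a network without facts on words -/
structure Net0 (tE cE : ℂ → ℂ → Prop) : Prop where
  dist_t : ∀ {z v}, tE z v → dist v z = 1
  dist_c : ∀ {z q}, cE z q → dist q z = 1
  ne : ∀ {z z' v}, tE z v → cE z' v → False
  rh : ∀ {z v q}, tE z v → cE z q → tE (v + q - z) v ∧ cE (v + q - z) q
  three_t : ∀ {v z₁ z₂ z₃ z₄}, (tE z₁ v ∧ ∃ q, cE z₁ q) → (tE z₂ v ∧ ∃ q, cE z₂ q) →
    (tE z₃ v ∧ ∃ q, cE z₃ q) → (tE z₄ v ∧ ∃ q, cE z₄ q) →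
    z₁ = z₂ ∨ z₁ = z₃ ∨ z₁ = z₄ ∨ z₂ = z₃ ∨ z₂ = z₄ ∨ z₃ = z₄
  three_c : ∀ {q z₁ z₂ z₃ z₄}, (cE z₁ q ∧ ∃ v, tE z₁ v) → (cE z₂ q ∧ ∃ v, tE z₂ v) →
    (cE z₃ q ∧ ∃ v, tE z₃ v) → (cE z₄ q ∧ ∃ v, tE z₄ v) →
    z₁ = z₂ ∨ z₁ = z₃ ∨ z₁ = z₄ ∨ z₂ = z₃ ∨ z₂ = z₄ ∨ z₃ = z₄
  sep : ∀ {z v₁ v₂ q₁ q₂}, tE z v₁ → tE z v₂ → cE z q₁ → cE z q₂ →
    0 < dt (v₁ - z) (q₁ - z) * dt (v₁ - z) (q₂ - z) * (dt (v₂ - z) (q₁ - z) * dt (v₂ - z) (q₂ - z))

/-- fact `L2` at the centre `z` -/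
def Reg2 (tE cE : ℂ → ℂ → Prop) (z : ℂ) : Prop := ∀ ⦃v q⦄, tE z v → cE z q →
  (∃ v', v' ≠ v ∧ tE z v') ∨ ∃ q', q' ≠ q ∧ cE z q'

/-- fact `L3` at the centre `z`: one end of the first, two of the second type -/
def Reg3 (tE cE : ℂ → ℂ → Prop) (z : ℂ) : Prop := ∀ ⦃v q q'⦄, tE z v → cE z q → cE z q' →
  q ≠ q' → (∀ v', tE z v' → v' = v) → (∀ p, cE z p → p = q ∨ p = q') →
    ∃ α β γ : ℝ, 0 < α ∧ 0 < β ∧ 0 < γ ∧
      (α : ℂ) * (v - z) + (β : ℂ) * (q - z) + (γ : ℂ) * (q' - z) = 0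

variable {tE cE : ℂ → ℂ → Prop}

/-- a full network is a `Net0` -/
theorem net0_of (N : Net tE cE) : Net0 tE cE where
  dist_t := N.dist_t
  dist_c := N.dist_c
  ne := N.ne
  rh := N.rh
  three_t := N.three_t
  three_c := N.three_c
  sep := N.sep

namespace Net0

/-- exchange of the two types -/
theorem swap (N : Net0 tE cE) : Net0 cE tE where
  dist_t := N.dist_c
  dist_c := N.dist_t
  ne := fun h1 h2 => N.ne h2 h1
  rh := fun {z v q} h1 h2 => by
    have := N.rh h2 h1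
    rw [show q + v - z = v + q - z by ring] at this
    exact ⟨this.2, this.1⟩
  three_t := N.three_c
  three_c := N.three_t
  sep := fun {z v₁ v₂ q₁ q₂} h1 h2 h3 h4 => by
    have := N.sep h3 h4 h1 h2
    rw [dt_comm (q₁ - z) (v₁ - z), dt_comm (q₂ - z) (v₁ - z), dt_comm (q₁ - z) (v₂ - z),
      dt_comm (q₂ - z) (v₂ - z)]
    refine this.trans_le (le_of_eq ?_)
    ring

theorem dt_ne (N : Net0 tE cE) {z v q : ℂ} (hv : tE z v) (hq : cE z q) :
    dt (v - z) (q - z) ≠ 0 := by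
  intro h
  have := N.sep hv hv hq hq
  rw [h] at this
  simp at this

/-- the ends of the two types are never antipodal -/
theorem ne_z (N : Net0 tE cE) {z v q : ℂ} (hv : tE z v) (hq : cE z q) : v + q - z ≠ z := by
  intro h
  apply N.dt_ne hv hq
  have : q - z = -(v - z) := by linear_combination h
  rw [this, dt_neg_right, dt_self, neg_zero]

/-- at most two ends of the second type if there is one of the first type -/
theorem card_c (N : Net0 tE cE) {z v q₁ q₂ q₃ : ℂ} (hv : tE z v) (h1 : cE z q₁)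
    (h2 : cE z q₂) (h3 : cE z q₃) : q₁ = q₂ ∨ q₁ = q₃ ∨ q₂ = q₃ := by
  have key : ∀ {q}, cE z q → tE (v + q - z) v ∧ ∃ p, cE (v + q - z) p := fun {q} hq =>
    ⟨(N.rh hv hq).1, q, (N.rh hv hq).2⟩
  rcases N.three_t ⟨hv, q₁, h1⟩ (key h1) (key h2) (key h3) with h | h | h | h | h | h
  · exact absurd h.symm (N.ne_z hv h1)
  · exact absurd h.symm (N.ne_z hv h2)
  · exact absurd h.symm (N.ne_z hv h3)
  · left; linear_combination h
  · right; left; linear_combination h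
  · right; right; linear_combination h

theorem card_t (N : Net0 tE cE) {z q v₁ v₂ v₃ : ℂ} (hq : cE z q) (h1 : tE z v₁)
    (h2 : tE z v₂) (h3 : tE z v₃) : v₁ = v₂ ∨ v₁ = v₃ ∨ v₂ = v₃ :=
  N.swap.card_c hq h1 h2 h3

/-- the owners `c₁`, `c₂` of the hub `v` are neighbours -/
structure Adj (tE cE : ℂ → ℂ → Prop) (v c₁ c₂ : ℂ) : Prop where
  l : cE c₁ (c₁ + c₂ - v)
  r : cE c₂ (c₁ + c₂ - v)

theorem Adj.symm {v c₁ c₂ : ℂ} (h : Adj tE cE v c₁ c₂) : Adj tE cE v c₂ c₁ := by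
  have e : c₂ + c₁ - v = c₁ + c₂ - v := by ring
  exact ⟨by rw [e]; exact h.r, by rw [e]; exact h.l⟩

/-- the rhombus centre is a neighbour -/
theorem adj_rh (N : Net0 tE cE) {z v q : ℂ} (hv : tE z v) (hq : cE z q) :
    Adj tE cE v z (v + q - z) := by
  have e : z + (v + q - z) - v = q := by ring
  exact ⟨by rw [e]; exact hq, by rw [e]; exact (N.rh hv hq).2⟩

/-- three pairwise adjacent owners of the hub `v` -/
structure Tri (tE cE : ℂ → ℂ → Prop) (v c₁ c₂ c₃ : ℂ) : Prop where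
  t1 : tE c₁ v
  t2 : tE c₂ v
  t3 : tE c₃ v
  n12 : c₁ ≠ c₂
  n13 : c₁ ≠ c₃
  n23 : c₂ ≠ c₃
  a12 : Adj tE cE v c₁ c₂
  a13 : Adj tE cE v c₁ c₃
  a23 : Adj tE cE v c₂ c₃

theorem Tri.rot {v c₁ c₂ c₃ : ℂ} (h : Tri tE cE v c₁ c₂ c₃) : Tri tE cE v c₂ c₃ c₁ :=
  ⟨h.t2, h.t3, h.t1, h.n23, h.n12.symm, h.n13.symm, h.a23, h.a12.symm, h.a13.symm⟩

theorem Tri.sw {v c₁ c₂ c₃ : ℂ} (h : Tri tE cE v c₁ c₂ c₃) : Tri tE cE v c₂ c₁ c₃ :=
  ⟨h.t2, h.t1, h.t3, h.n12.symm, h.n23, h.n13, h.a12.symm, h.a23, h.a13⟩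

/-- if two owners of a triangle have no second end of the first type, `L3` fails at one of them -/
theorem aux_one (N : Net0 tE cE) {v c₁ c₂ c₃ : ℂ} (h : Tri tE cE v c₁ c₂ c₃)
    (r1 : Reg3 tE cE c₁) (r2 : Reg3 tE cE c₂)
    (o1 : ∀ v', tE c₁ v' → v' = v) (o2 : ∀ v', tE c₂ v' → v' = v) : False := by
  have t1 := h.t1
  have t2 := h.t2
  have h13 := h.n13
  have h23 := h.n23
  have a12 := h.a12.l
  have b12 := h.a12.r
  have a13 := h.a13.l
  have b23 := h.a23.l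
  have n1 : c₁ + c₂ - v ≠ c₁ + c₃ - v := fun h => h23 (by linear_combination h)
  have n2 : c₁ + c₂ - v ≠ c₂ + c₃ - v := fun h => h13 (by linear_combination h)
  obtain ⟨α, β, γ, hα, hβ, hγ, h1⟩ := r1 t1 a12 a13 n1 o1 (fun p hp => by
    rcases N.card_c t1 hp a12 a13 with h | h | h
    · exact Or.inl h
    · exact Or.inr h
    · exact absurd h n1)
  obtain ⟨α', β', γ', hα', hβ', hγ', h2⟩ := r2 t2 b12 b23 n2 o2 (fun p hp => by
    rcases N.card_c t2 hp b12 b23 with h | h | h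
    · exact Or.inl h
    · exact Or.inr h
    · exact absurd h n2)
  have e1 := dt_lin (c₁ - v) h1
  have e2 := dt_lin (c₁ - v) h2
  rw [show v - c₁ = -(c₁ - v) by ring, show c₁ + c₂ - v - c₁ = c₂ - v by ring,
    show c₁ + c₃ - v - c₁ = c₃ - v by ring, dt_neg_right, dt_self] at e1
  rw [show v - c₂ = -(c₂ - v) by ring, show c₁ + c₂ - v - c₂ = c₁ - v by ring,
    show c₂ + c₃ - v - c₂ = c₃ - v by ring, dt_neg_right, dt_self] at e2
  have e3 := N.dt_ne t1 a12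
  rw [show v - c₁ = -(c₁ - v) by ring, show c₁ + c₂ - v - c₁ = c₂ - v by ring,
    dt_neg_left] at e3
  apply e3
  have h3 : (β * γ' + α' * γ) * dt (c₁ - v) (c₂ - v) = 0 := by
    linear_combination γ' * e1 - γ * e2
  rcases mul_eq_zero.1 h3 with h | h
  · exact absurd h (by positivity)
  · rw [h, neg_zero]

/-- the second `T`-ends of two adjacent owners are in the same direction -/
theorem aux_dir (N : Net0 tE cE) {v c₁ c₂ v₁ v₂ : ℂ} (t1 : tE c₁ v) (t2 : tE c₂ v)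
    (h12 : c₁ ≠ c₂) (a : Adj tE cE v c₁ c₂)
    (s1 : tE c₁ v₁) (s2 : tE c₂ v₂) (n1 : v₁ ≠ v) (n2 : v₂ ≠ v) : v₂ - c₂ = v₁ - c₁ := by
  have a12 := a.l
  have b12 := a.r
  have r1 := N.rh s1 a12
  have r2 := N.rh s2 b12
  rcases N.three_c ⟨a12, v, t1⟩ ⟨b12, v, t2⟩ ⟨r1.2, _, r1.1⟩ ⟨r2.2, _, r2.1⟩ with
    h | h | h | h | h | h
  · exact absurd h h12
  · exact absurd h.symm (N.ne_z s1 a12)
  · exact absurd (by linear_combination -h) n2
  · exact absurd (by linear_combination -h) n1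
  · exact absurd h.symm (N.ne_z s2 b12)
  · linear_combination -h

/-- **Two second ends in a triangle.** Two owners of a triangle with second ends of the first type
force that the third owner has none and that `L2` fails at the rhombus centre
`v₁ + (c₁ + c₃ - v) - c₁`. -/
theorem aux_two (N : Net0 tE cE) {v c₁ c₂ c₃ : ℂ} (h : Tri tE cE v c₁ c₂ c₃) {v₁ v₂ : ℂ}
    (s1 : tE c₁ v₁) (n1 : v₁ ≠ v) (s2 : tE c₂ v₂) (n2 : v₂ ≠ v) :
    (∀ v₃, tE c₃ v₃ → v₃ = v) ∧ ¬ Reg2 tE cE (v₁ + (c₁ + c₃ - v) - c₁) := by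
  have t1 := h.t1
  have t2 := h.t2
  have t3 := h.t3
  have h12 := h.n12
  have h13 := h.n13
  have h23 := h.n23
  have a12 := h.a12.l
  have b12 := h.a12.r
  have a13 := h.a13.l
  have b13 := h.a13.r
  have a23 := h.a23.l
  have b23 := h.a23.r
  have hd := N.aux_dir t1 t2 h12 h.a12 s1 s2 n1 n2
  have sep1 := N.sep t1 s1 a12 a13
  have sep2 := N.sep t2 s2 b12 a23
  rw [show v - c₁ = -(c₁ - v) by ring, show c₁ + c₂ - v - c₁ = c₂ - v by ring,
    show c₁ + c₃ - v - c₁ = c₃ - v by ring, dt_neg_left, dt_neg_left, neg_mul_neg] at sep1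
  rw [hd, show v - c₂ = -(c₂ - v) by ring, show c₁ + c₂ - v - c₂ = c₁ - v by ring,
    show c₂ + c₃ - v - c₂ = c₃ - v by ring, dt_neg_left, dt_neg_left, neg_mul_neg] at sep2
  have hfin : 0 < dt (c₃ - v) (c₁ - v) * dt (c₃ - v) (c₂ - v) *
      (dt (v₁ - c₁) (c₁ - v) * dt (v₁ - c₁) (c₂ - v)) → False :=
    fun h => three_pairings sep1 sep2 h
  by_cases hs3 : ∃ v₃, v₃ ≠ v ∧ tE c₃ v₃
  · obtain ⟨v₃, n3, s3⟩ := hs3
    exfalso
    apply hfin
    have hd3 := N.aux_dir t1 t3 h13 h.a13 s1 s3 n1 n3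
    have sep3 := N.sep t3 s3 b13 b23
    rw [hd3, show v - c₃ = -(c₃ - v) by ring, show c₁ + c₃ - v - c₃ = c₁ - v by ring,
      show c₂ + c₃ - v - c₃ = c₂ - v by ring, dt_neg_left, dt_neg_left, neg_mul_neg] at sep3
    exact sep3
  · push Not at hs3
    refine ⟨fun v₃ s3 => by by_contra hh; exact hs3 v₃ hh s3, fun r2 => hfin ?_⟩
    have r13 := N.rh s1 a13
    have r12 := N.rh s1 a12
    have huniq : ∀ v', tE (v₁ + (c₁ + c₃ - v) - c₁) v' → v' = v₁ := by
      intro v' hv'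
      by_contra hne
      have r := N.rh hv' r13.2
      rcases N.three_c ⟨a13, v, t1⟩ ⟨b13, v, t3⟩ ⟨r13.2, _, r13.1⟩ ⟨r.2, _, r.1⟩ with
        h | h | h | h | h | h
      · exact h13 h
      · exact N.ne_z s1 a13 h.symm
      · exact hne (by linear_combination -h)
      · exact n1 (by linear_combination -h)
      · have hv3 : tE c₃ v' := by
          rw [h]; exact r.1
        by_cases hvv : v' = v
        · have e1 : v₁ - c₁ = -(c₃ - v) := by linear_combination h + hvv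
          have e2 := N.dt_ne s1 a13
          rw [e1, show c₁ + c₃ - v - c₁ = c₃ - v by ring, dt_neg_left, dt_self, neg_zero] at e2
          exact e2 rfl
        · exact hs3 v' hvv hv3
      · exact N.ne_z hv' r13.2 h.symm
    rcases r2 r13.1 r13.2 with ⟨v', hne, hv'⟩ | ⟨q, hne, hq⟩
    · exact absurd (huniq v' hv') hne
    · have r := N.rh r13.1 hq
      have hq2 : v₁ + q - (v₁ + (c₁ + c₃ - v) - c₁) = v₁ + (c₁ + c₂ - v) - c₁ := by
        rcases N.three_t ⟨s1, _, a12⟩ ⟨r12.1, _, r12.2⟩ ⟨r13.1, _, r13.2⟩ ⟨r.1, _, r.2⟩ with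
          h | h | h | h | h | h
        · exact absurd h.symm (N.ne_z s1 a12)
        · exact absurd h.symm (N.ne_z s1 a13)
        · exact absurd (by linear_combination -h) hne
        · exact absurd (by linear_combination h) h23
        · exact h.symm
        · exact absurd h.symm (N.ne_z r13.1 hq)
      have hq3 : q = v₁ + (c₁ + c₃ - v) - c₁ + (c₂ - v) := by linear_combination hq2
      have cq : cE (v₁ + (c₁ + c₂ - v) - c₁) q := by rw [← hq2]; exact r.2
      have w2 := N.rh s2 b12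
      have hw : v₂ + (c₁ + c₂ - v) - c₂ = v₁ + (c₁ + c₂ - v) - c₁ := by
        linear_combination hd
      rw [hw] at w2
      have sep3 := N.sep r12.1 w2.1 r12.2 cq
      rw [show v₁ - (v₁ + (c₁ + c₂ - v) - c₁) = -(c₂ - v) by ring,
        show v₂ - (v₁ + (c₁ + c₂ - v) - c₁) = -(c₁ - v) by linear_combination hd,
        show c₁ + c₂ - v - (v₁ + (c₁ + c₂ - v) - c₁) = -(v₁ - c₁) by ring,
        show q - (v₁ + (c₁ + c₂ - v) - c₁) = c₃ - v by rw [hq3]; ring] at sep3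
      simp only [dt_neg_left, dt_neg_right] at sep3
      rw [dt_comm (v₁ - c₁) (c₂ - v), dt_comm (v₁ - c₁) (c₁ - v)] at sep3
      rw [dt_comm (c₁ - v) (c₃ - v), dt_comm (c₂ - v) (c₃ - v)]
      refine sep3.trans_le (le_of_eq ?_)
      ring

/-- the conclusion of the triangle analysis at the pair `c₁`, `c₂` -/
def TriBad (tE cE : ℂ → ℂ → Prop) (v c₁ c₂ c₃ : ℂ) : Prop :=
  ((∀ v', tE c₁ v' → v' = v) ∧ (∀ v', tE c₂ v' → v' = v) ∧
      (¬ Reg3 tE cE c₁ ∨ ¬ Reg3 tE cE c₂)) ∨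
    (∃ v₁ v₂, tE c₁ v₁ ∧ v₁ ≠ v ∧ tE c₂ v₂ ∧ v₂ ≠ v ∧ v₂ - c₂ = v₁ - c₁ ∧
      (∀ v', tE c₃ v' → v' = v) ∧ ¬ Reg2 tE cE (v₁ + c₃ - v) ∧
      ¬ Reg2 tE cE (v₂ + c₃ - v))

/-- **Triangles.** In a triangle of owners of a hub either two owners have no second end of the
first type, and `L3` fails at one of them, or exactly two owners have one (in the same direction)
and `L2` fails at two explicit centres at distance one of the third owner. -/
theorem tri_bad (N : Net0 tE cE) {v c₁ c₂ c₃ : ℂ} (h : Tri tE cE v c₁ c₂ c₃) :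
    TriBad tE cE v c₁ c₂ c₃ ∨ TriBad tE cE v c₂ c₃ c₁ ∨ TriBad tE cE v c₁ c₃ c₂ := by
  have one : ∀ {c₁ c₂ c₃}, Tri tE cE v c₁ c₂ c₃ → (∀ v', tE c₁ v' → v' = v) →
      (∀ v', tE c₂ v' → v' = v) → TriBad tE cE v c₁ c₂ c₃ := by
    intro c₁ c₂ c₃ h o1 o2
    refine Or.inl ⟨o1, o2, ?_⟩
    by_contra hcon
    push Not at hcon
    exact N.aux_one h hcon.1 hcon.2 o1 o2
  have two : ∀ {c₁ c₂ c₃}, Tri tE cE v c₁ c₂ c₃ → (∃ v', v' ≠ v ∧ tE c₁ v') →
      (∃ v', v' ≠ v ∧ tE c₂ v') → TriBad tE cE v c₁ c₂ c₃ := by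
    rintro c₁ c₂ c₃ h ⟨v₁, n1, s1⟩ ⟨v₂, n2, s2⟩
    have k1 := N.aux_two h s1 n1 s2 n2
    have k2 := N.aux_two h.sw s2 n2 s1 n1
    refine Or.inr ⟨v₁, v₂, s1, n1, s2, n2, N.aux_dir h.t1 h.t2 h.n12 h.a12 s1 s2 n1 n2, k1.1,
      ?_, ?_⟩
    · have := k1.2
      rwa [show v₁ + (c₁ + c₃ - v) - c₁ = v₁ + c₃ - v by ring] at this
    · have := k2.2
      rwa [show v₂ + (c₂ + c₃ - v) - c₂ = v₂ + c₃ - v by ring] at this
  have hno : ∀ {c}, ¬ (∃ v', v' ≠ v ∧ tE c v') → ∀ v', tE c v' → v' = v := by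
    intro c hc v' hv'
    by_contra hh
    exact hc ⟨v', hh, hv'⟩
  have h23 := h.rot
  have h13 := h.rot.rot.sw
  by_cases o1 : ∃ v', v' ≠ v ∧ tE c₁ v' <;> by_cases o2 : ∃ v', v' ≠ v ∧ tE c₂ v' <;>
    by_cases o3 : ∃ v', v' ≠ v ∧ tE c₃ v'
  · exact Or.inl (two h o1 o2)
  · exact Or.inl (two h o1 o2)
  · exact Or.inr (Or.inr (two h13 o1 o3))
  · exact Or.inr (Or.inl (one h23 (hno o2) (hno o3)))
  · exact Or.inr (Or.inl (two h23 o2 o3))
  · exact Or.inr (Or.inr (one h13 (hno o1) (hno o3)))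
  · exact Or.inl (one h (hno o1) (hno o2))
  · exact Or.inl (one h (hno o1) (hno o2))

/-- no hub of the first type carries a triangle -/
def NT (tE cE : ℂ → ℂ → Prop) (v : ℂ) : Prop := ∀ c₁ c₂ c₃, ¬ Tri tE cE v c₁ c₂ c₃

/-- a centre with two ends of the second type: its rhombus centre over one of them has no other
end of the second type, if the hub carries no triangle -/
theorem no_third (N : Net0 tE cE) {z v q₁ q₂ q' : ℂ} (nt : NT tE cE v) (hv : tE z v)
    (h1 : cE z q₁) (h2 : cE z q₂) (h12 : q₁ ≠ q₂) (h : cE (v + q₁ - z) q') : q' = q₁ := by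
  by_contra hne
  have w1 := N.rh hv h1
  have w2 := N.rh hv h2
  have r := N.rh w1.1 h
  have hc : v + q' - (v + q₁ - z) = v + q₂ - z := by
    rcases N.three_t ⟨hv, _, h1⟩ ⟨w1.1, _, w1.2⟩ ⟨w2.1, _, w2.2⟩ ⟨r.1, _, r.2⟩ with
      h | h | h | h | h | h
    · exact absurd h.symm (N.ne_z hv h1)
    · exact absurd h.symm (N.ne_z hv h2)
    · exact absurd (by linear_combination -h) hne
    · exact absurd (by linear_combination h) h12
    · exact absurd h.symm (N.ne_z w1.1 (by assumption))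
    · exact h.symm
  have hq : q' = (v + q₁ - z) + (v + q₂ - z) - v := by linear_combination hc
  refine nt z (v + q₁ - z) (v + q₂ - z) ⟨hv, w1.1, w2.1, (N.ne_z hv h1).symm,
    (N.ne_z hv h2).symm, fun h => h12 (by linear_combination h), N.adj_rh hv h1, N.adj_rh hv h2,
    ?_, ?_⟩
  · rw [← hq]; exact h
  · rw [← hq, ← hc]; exact r.2

/-- **The star.** The rhombus centre of a centre with two ends of each type has exactly one end
of each type. -/
theorem star (N : Net0 tE cE) {z v₁ v₂ q₁ q₂ : ℂ} (nv : NT tE cE v₁) (nq : NT cE tE q₁)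
    (h1 : tE z v₁) (h2 : tE z v₂) (h3 : cE z q₁) (h4 : cE z q₂) (hv : v₁ ≠ v₂) (hq : q₁ ≠ q₂) :
    (tE (v₁ + q₁ - z) v₁ ∧ cE (v₁ + q₁ - z) q₁) ∧
      (∀ v', tE (v₁ + q₁ - z) v' → v' = v₁) ∧ ∀ q', cE (v₁ + q₁ - z) q' → q' = q₁ := by
  refine ⟨N.rh h1 h3, fun v' hv' => ?_, fun q' hq' => N.no_third nv h1 h3 h4 hq hq'⟩
  refine N.swap.no_third nq h3 h1 h2 hv (q' := v') ?_
  rw [show q₁ + v₁ - z = v₁ + q₁ - z by ring]
  exact hv'

/-- in the star `L2` fails at the rhombus centres -/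
theorem star_bad (N : Net0 tE cE) {z v₁ v₂ q₁ q₂ : ℂ} (nv : NT tE cE v₁) (nq : NT cE tE q₁)
    (h1 : tE z v₁) (h2 : tE z v₂) (h3 : cE z q₁) (h4 : cE z q₂) (hv : v₁ ≠ v₂) (hq : q₁ ≠ q₂) :
    ¬ Reg2 tE cE (v₁ + q₁ - z) := by
  obtain ⟨⟨a, b⟩, c, d⟩ := N.star nv nq h1 h2 h3 h4 hv hq
  intro h
  rcases h a b with ⟨v', n, hv'⟩ | ⟨q', n, hq'⟩
  · exact n (c v' hv')
  · exact n (d q' hq')

/-- **Neighbours on ladders.** `z` has one end of the first type `v` and two of the second type: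
then its two neighbours at `v` have exactly one end of the second type, and if one of the
neighbours has a second end `v'` of the first type, `v'` and `v` are all of them. -/
theorem side (N : Net0 tE cE) {z v q q' : ℂ} (nt : NT tE cE v) (hv : tE z v) (hq : cE z q)
    (hq' : cE z q') (hne : q ≠ q') :
    (∀ p, cE (v + q - z) p → p = q) ∧
      ∀ v', v' ≠ v → tE (v + q - z) v' → ∀ p, tE (v + q - z) p → p = v ∨ p = v' := by
  have w := N.rh hv hq
  refine ⟨fun p hp => N.no_third nt hv hq hq' hne hp, fun v' n' s' p hp => ?_⟩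
  rcases N.card_t w.2 hp w.1 s' with h | h | h
  · exact Or.inl h
  · exact Or.inr h
  · exact absurd h.symm n'

/-- the owners of a hub: an owner with two ends of the second type is adjacent to all other
owners of the hub -/
theorem owners (N : Net0 tE cE) {z v q q' w : ℂ} (hv : tE z v) (hq : cE z q)
    (hq' : cE z q') (hne : q ≠ q') (hw : tE w v) (hw' : ∃ p, cE w p) :
    w = z ∨ w = v + q - z ∨ w = v + q' - z := by
  have w1 := N.rh hv hq
  have w2 := N.rh hv hq'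
  rcases N.three_t ⟨hv, q, hq⟩ ⟨w1.1, q, w1.2⟩ ⟨w2.1, q', w2.2⟩ ⟨hw, hw'⟩ with
    h | h | h | h | h | h
  · exact absurd h.symm (N.ne_z hv hq)
  · exact absurd h.symm (N.ne_z hv hq')
  · exact Or.inl h.symm
  · exact absurd (by linear_combination h) hne
  · exact Or.inr (Or.inl h.symm)
  · exact Or.inr (Or.inr h.symm)

end Net0

end Vale.Agent.P032.H183
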