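import Vale.Agent.P032.H183.Needle

/-!
# P032: runs of delta pairs of one type

`Out.false`: there is no infinite needle with alternating rotation, common outer colour and five
colours at `z i`, `z (i+2)`.
`Inn.closes`: an infinite needle with constant rotation and common inner colour closes after a
rotation by 180 degrees, with an odd number of steps.
-/

open Set Filter Topology Metric

noncomputable section

namespace Vale.Agent.P032.Six

variable {k : ℕ} {U : Fin k → Set ℂ} {T : ℂ → Set (Fin k)} {z : ℕ → ℂ} {s l : ℕ → ℝ}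

/-- the direction of the needle, from the even to the odd end -/
def Nv (z : ℕ → ℂ) (i : ℕ) : ℂ := (-1) ^ i * (z (i + 1) - z i)

theorem nv_ends (z : ℕ → ℂ) (i : ℕ) : ∃ m n, m % 2 = 0 ∧ n % 2 = 1 ∧ Nv z i = z n - z m := by
  rcases Nat.even_or_odd i with h1 | h1
  · refine ⟨i, i + 1, Nat.even_iff.1 h1, ?_, ?_⟩
    · have := Nat.even_iff.1 h1; omega
    · rw [Nv, h1.neg_one_pow, one_mul]
  · refine ⟨i + 1, i, ?_, Nat.odd_iff.1 h1, ?_⟩
    · have := Nat.odd_iff.1 h1; omega
    · rw [Nv, h1.neg_one_pow]; ring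

theorem Ndl.nv_succ (N : Ndl z s l) (i : ℕ) : Nv z (i + 1) = Nv z i * cis (s i * l i) := by
  have h1 := N.step i
  rw [hb] at h1
  unfold Nv
  rw [show i + 1 + 1 = i + 2 by ring, h1, pow_succ]
  ring

theorem Ndl.nv_norm (N : Ndl z s l) (i : ℕ) : ‖Nv z i‖ = 1 := by
  have h1 := N.d1 i
  rw [dist_eq_norm, ← norm_neg, neg_sub] at h1
  rw [Nv, norm_mul, norm_pow, norm_neg, norm_one, one_pow, one_mul, h1]

theorem Ndl.disp (N : Ndl z s l) (i : ℕ) : z (i + 2) - z i = (-1) ^ i * (Nv z i - Nv z (i + 1)) := by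
  have h1 : ((-1 : ℂ) ^ i) * (-1) ^ i = 1 := by rw [← pow_add, ← two_mul, pow_mul]; norm_num
  unfold Nv
  rw [show i + 1 + 1 = i + 2 by ring, pow_succ]
  linear_combination (-(z (i + 2) - z i)) * h1

theorem ip_expand (a b a' b' : ℂ) : 2 * ip (b - a) (b' - a') =
    dist a b' ^ 2 + dist a' b ^ 2 - dist a a' ^ 2 - dist b b' ^ 2 := by
  rw [dist_eq_norm, dist_eq_norm, dist_eq_norm, dist_eq_norm, Complex.sq_norm, Complex.sq_norm,
    Complex.sq_norm, Complex.sq_norm, Complex.normSq_apply, Complex.normSq_apply,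
    Complex.normSq_apply, Complex.normSq_apply]
  unfold ip
  simp only [Complex.sub_re, Complex.sub_im]
  ring

theorem Out.ip_nonneg (h : Irr U T) (N : Ndl z s l) {r : Fin k} (O : Out U T z s l r) (i j : ℕ) :
    0 ≤ ip (Nv z i) (Nv z j) := by
  obtain ⟨m, n, hm, hn, e⟩ := nv_ends z i
  obtain ⟨m', n', hm', hn', e'⟩ := nv_ends z j
  have h1 := ip_expand (z m) (z n) (z m') (z n')
  rw [← e, ← e'] at h1
  have a1 := (O.dst h N n' m).2 (by omega)
  have a2 := (O.dst h N n m').2 (by omega)
  have a3 := (O.dst h N m' m).1 (by omega)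
  have a4 := (O.dst h N n' n).1 (by omega)
  have b1 : 1 ≤ dist (z m) (z n') ^ 2 := by nlinarith
  have b2 : 1 ≤ dist (z m') (z n) ^ 2 := by nlinarith
  have b3 : dist (z m) (z m') ^ 2 ≤ 1 := by
    have := dist_nonneg (x := z m) (y := z m'); nlinarith
  have b4 : dist (z n) (z n') ^ 2 ≤ 1 := by
    have := dist_nonneg (x := z n) (y := z n'); nlinarith
  linarith

/-- the displacement, up to a rotation by 90 degrees -/
def Vv (z : ℕ → ℂ) (s l : ℕ → ℝ) (i : ℕ) : ℂ :=
  (2 * Real.sin (l i / 2) : ℝ) * (Nv z i * cis (s i * l i / 2))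

theorem one_sub_cis (t : ℝ) : 1 - cis t = -(2 * Real.sin (t / 2) : ℝ) * Complex.I * cis (t / 2) := by
  have h1 := Real.sin_sq_add_cos_sq (t / 2)
  have h2 : Real.cos t = 1 - 2 * Real.sin (t / 2) ^ 2 := by
    have := Real.cos_two_mul (t / 2)
    rw [show 2 * (t / 2) = t by ring] at this
    linarith
  have h3 : Real.sin t = 2 * Real.sin (t / 2) * Real.cos (t / 2) := by
    have := Real.sin_two_mul (t / 2)
    rwa [show 2 * (t / 2) = t by ring] at this
  apply Complex.ext
  · simp only [Complex.sub_re, Complex.one_re, cis_re, Complex.mul_re, Complex.neg_re,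
      Complex.neg_im, Complex.ofReal_re, Complex.ofReal_im, Complex.I_re, Complex.I_im, cis_im,
      Complex.mul_im]
    rw [h2]; ring
  · simp only [Complex.sub_im, Complex.one_im, cis_re, Complex.mul_re, Complex.neg_re,
      Complex.neg_im, Complex.ofReal_re, Complex.ofReal_im, Complex.I_re, Complex.I_im, cis_im,
      Complex.mul_im]
    rw [h3]; ring

theorem one_add_cis (t : ℝ) : 1 + cis t = (2 * Real.cos (t / 2) : ℝ) * cis (t / 2) := by
  have h1 := Real.sin_sq_add_cos_sq (t / 2)
  have h2 : Real.cos t = 2 * Real.cos (t / 2) ^ 2 - 1 := by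
    have := Real.cos_two_mul (t / 2)
    rwa [show 2 * (t / 2) = t by ring] at this
  have h3 : Real.sin t = 2 * Real.sin (t / 2) * Real.cos (t / 2) := by
    have := Real.sin_two_mul (t / 2)
    rwa [show 2 * (t / 2) = t by ring] at this
  apply Complex.ext
  · simp only [Complex.add_re, Complex.one_re, cis_re, Complex.mul_re, Complex.ofReal_re,
      Complex.ofReal_im, cis_im]
    rw [h2]; ring
  · simp only [Complex.add_im, Complex.one_im, cis_re, Complex.mul_im, Complex.ofReal_re,
      Complex.ofReal_im, cis_im]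
    rw [h3]; ring

/-- the displacement of a needle with alternating rotation -/
theorem Ndl.disp_alt (N : Ndl z s l) {τ : ℝ} (hτ : ∀ i, s i = τ * (-1) ^ i) (i : ℕ) :
    z (i + 2) - z i = -Complex.I * τ * Vv z s l i := by
  rw [N.disp, N.nv_succ]
  have e1 : Nv z i - Nv z i * cis (s i * l i) = Nv z i * (1 - cis (s i * l i)) := by ring
  rw [e1, one_sub_cis]
  have e2 : Real.sin (s i * l i / 2) = s i * Real.sin (l i / 2) := by
    rcases N.hs i with h1 | h1 <;> rw [h1]
    · rw [one_mul, one_mul]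
    · rw [neg_one_mul, neg_one_mul, neg_div, Real.sin_neg]
  rw [e2]
  have e3 : (s i : ℂ) = τ * (-1) ^ i := by rw [hτ]; push_cast; ring
  have h1 : ((-1 : ℂ) ^ i) * (-1) ^ i = 1 := by rw [← pow_add, ← two_mul, pow_mul]; norm_num
  unfold Vv
  push_cast
  rw [e3]
  linear_combination (-(2 * Complex.I * τ * Complex.sin (l i / 2) *
    (Nv z i * cis (s i * l i / 2)))) * h1

theorem ip_add_left (a b c : ℂ) : ip (a + b) c = ip a c + ip b c := by
  unfold ip; simp only [Complex.add_re, Complex.add_im]; ring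

theorem ip_sub_left (a b c : ℂ) : ip (a - b) c = ip a c - ip b c := by
  unfold ip; simp only [Complex.sub_re, Complex.sub_im]; ring

theorem Out.ip_V (h : Irr U T) (N : Ndl z s l) {r : Fin k} (O : Out U T z s l r) (i j : ℕ) :
    0 ≤ ip (Vv z s l i) (Nv z j) := by
  have h1 := O.ip_nonneg h N i j
  have h2 := O.ip_nonneg h N (i + 1) j
  rw [N.nv_succ] at h2
  have h3 : ip (Nv z i + Nv z i * cis (s i * l i)) (Nv z j) =
      2 * Real.cos (l i / 2) * ip (Nv z i * cis (s i * l i / 2)) (Nv z j) := by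
    have e1 : Nv z i + Nv z i * cis (s i * l i) = Nv z i * (1 + cis (s i * l i)) := by ring
    have e2 : Real.cos (s i * l i / 2) = Real.cos (l i / 2) := by
      rcases N.hs i with h1 | h1 <;> rw [h1]
      · rw [one_mul]
      · rw [neg_one_mul, neg_div, Real.cos_neg]
    rw [e1, one_add_cis, e2, show Nv z i * (((2 * Real.cos (l i / 2) : ℝ) : ℂ) *
      cis (s i * l i / 2)) = ((2 * Real.cos (l i / 2) : ℝ) : ℂ) *
        (Nv z i * cis (s i * l i / 2)) by ring, ip_smul]
  rw [ip_add_left] at h3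
  have hc : 0 < Real.cos (l i / 2) :=
    Real.cos_pos_of_mem_Ioo ⟨by linarith [N.l0 i, Real.pi_pos], by linarith [N.l1 i]⟩
  have hsn : 0 < Real.sin (l i / 2) :=
    Real.sin_pos_of_pos_of_lt_pi (by linarith [N.l0 i]) (by linarith [N.l1 i, Real.pi_pos])
  have h4 : 0 ≤ ip (Nv z i * cis (s i * l i / 2)) (Nv z j) := by
    by_contra hcon
    push Not at hcon
    have : 2 * Real.cos (l i / 2) * ip (Nv z i * cis (s i * l i / 2)) (Nv z j) < 0 :=
      mul_neg_of_pos_of_neg (by linarith) hcon
    linarith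
  unfold Vv
  rw [ip_smul]
  exact mul_nonneg (by linarith) h4

theorem ip_rot (a b : ℂ) {τ : ℝ} (hτ : τ * τ = 1) :
    ip (-Complex.I * τ * a) (-Complex.I * τ * b) = ip a b := by
  unfold ip
  simp only [Complex.mul_re, Complex.mul_im, Complex.neg_re, Complex.neg_im, Complex.I_re,
    Complex.I_im, Complex.ofReal_re, Complex.ofReal_im]
  linear_combination (a.re * b.re + a.im * b.im) * hτ

theorem ip_le (a b : ℂ) : |ip a b| ≤ ‖a‖ * ‖b‖ := by
  have h1 : ip a b = (a * (starRingEnd ℂ) b).re := by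
    unfold ip
    simp only [Complex.mul_re, Complex.conj_re, Complex.conj_im]
    ring
  rw [h1]
  refine (Complex.abs_re_le_norm _).trans ?_
  rw [norm_mul, RCLike.norm_conj]

theorem ip_basis (V a b : ℂ) : (cr a b : ℂ) * V =
    -((ip V a : ℂ) * (Complex.I * b) - (ip V b : ℂ) * (Complex.I * a)) := by
  apply Complex.ext
  · simp only [cr, ip, Complex.mul_re, Complex.mul_im, Complex.neg_re, Complex.sub_re,
      Complex.ofReal_re, Complex.ofReal_im, Complex.I_re, Complex.I_im]
    ring
  · simp only [cr, ip, Complex.mul_re, Complex.mul_im, Complex.neg_im, Complex.sub_im,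
      Complex.ofReal_re, Complex.ofReal_im, Complex.I_re, Complex.I_im]
    ring

/-- **No infinite column**: alternating rotations, common outer colour. -/
theorem Out.false (h : Irr U T) (h4 : ∀ z, (T z).ncard ≤ 4) (N : Ndl z s l) {r : Fin k}
    (O : Out U T z s l r) {τ : ℝ} (hτ : ∀ i, s i = τ * (-1) ^ i)
    (h5 : ∀ i, 5 ≤ (T (z i) ∪ T (z (i + 2))).ncard) : False := by
  have hττ : τ * τ = 1 := by
    have h1 := hτ 0
    rw [pow_zero, mul_one] at h1
    rcases N.hs 0 with h2 | h2 <;> rw [← h1, h2] <;> norm_num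
  -- the monotone functions
  have key : ∀ j, Tendsto (fun n => ip (Vv z s l (2 * n)) (Nv z j)) atTop (𝓝 0) := by
    intro j
    set w : ℂ := -Complex.I * τ * Nv z j with hw
    have hwn : ‖w‖ = 1 := by
      rw [hw, norm_mul, norm_mul, norm_neg, Complex.norm_I, one_mul, N.nv_norm, mul_one,
        Complex.norm_real, Real.norm_eq_abs]
      have : |τ| * |τ| = 1 := by rw [← abs_mul, hττ, abs_one]
      nlinarith [abs_nonneg τ]
    have hstep : ∀ n, ip (z (2 * (n + 1))) w - ip (z (2 * n)) w = ip (Vv z s l (2 * n)) (Nv z j) := by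
      intro n
      rw [← ip_sub_left, show 2 * (n + 1) = 2 * n + 2 by ring, N.disp_alt hτ, hw, ip_rot _ _ hττ]
    have hmono : Monotone fun n => ip (z (2 * n)) w :=
      monotone_nat_of_le_succ fun n => by
        have h1 := hstep n
        have h2 := O.ip_V h N (2 * n) j
        linarith
    have hbdd : BddAbove (range fun n => ip (z (2 * n)) w) := by
      refine ⟨ip (z 0) w + 1, ?_⟩
      rintro _ ⟨n, rfl⟩
      have h1 := (O.dst h N 0 (2 * n)).1 (by omega)
      have h2 := ip_le (z (2 * n) - z 0) w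
      rw [hwn, mul_one, ← dist_eq_norm, ip_sub_left] at h2
      have h3 := le_abs_self (ip (z (2 * n)) w - ip (z 0) w)
      simp only
      linarith
    have hlim := tendsto_atTop_ciSup hmono hbdd
    have hlim' := hlim.comp (tendsto_add_atTop_nat 1)
    have := hlim'.sub hlim
    rw [sub_self] at this
    refine this.congr fun n => ?_
    simp only [Function.comp_apply]
    exact hstep n
  have hcr : cr (Nv z 0) (Nv z 1) ≠ 0 := by
    have e : Nv z 1 = Nv z 0 * cis (s 0 * l 0) := N.nv_succ 0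
    have hn : Complex.normSq (Nv z 0) = 1 := by
      have := N.nv_norm 0
      rw [← Complex.sq_norm, this]; norm_num
    rw [Complex.normSq_apply] at hn
    have : cr (Nv z 0) (Nv z 1) = Real.sin (s 0 * l 0) := by
      rw [e]
      unfold cr
      simp only [Complex.mul_re, Complex.mul_im, cis_re, cis_im]
      linear_combination Real.sin (s 0 * l 0) * hn
    rw [this]
    have hsn := Real.sin_pos_of_pos_of_lt_pi (N.l0 0) (N.l1 0)
    rcases N.hs 0 with h1 | h1 <;> rw [h1]
    · rw [one_mul]; exact hsn.ne'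
    · rw [neg_one_mul, Real.sin_neg]; exact neg_ne_zero.2 hsn.ne'
  have hV : Tendsto (fun n => Vv z s l (2 * n)) atTop (𝓝 0) := by
    have h0 := (Complex.continuous_ofReal.tendsto 0).comp (key 0)
    have h1 := (Complex.continuous_ofReal.tendsto 0).comp (key 1)
    have h2 := ((h0.mul_const (Complex.I * Nv z 1)).sub (h1.mul_const (Complex.I * Nv z 0))).neg
    have h3 := h2.const_mul ((cr (Nv z 0) (Nv z 1) : ℂ)⁻¹)
    simp only [Complex.ofReal_zero, zero_mul, sub_zero, neg_zero, mul_zero] at h3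
    refine h3.congr fun n => ?_
    simp only [Function.comp_apply]
    rw [← ip_basis, inv_mul_cancel_left₀]
    exact_mod_cast hcr
  refine h.cluster h4 (y := fun n => z (2 * n)) (C := 1) (fun n => (O.dst h N 0 (2 * n)).1 (by omega))
    ?_ fun n => h5 (2 * n)
  have h1 := hV.const_mul (-Complex.I * τ)
  rw [mul_zero] at h1
  refine h1.congr fun n => ?_
  rw [← N.disp_alt hτ]
  rfl

end Vale.Agent.P032.Six
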