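import Vale.Agent.P032.H183.Run

/-!
# P032: a needle with constant rotation and common inner colour closes

`Inn.closes`: all distances of the points `z i` are at most one; if the total angle were bounded,
the points would have a cluster point with five colours; at the total angle `π` the needle is
parallel to the first one, hence equal to it with the ends exchanged.
-/

open Set Filter Topology Metric

noncomputable section

namespace Vale.Agent.P032.Six

variable {k : ℕ} {U : Fin k → Set ℂ} {T : ℂ → Set (Fin k)} {z : ℕ → ℂ} {s l : ℕ → ℝ}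

/-- two parallel unit segments with all distances at most one -/
theorem par_eq {a b p q : ℂ} (h : q - p = a - b) (hab : dist a b = 1) (h1 : dist q b ≤ 1)
    (h2 : dist p a ≤ 1) : p = b ∧ q = a := by
  have e1 : q - b = (p - b) + (a - b) := by linear_combination h
  have e2 : p - a = (p - b) - (a - b) := by ring
  have h3 := parallelogram_law_with_norm ℝ (p - b) (a - b)
  rw [← e1, ← e2, ← dist_eq_norm, ← dist_eq_norm, ← dist_eq_norm a b, hab] at h3
  have h4 : dist q b * dist q b ≤ 1 := by
    have := dist_nonneg (x := q) (y := b); nlinarith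
  have h5 : dist p a * dist p a ≤ 1 := by
    have := dist_nonneg (x := p) (y := a); nlinarith
  have h6 : ‖p - b‖ = 0 := by
    have := norm_nonneg (p - b); nlinarith
  have h7 : p = b := by
    have := norm_eq_zero.1 h6
    linear_combination this
  exact ⟨h7, by rw [h7] at h; linear_combination h⟩

theorem Ndl.disp_le (N : Ndl z s l) (i : ℕ) : ‖z (i + 2) - z i‖ ≤ l i := by
  rw [N.disp, N.nv_succ]
  have e1 : Nv z i - Nv z i * cis (s i * l i) = Nv z i * (1 - cis (s i * l i)) := by ring
  have hsn : 0 < Real.sin (l i / 2) :=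
    Real.sin_pos_of_pos_of_lt_pi (by linarith [N.l0 i]) (by linarith [N.l1 i, Real.pi_pos])
  have hle : Real.sin (l i / 2) ≤ l i / 2 := Real.sin_le (by linarith [N.l0 i])
  have e2 : |Real.sin (s i * l i / 2)| = Real.sin (l i / 2) := by
    rcases N.hs i with h1 | h1 <;> rw [h1]
    · rw [one_mul, abs_of_pos hsn]
    · rw [neg_one_mul, neg_div, Real.sin_neg, abs_neg, abs_of_pos hsn]
  rw [e1, one_sub_cis, norm_mul, norm_pow, norm_neg, norm_one, one_pow, one_mul, norm_mul,
    N.nv_norm, one_mul, norm_mul, norm_mul, norm_neg, Complex.norm_real, Real.norm_eq_abs,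
    Complex.norm_I, norm_cis, mul_one, mul_one, abs_mul, e2, abs_two]
  linarith

theorem Ndl.nv_sum (N : Ndl z s l) (hs : ∀ i, s i = s 0) (n : ℕ) :
    Nv z n = Nv z 0 * cis (s 0 * ∑ j ∈ Finset.range n, l j) := by
  induction n with
  | zero => simp [cis_zero394]
  | succ n ih =>
    rw [N.nv_succ, ih, mul_assoc, ← cis_add394, Finset.sum_range_succ, hs n]
    congr 2; ring

/-- the position of the needle at a total angle `π` -/
theorem Inn.at_pi (h : Irr U T) (N : Ndl z s l) {r : Fin k} (O : Inn U T z s l r)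
    (hs : ∀ i, s i = s 0) {n : ℕ} {t : ℝ} (ht : t ∈ Icc 0 (l n))
    (hsum : ∑ j ∈ Finset.range n, l j + t = Real.pi) :
    (n % 2 = 0 ∧ hb (z (n + 1)) (z n) (s n) t = z 1 ∧ z (n + 1) = z 0) ∨
      (n % 2 = 1 ∧ hb (z (n + 1)) (z n) (s n) t = z 0 ∧ z (n + 1) = z 1) := by
  set p := hb (z (n + 1)) (z n) (s n) t with hp
  have hpa : p ∈ arcS z s l n := ⟨t, ht, rfl⟩
  obtain ⟨e, he, -, -, h2⟩ := N.col_of n
  have hpc : p ∈ Col z s l e := h2 hpa
  have hd : ∀ i, i < 2 → dist p (z i) ≤ 1 := by
    intro i hi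
    obtain ⟨e1, he1, hi1, -, h3⟩ := N.col_of i
    obtain ⟨e2, he2, hi2, h4, -⟩ := N.col_of (i + 1)
    refine O.near h N i (N.col_pre e) (O.clr.col e) ?_ _ hpc
    by_cases h5 : e1 = e
    · right; rw [← h5]; exact h3
    · left
      have : e2 = e := by omega
      rw [← this]; exact h4
  have h01 := N.d1 0
  rw [zero_add] at h01
  -- the direction
  have hdir : (-1 : ℂ) ^ n * (z (n + 1) - p) = z 0 - z 1 := by
    have e1 : (-1 : ℂ) ^ n * (z (n + 1) - p) = Nv z n * cis (s n * t) := by
      rw [hp, hb, Nv]; ring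
    have e2 : s 0 * ∑ j ∈ Finset.range n, l j + s n * t = s 0 * Real.pi := by
      rw [hs n, ← hsum]; ring
    rw [e1, N.nv_sum hs, mul_assoc, ← cis_add394, e2]
    have e3 : cis (s 0 * Real.pi) = -1 := by
      rcases N.hs 0 with h1 | h1 <;> rw [h1]
      · apply Complex.ext
        · rw [cis_re, one_mul, Real.cos_pi]; simp
        · rw [cis_im, one_mul, Real.sin_pi]; simp
      · apply Complex.ext
        · rw [cis_re, neg_one_mul, Real.cos_neg, Real.cos_pi]; simp
        · rw [cis_im, neg_one_mul, Real.sin_neg, Real.sin_pi]; simp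
    rw [e3, Nv, pow_zero]
    ring
  rcases Nat.even_or_odd n with h1 | h1
  · left
    rw [h1.neg_one_pow, one_mul] at hdir
    obtain ⟨h3, h5⟩ := par_eq hdir h01 (O.dst h N 1 (n + 1)) (hd 0 (by omega))
    exact ⟨Nat.even_iff.1 h1, h3, h5⟩
  · right
    rw [h1.neg_one_pow] at hdir
    have hdir' : p - z (n + 1) = z 0 - z 1 := by linear_combination hdir
    obtain ⟨h3, h5⟩ := par_eq hdir' h01 (hd 1 (by omega)) (O.dst h N 0 (n + 1))
    exact ⟨Nat.odd_iff.1 h1, h5, h3⟩

/-- **The needle closes.** -/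
theorem Inn.closes (h : Irr U T) (h4 : ∀ z, (T z).ncard ≤ 4) (N : Ndl z s l) {r : Fin k}
    (O : Inn U T z s l r) (hs : ∀ i, s i = s 0)
    (h5 : ∀ i, 5 ≤ (T (z i) ∪ T (z (i + 2))).ncard) (h3 : ∀ i, 3 ≤ (T (z i)).ncard)
    (hex : ∀ i, ∀ t ∈ Ioo 0 (l i), r ∈ T (hb (z (i + 1)) (z i) (s i) t))
    (hbey : ∀ᶠ t : ℝ in 𝓝[>] 0, r ∉ T (hb (z 1) (z 0) (-(s 0)) t)) :
    ∃ n, n % 2 = 1 ∧ z n = z 0 ∧ z (n + 1) = z 1 ∧ ∑ j ∈ Finset.range n, l j = Real.pi := by
  by_cases hb : ∃ m, Real.pi < ∑ j ∈ Finset.range m, l j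
  · -- the first time
    classical
    have hm := Nat.find_spec hb
    have hmin := fun m (hm : m < Nat.find hb) => Nat.find_min hb hm
    set m := Nat.find hb with hmdef
    have hm0 : m ≠ 0 := by
      intro h0
      rw [h0, Finset.sum_range_zero] at hm
      linarith [Real.pi_pos]
    obtain ⟨n, hn⟩ := Nat.exists_eq_succ_of_ne_zero hm0
    rw [hn, Nat.succ_eq_add_one] at hm hmin
    have h1 : ∑ j ∈ Finset.range n, l j ≤ Real.pi := not_lt.1 (hmin n (by omega))
    rw [Finset.sum_range_succ] at hm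
    set t := Real.pi - ∑ j ∈ Finset.range n, l j with ht
    have ht0 : 0 ≤ t := by linarith
    have htl : t < l n := by linarith
    have hcase := O.at_pi h N hs (n := n) (t := t) ⟨ht0, htl.le⟩ (by rw [ht]; ring)
    -- the end point is reached at the beginning of the arc
    have ht00 : t = 0 := by
      by_contra hne
      have htt : t ∈ Ioo 0 (l n) := ⟨lt_of_le_of_ne ht0 (Ne.symm hne), htl⟩
      obtain ⟨y, h6, -⟩ := O.ex n t htt
      have h7 : (T (Six.hb (z (n + 1)) (z n) (s n) t)).ncard ≤ 2 :=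
        (Set.ncard_le_ncard h6 (Set.toFinite _)).trans (Set.ncard_insert_le _ _ |>.trans (by simp))
      rcases hcase with ⟨-, h8, -⟩ | ⟨-, h8, -⟩
      · rw [h8] at h7; have := h3 1; omega
      · rw [h8] at h7; have := h3 0; omega
    rw [ht00] at hcase
    simp only [hb_eq_an, mul_zero, an_zero] at hcase
    rcases hcase with ⟨h6, h7, h8⟩ | ⟨h6, h7, h8⟩
    · exfalso
      have hn0 : n ≠ 0 := by
        intro h0
        rw [h0] at h7
        have := N.d1 0
        rw [zero_add, h7, dist_self] at this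
        norm_num at this
      obtain ⟨n', hn'⟩ := Nat.exists_eq_succ_of_ne_zero hn0
      rw [Nat.succ_eq_add_one] at hn'
      obtain ⟨t', ht1, ht2⟩ := (hbey.and (Ioo_mem_nhdsGT (N.l0 n'))).exists
      apply ht1
      have h9 := hex n' (l n' - t') ⟨by linarith [ht2.2], by linarith [ht2.1]⟩
      rw [← hb_rev, ← N.step n'] at h9
      rw [show n' + 1 = n by omega, show n' + 2 = n + 1 by omega, h7, h8, hs n'] at h9
      exact h9
    · refine ⟨n, h6, h7, h8, ?_⟩
      rw [ht] at ht00
      linarith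
  · -- bounded total angle
    exfalso
    push Not at hb
    have hsum : Summable l := summable_of_sum_range_le (fun i => (N.l0 i).le) hb
    have hl := hsum.tendsto_atTop_zero
    have h2n : Tendsto (fun n : ℕ => 2 * n) atTop atTop :=
      tendsto_id.const_mul_atTop' (by norm_num)
    refine h.cluster h4 (y := fun n => z (2 * n)) (C := 1) (fun n => O.dst h N 0 (2 * n)) ?_
      fun n => h5 (2 * n)
    refine squeeze_zero_norm (a := fun n => l (2 * n)) (fun n => ?_) (hl.comp h2n)
    exact N.disp_le (2 * n)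

/-- the needle is periodic -/
theorem Ndl.periodic (N : Ndl z s l) (hs : ∀ i, s i = s 0)
    (h2 : ∀ i, ∀ t ∈ Ioo 0 (l i), (T (hb (z (i + 1)) (z i) (s i) t)).ncard ≤ 2)
    (h3 : ∀ i, 3 ≤ (T (z i)).ncard) {n : ℕ} (h0 : z n = z 0) (h1 : z (n + 1) = z 1) (i : ℕ) :
    z (n + i) = z i ∧ z (n + i + 1) = z (i + 1) ∧ l (n + i) = l i := by
  have key : ∀ i, z (n + i) = z i → z (n + i + 1) = z (i + 1) → l (n + i) = l i := by
    intro i e0 e1
    have s1 := N.step (n + i)
    have s2 := N.step i
    rw [e0, e1, hs (n + i)] at s1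
    rw [hs i] at s2
    rcases lt_trichotomy (l (n + i)) (l i) with h5 | h5 | h5
    · exfalso
      have h6 := h2 i (l (n + i)) ⟨N.l0 _, h5⟩
      rw [hs i, ← s1] at h6
      have := h3 (n + i + 2)
      omega
    · exact h5
    · exfalso
      have h6 := h2 (n + i) (l i) ⟨N.l0 _, h5⟩
      rw [e0, e1, hs (n + i), ← s2] at h6
      have := h3 (i + 2)
      omega
  have main : ∀ i, z (n + i) = z i ∧ z (n + i + 1) = z (i + 1) := by
    intro i
    induction i with
    | zero => exact ⟨h0, h1⟩
    | succ i ih =>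
      refine ⟨ih.2, ?_⟩
      have e := key i ih.1 ih.2
      have s1 := N.step (n + i)
      have s2 := N.step i
      rw [ih.1, ih.2, hs (n + i), e] at s1
      rw [hs i] at s2
      rw [show n + (i + 1) + 1 = n + i + 2 by ring, show i + 1 + 1 = i + 2 by ring, s1, s2]
  exact ⟨(main i).1, (main i).2, key i (main i).1 (main i).2⟩

end Vale.Agent.P032.Six
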