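import Vale.Agent.P032.H183.Run2

/-!
# P032: infinite chains of delta pairs of one type

`DRun`: consecutive delta pairs `(z i, z (i+1))`, the exact arc of `S(z (i+1))` which starts at
`z i` ends at `z (i+2)`.  `σ i = 1`: the shared colour of the step is the outer one (D1),
`σ i = -1`: the inner one (D2).

* `DRun.no_D1`: `σ i = 1` for all `i` is impossible (also for closed chains);
* `DRun.D2_closes`: if `σ i = -1` for all `i` the chain is closed, `z (n+i) = z i`, the total angle of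
  `n` steps is `π`, `n` is odd, and `n = 5` or `n = 9` or `n ≥ 13`.
-/

open Set Filter Topology Metric

noncomputable section

namespace Vale.Agent.P032.Six

variable {U : Fin 6 → Set ℂ} {T : ℂ → Set (Fin 6)}

/-- a chain of delta pairs -/
structure DRun (U : Fin 6 → Set ℂ) (T : ℂ → Set (Fin 6)) (z : ℕ → ℂ) (x x' c d e f : ℕ → Fin 6)
    (ρ σ l : ℕ → ℝ) : Prop where
  D : ∀ i, Del U T (z i) (z (i + 1)) (x i) (x' i) (c i) (d i) (e i) (f i) (ρ i) (σ i)
  l0 : ∀ i, 0 < l i
  l1 : ∀ i, l i < Real.pi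
  step : ∀ i, z (i + 2) = hb (z (i + 1)) (z i) (ρ i * σ i) (l i)
  arc : ∀ i, ∀ t ∈ Ioo 0 (l i), T (hb (z (i + 1)) (z i) (ρ i * σ i) t) = {c i, x' i}

/-- colours on a closed chain: any four consecutive ones are different -/
theorem closed_colours {o : ℕ → Fin 6} {r : Fin 6} {n : ℕ} (hn : n % 2 = 1)
    (ho : ∀ i m, 1 ≤ m → m ≤ 3 → o i ≠ o (i + m)) (hr : ∀ i, o i ≠ r) (hp : ∀ i, o (n + i) = o i) :
    n = 5 ∨ n = 9 ∨ 13 ≤ n := by
  by_contra hcon
  push Not at hcon
  obtain ⟨h5, h9, h13⟩ := hcon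
  have hc : n = 1 ∨ n = 3 ∨ n = 7 ∨ n = 11 := by omega
  have hdiff : ∀ i j, i < j → j < n → o i = o j → 4 ≤ j - i ∧ 4 ≤ n + i - j := by
    intro i j hij hj he
    constructor
    · by_contra h1
      have := ho i (j - i) (by omega) (by omega)
      rw [show i + (j - i) = j by omega] at this
      exact this he
    · by_contra h1
      have := ho j (n + i - j) (by omega) (by omega)
      rw [show j + (n + i - j) = n + i by omega, hp i] at this
      exact this he.symm
  rcases hc with rfl | rfl | rfl | rfl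
  · exact ho 0 1 (by omega) (by omega) (hp 0).symm
  · exact ho 0 3 (by omega) (by omega) (hp 0).symm
  · have hinj : Function.Injective fun i : Fin 7 => o i := by
      intro i j hij
      by_contra hne
      rcases lt_or_gt_of_ne (fun h => hne (Fin.ext h) : (i : ℕ) ≠ j) with h1 | h1
      · have := hdiff i j h1 j.2 hij; omega
      · have := hdiff j i h1 i.2 hij.symm; omega
    have := Fintype.card_le_of_injective _ hinj
    simp at this
  · have hmap : ∀ i ∈ Finset.range 11, o i ∈ (Finset.univ.erase r : Finset (Fin 6)) := by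
      intro i _
      exact Finset.mem_erase.2 ⟨hr i, Finset.mem_univ _⟩
    have hcard : (Finset.univ.erase r : Finset (Fin 6)).card * 2 < (Finset.range 11).card := by
      rw [Finset.card_erase_of_mem (Finset.mem_univ _)]
      simp
    obtain ⟨y, -, hy⟩ := Finset.exists_lt_card_fiber_of_mul_lt_card_of_maps_to hmap hcard
    obtain ⟨a, ha, b, hb, g, hg, hab, hag, hbg⟩ := Finset.two_lt_card.1 hy
    simp only [Finset.mem_filter, Finset.mem_range] at ha hb hg
    have key : ∀ i j, i < 11 → j < 11 → i ≠ j → o i = o j →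
        (4 ≤ j - i ∧ 4 ≤ 11 + i - j) ∨ (4 ≤ i - j ∧ 4 ≤ 11 + j - i) := by
      intro i j hi hj hne he
      rcases lt_or_gt_of_ne hne with h1 | h1
      · exact Or.inl (hdiff i j h1 hj he)
      · exact Or.inr (hdiff j i h1 hi he.symm)
    have k1 := key a b ha.1 hb.1 hab (ha.2.trans hb.2.symm)
    have k2 := key a g ha.1 hg.1 hag (ha.2.trans hg.2.symm)
    have k3 := key b g hb.1 hg.1 hbg (hb.2.trans hg.2.symm)
    omega

namespace DRun

variable {z : ℕ → ℂ} {x x' c d e f : ℕ → Fin 6} {ρ σ l : ℕ → ℝ}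

theorem hs (R : DRun U T z x x' c d e f ρ σ l) (i : ℕ) : ρ i * σ i = 1 ∨ ρ i * σ i = -1 :=
  (R.D i).prod

theorem ndl (R : DRun U T z x x' c d e f ρ σ l) : Ndl z (fun i => ρ i * σ i) l where
  d1 := fun i => (R.D i).Vz
  hs := R.hs
  l0 := R.l0
  l1 := R.l1
  step := R.step

theorem next (R : DRun U T z x x' c d e f ρ σ l) (h : Irr U T) (i : ℕ) :
    ρ (i + 1) = -(ρ i * σ i) ∧
      ((x (i + 1) = c i ∧ x' (i + 1) = x' i ∧ σ (i + 1) = σ i ∧ c (i + 1) = e i ∧
          d (i + 1) = x i) ∨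
        (x (i + 1) = x' i ∧ x' (i + 1) = c i ∧ σ (i + 1) = -σ i ∧ c (i + 1) = x i ∧
          d (i + 1) = e i)) ∧
      ((e (i + 1) = d i ∧ f (i + 1) = f i) ∨ (e (i + 1) = f i ∧ f (i + 1) = d i)) :=
  (R.D i).step h (R.D (i + 1)) (R.l0 i) (R.l1 i) (R.step i) (R.arc i)

/-- equal steps -/
theorem equal (R : DRun U T z x x' c d e f ρ σ l) (h : Irr U T) {i : ℕ} (hσ : σ (i + 1) = σ i) :
    x (i + 1) = c i ∧ x' (i + 1) = x' i ∧ c (i + 1) = e i ∧ d (i + 1) = x i := by
  rcases (R.next h i).2.1 with ⟨h1, h2, -, h3, h4⟩ | ⟨-, -, h1, -⟩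
  · exact ⟨h1, h2, h3, h4⟩
  · exfalso
    have h2 : σ i = 0 := by rw [hσ] at h1; linarith
    rcases (R.D i).hσ with h3 | h3 <;> rw [h3] at h2 <;> norm_num at h2

/-- the colours of the arc -/
theorem closed (R : DRun U T z x x' c d e f ρ σ l) (h : Irr U T) (i : ℕ) :
    ∀ t ∈ Icc 0 (l i), c i ∈ T (hb (z (i + 1)) (z i) (ρ i * σ i) t) ∧
      x' i ∈ T (hb (z (i + 1)) (z i) (ρ i * σ i) t) :=
  (R.D i).arc_closed (R.D (i + 1)) (R.step i) (R.arc i)
    ((R.D i).arc_dir h (R.D (i + 1)) (R.l0 i) (R.step i) (R.arc i)).2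

/-- the orientation along the arc -/
theorem ori (R : DRun U T z x x' c d e f ρ σ l) (h : Irr U T) (i : ℕ) {t : ℝ}
    (ht : t ∈ Ioo 0 (l i)) :
    Ori U (z (i + 1)) (hb (z (i + 1)) (z i) (ρ i * σ i) t) (c i) (x' i) (σ i) :=
  h.ori_arc ((R.D i).hDV.swap.swap12) (R.D i).Vz ht.1.le
    (fun s hs => R.closed h i s ⟨hs.1, hs.2.trans ht.2.le⟩) ((R.D i).symm h).ori

/-- five colours at `z i` and `z (i + 2)` -/
theorem five (R : DRun U T z x x' c d e f ρ σ l) (h : Irr U T) {i : ℕ} (hσ : σ (i + 1) = σ i) :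
    5 ≤ (T (z i) ∪ T (z (i + 2))).ncard := by
  have nd := (R.D i).nd
  have h1 := (R.equal h hσ).2.2.1
  have h2 : ({x i, x' i, c i, d i, e i} : Set (Fin 6)) ⊆ T (z i) ∪ T (z (i + 2)) := by
    intro j hj
    have h3 := (R.D i).hz.pal
    have h4 := (R.D (i + 1)).hDV.pal
    rw [show i + 1 + 1 = i + 2 by ring] at h4
    rw [mem_union, h3, h4, h1]
    simp only [mem_insert_iff, mem_singleton_iff] at hj ⊢
    tauto
  have h5 : ({x i, x' i, c i, d i, e i} : Set (Fin 6)).ncard = 5 := by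
    simp only [List.nodup_cons, List.mem_cons, List.not_mem_nil, not_or, or_false,
      not_false_eq_true, List.nodup_nil, and_true] at nd
    obtain ⟨⟨a1, a2, a3, a4, a5⟩, ⟨a6, a7, a8, a9⟩, ⟨a10, a11, a12⟩, ⟨a13, a14⟩, a15⟩ := nd
    rw [Set.ncard_insert_of_notMem (by simp [a1, a2, a3, a4]),
      Set.ncard_insert_of_notMem (by simp [a6, a7, a8]),
      Set.ncard_insert_of_notMem (by simp [a10, a11]),
      Set.ncard_insert_of_notMem (by simp [a13]), Set.ncard_singleton]
  rw [← h5]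
  exact Set.ncard_le_ncard h2 (Set.toFinite _)

/-- the shared colour is constant -/
theorem shared (R : DRun U T z x x' c d e f ρ σ l) (h : Irr U T) (hσ : ∀ i, σ (i + 1) = σ i)
    (i : ℕ) : x' i = x' 0 := by
  induction i with
  | zero => rfl
  | succ i ih => rw [(R.equal h (hσ i)).2.1, ih]

/-- **There is no infinite D1 chain.** -/
theorem no_D1 (R : DRun U T z x x' c d e f ρ σ l) (h : Irr U T) (h4 : ∀ z, (T z).ncard ≤ 4)
    (hσ : ∀ i, σ i = 1) : False := by
  have hσ' : ∀ i, σ (i + 1) = σ i := fun i => by rw [hσ, hσ]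
  have hρ : ∀ i, ρ i * σ i = ρ 0 * (-1) ^ i := by
    intro i
    rw [hσ, mul_one]
    induction i with
    | zero => simp
    | succ i ih =>
      have := (R.next h i).1
      rw [hσ, mul_one, ih] at this
      rw [this, pow_succ]; ring
  refine Out.false (r := x' 0) h h4 R.ndl ⟨?_, ?_⟩ hρ fun i => R.five h (hσ' i)
  · rintro i _ ⟨t, ht, rfl⟩
    have := (R.closed h i t ht).2
    rw [R.shared h hσ'] at this
    exact h.sub _ this
  · intro i t ht
    refine ⟨c i, ?_, ?_⟩
    · rw [R.arc i t ht, R.shared h hσ']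
    · have h1 := R.ori h i ht
      rw [R.shared h hσ', hσ] at h1
      rcases h1 with ⟨-, h2⟩ | ⟨h2, -⟩
      · rw [hσ]
        exact h2
      · norm_num at h2

theorem d2_inn (R : DRun U T z x x' c d e f ρ σ l) (h : Irr U T) (hσ : ∀ i, σ i = -1) :
    Inn U T z (fun i => ρ i * σ i) l (x' 0) := by
  have hσ' : ∀ i, σ (i + 1) = σ i := fun i => by rw [hσ, hσ]
  refine ⟨?_, ?_⟩
  · rintro i _ ⟨t, ht, rfl⟩
    have := (R.closed h i t ht).2
    rw [R.shared h hσ'] at this
    exact h.sub _ this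
  · intro i t ht
    refine ⟨c i, ?_, ?_⟩
    · rw [R.arc i t ht, R.shared h hσ', pair_comm]
    · have h1 := R.ori h i ht
      rw [R.shared h hσ', hσ] at h1
      rcases h1 with ⟨h2, -⟩ | ⟨-, h2⟩
      · norm_num at h2
      · rw [hσ]
        exact h2

/-- **An infinite D2 chain closes.** -/
theorem D2_closes (R : DRun U T z x x' c d e f ρ σ l) (h : Irr U T) (h4 : ∀ z, (T z).ncard ≤ 4)
    (hσ : ∀ i, σ i = -1) : ∃ n, n % 2 = 1 ∧ (n = 5 ∨ n = 9 ∨ 13 ≤ n) ∧
      (∀ i, z (n + i) = z i ∧ x (n + i) = x i) ∧ ∑ j ∈ Finset.range n, l j = Real.pi := by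
  have hσ' : ∀ i, σ (i + 1) = σ i := fun i => by rw [hσ, hσ]
  have hρ : ∀ i, ρ i = ρ 0 := by
    intro i
    induction i with
    | zero => rfl
    | succ i ih =>
      have := (R.next h i).1
      rw [hσ, ih] at this
      rw [this]; ring
  have hs : ∀ i, ρ i * σ i = ρ 0 * σ 0 := fun i => by rw [hρ, hσ, hσ]
  have h3 : ∀ i, 3 ≤ (T (z i)).ncard := by
    intro i
    have nd := (R.D i).nd
    rw [(R.D i).hz.pal]
    simp only [List.nodup_cons, List.mem_cons, List.not_mem_nil, not_or, or_false,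
      not_false_eq_true, List.nodup_nil, and_true] at nd
    obtain ⟨⟨a1, a2, a3, a4, a5⟩, ⟨a6, a7, a8, a9⟩, ⟨a10, a11, a12⟩, ⟨a13, a14⟩, a15⟩ := nd
    rw [Set.ncard_insert_of_notMem (by simp [a1, a2, a3]),
      Set.ncard_insert_of_notMem (by simp [a6, a7]),
      Set.ncard_insert_of_notMem (by simp [a10]), Set.ncard_singleton]
    norm_num
  have hex : ∀ i, ∀ t ∈ Ioo 0 (l i), x' 0 ∈ T (hb (z (i + 1)) (z i) (ρ i * σ i) t) := by
    intro i t ht
    rw [R.arc i t ht, R.shared h hσ']; simp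
  have hbey : ∀ᶠ t : ℝ in 𝓝[>] 0, x' 0 ∉ T (hb (z 1) (z 0) (-(ρ 0 * σ 0)) t) := by
    have h1 := ((R.D 0).symm h).beyond h
    rw [zero_add] at h1
    filter_upwards [h1] with t ht h2
    have h3 := ht.1 h2
    have nd := (R.D 0).nd
    simp only [List.nodup_cons, List.mem_cons, List.not_mem_nil, not_or, or_false,
      not_false_eq_true, List.nodup_nil, and_true] at nd
    rcases h3 with h3 | h3
    · exact nd.2.1.2.1 h3
    · exact nd.1.1 (mem_singleton_iff.1 h3).symm
  obtain ⟨n, hn, e0, e1, hsum⟩ := Inn.closes h h4 R.ndl (R.d2_inn h hσ) hs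
    (fun i => R.five h (hσ' i)) h3 hex hbey
  have hper := R.ndl.periodic (T := T) hs (fun i t ht => by
    rw [R.arc i t ht]
    exact (Set.ncard_insert_le _ _).trans (by simp)) h3 e0 e1
  have hx : ∀ i, x (n + i) = x i := by
    intro i
    have h1 := (R.D (n + i)).ex
    have h2 := (R.D i).ex
    rw [(hper i).1, (hper i).2.1, hρ (n + i), R.shared h hσ'] at h1
    rw [hρ i, R.shared h hσ'] at h2
    obtain ⟨t, h5, h6⟩ := (h1.and h2).exists
    have h7 : x (n + i) ∈ ({x i, x' 0} : Set (Fin 6)) := by rw [← h6, h5]; simp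
    rcases h7 with h7 | h7
    · exact h7
    · exfalso
      have nd := (R.D (n + i)).nd
      simp only [List.nodup_cons, List.mem_cons, List.not_mem_nil, not_or, or_false,
        not_false_eq_true, List.nodup_nil, and_true] at nd
      apply nd.1.1
      rw [R.shared h hσ' (n + i)]
      exact mem_singleton_iff.1 h7
  have hdist : ∀ i, x i ≠ x (i + 1) ∧ x i ≠ x (i + 2) ∧ x i ≠ x (i + 3) ∧ x i ≠ x' 0 := by
    intro i
    obtain ⟨b1, b2, b3, b4⟩ := R.equal h (hσ' i)
    obtain ⟨b5, b6, b7, b8⟩ := R.equal h (hσ' (i + 1))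
    obtain ⟨b9, b10, b11, b12⟩ := R.equal h (hσ' (i + 2))
    have nd := (R.D i).nd
    have nd' := (R.D (i + 1)).nd
    simp only [List.nodup_cons, List.mem_cons, List.not_mem_nil, not_or, or_false,
      not_false_eq_true, List.nodup_nil, and_true] at nd nd'
    rw [show i + 1 + 1 = i + 2 by ring] at b5 b6 b7 b8
    rw [show i + 2 + 1 = i + 3 by ring] at b9 b10 b11 b12
    refine ⟨?_, ?_, ?_, ?_⟩
    · rw [b1]; exact nd.1.2.1
    · rw [b5, b3]; exact nd.1.2.2.2.1
    · rw [b9, b7, ← b4]; exact nd'.2.2.2.1.1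
    · rw [← R.shared h hσ' i]; exact nd.1.1
  refine ⟨n, hn, closed_colours (r := x' 0) hn ?_ (fun i => (hdist i).2.2.2) hx,
    fun i => ⟨(hper i).1, hx i⟩, hsum⟩
  intro i m hm1 hm3
  have h1 := hdist i
  rcases (by omega : m = 1 ∨ m = 2 ∨ m = 3) with rfl | rfl | rfl
  · exact h1.1
  · exact h1.2.1
  · exact h1.2.2.1

end DRun

end Vale.Agent.P032.Six
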