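import Vale.Agent.P032.S5.H80.Clean

/-!
# P032: sides at the centre with respect to the END of an exact arc

`Irr.sd_center` (H80/Anti) gives the sides at the centre `z` with respect to an interior point of an
exact arc of `S(z)`.  Here the same for an end `V` of the arc (any palette at `V`): if `S(z)` carries
`a, b` on one side of `V` and the sides are known at the points of the arc, then near `z` the colour `a`
is absent outside `S(V)` and `b` is absent inside `S(V)`.
-/

open Set Filter Topology Metric

noncomputable section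

namespace Vale.Agent.P032.Six

variable {k : ℕ} {U : Fin k → Set ℂ} {T : ℂ → Set (Fin k)}

/-- continuity in the angle of the side data: the sides at the centre pass to the end of an arc on
which both colours are carried -/
theorem Mx.sd_center_end (h : Mx U) {z : ℂ} {t0 σ η : ℝ} (hη : 0 < η) (hη3 : η < 3)
    {a b : Fin k} (hσ : σ = 1 ∨ σ = -1)
    (hJ : ∀ t : ℝ, 0 < t → t < η → a ∈ Pal U (z + cis (t0 + σ * t)) ∧
      b ∈ Pal U (z + cis (t0 + σ * t)))
    (hS : ∀ t : ℝ, 0 < t → t < η → Sd U (z + cis (t0 + σ * t)) z a b) :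
    Sd U (z + cis t0) z a b := by
  -- closedness: the end carries both colours, too
  have hcont : Continuous fun t : ℝ => z + cis (t0 + σ * t) :=
    continuous_const.add (continuous_cis.comp (by fun_prop))
  have hmemc : ∀ (i : Fin k), (∀ t : ℝ, 0 < t → t < η → i ∈ Pal U (z + cis (t0 + σ * t))) →
      ∀ t : ℝ, 0 ≤ t → t < η → i ∈ Pal U (z + cis (t0 + σ * t)) := by
    intro i hi t ht ht'
    rcases ht.lt_or_eq with h1 | rfl
    · exact hi t h1 ht'
    · have hcl : IsClosed {t : ℝ | i ∈ Pal U (z + cis (t0 + σ * t))} :=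
        (isClosed_closure (s := U i)).preimage hcont
      have h2 : (0 : ℝ) ∈ closure (Ioo (0 : ℝ) η) := by
        rw [closure_Ioo hη.ne]; exact ⟨le_rfl, hη.le⟩
      exact hcl.closure_subset_iff.2 (fun s hs => hi s hs.1 hs.2) h2
  have ha := hmemc a fun t h1 h2 => (hJ t h1 h2).1
  have hb := hmemc b fun t h1 h2 => (hJ t h1 h2).2
  -- two interior points
  set t1 : ℝ := η / 3 with ht1
  set t2 : ℝ := 2 * η / 3 with ht2
  have e1 := hS t1 (by positivity) (by rw [ht1]; linarith)
  have e2 := hS t2 (by positivity) (by rw [ht2]; linarith)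
  -- near `z`, a point at distance one of `z + cis (t0 + σ t1)` and of `z + cis (t0 + σ t2)` is `z`
  have hne : z + cis (t0 + σ * t1) ≠ z + cis (t0 + σ * t2) := by
    intro hcon
    have h1 : cis (t0 + σ * t1) = cis (t0 + σ * t2) := add_left_cancel hcon
    have hr := congrArg Complex.re h1
    have hi := congrArg Complex.im h1
    rw [cis_re, cis_re] at hr
    rw [cis_im, cis_im] at hi
    have h2 : Real.cos (σ * (t2 - t1)) = 1 := by
      rw [show σ * (t2 - t1) = (t0 + σ * t2) - (t0 + σ * t1) by ring, Real.cos_sub, hr, hi]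
      have := Real.sin_sq_add_cos_sq (t0 + σ * t2)
      nlinarith
    have h3 : Real.cos (σ * (t2 - t1)) < 1 := by
      have h4 : Real.cos (σ * (t2 - t1)) = Real.cos (t2 - t1) := by
        rcases hσ with rfl | rfl
        · rw [one_mul]
        · rw [show (-1 : ℝ) * (t2 - t1) = -(t2 - t1) by ring, Real.cos_neg]
      rw [h4]
      have h5 : 0 < t2 - t1 := by rw [ht1, ht2]; linarith
      have h6 : t2 - t1 < 1 := by rw [ht1, ht2]; linarith
      have := Real.cos_lt_cos_of_nonneg_of_le_pi (x := 0) (y := t2 - t1) le_rfl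
        (by linarith [Real.pi_gt_three]) h5
      rwa [Real.cos_zero] at this
    linarith
  set p1 := z + cis (t0 + σ * t1) with hp1
  set p2 := z + cis (t0 + σ * t2) with hp2
  have hd1 : dist p1 z = 1 := dist_add_cis _ _
  have hd2 : dist p2 z = 1 := dist_add_cis _ _
  have hpp : dist p1 p2 < 2 := by
    have h5 : 0 < t2 - t1 := by rw [ht1, ht2]; linarith
    have h6 : t2 - t1 < 1 := by rw [ht1, ht2]; linarith
    by_contra hcon
    push Not at hcon
    have h7 : dist p1 p2 = 2 := le_antisymm (by
      have := dist_triangle p1 z p2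
      rw [hd1, dist_comm z p2, hd2] at this
      linarith) hcon
    have h8 : dist p1 p2 ^ 2 = 2 - 2 * Real.cos (σ * (t2 - t1)) := by
      rw [sq_dist, hp1, hp2, show σ * (t2 - t1) = (t0 + σ * t2) - (t0 + σ * t1) by ring,
        Real.cos_sub]
      simp only [Complex.add_re, Complex.add_im, cis_re, cis_im]
      have k1 := Real.sin_sq_add_cos_sq (t0 + σ * t1)
      have k2 := Real.sin_sq_add_cos_sq (t0 + σ * t2)
      nlinarith
    have h9 : 0 < Real.cos (σ * (t2 - t1)) := by
      have h4 : Real.cos (σ * (t2 - t1)) = Real.cos (t2 - t1) := by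
        rcases hσ with rfl | rfl
        · rw [one_mul]
        · rw [show (-1 : ℝ) * (t2 - t1) = -(t2 - t1) by ring, Real.cos_neg]
      rw [h4]
      exact Real.cos_pos_of_mem_Ioo ⟨by linarith [Real.pi_gt_three], by
        linarith [Real.pi_gt_three]⟩
    rw [h7] at h8
    linarith
  have hne3 : z ≠ p1 + p2 - z := by
    intro hz
    have h7 : dist p1 p2 = 2 := by
      have h8 : p1 - p2 = 2 * (p1 - z) := by linear_combination hz
      rw [dist_eq_norm, h8, norm_mul, ← dist_eq_norm, hd1]; simp
    linarith
  have e3 : ∀ᶠ x in 𝓝 z, x ≠ p1 + p2 - z := isOpen_ne.mem_nhds hne3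
  have key : ∀ x, x ≠ p1 + p2 - z → x ≠ z → dist x p1 = 1 → dist x p2 ≠ 1 := by
    intro x hx1 hx2 h1 h2
    have k1 : dist (p1 + p2 - z) p1 = 1 := by
      rw [dist_eq_norm, show p1 + p2 - z - p1 = p2 - z by ring, ← dist_eq_norm, hd2]
    have k2 : dist (p1 + p2 - z) p2 = 1 := by
      rw [dist_eq_norm, show p1 + p2 - z - p2 = p1 - z by ring, ← dist_eq_norm, hd1]
    exact (circle_two (V := z) (Q := p1 + p2 - z) (by rw [dist_comm]; exact hd1) k1 h1
      (by rw [dist_comm]; exact hd2) k2 h2 hne hne3).elim hx2 hx1
  filter_upwards [e1, e2, e3] with x h1 h2 h3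
  constructor
  · intro hx
    have hxz : x ≠ z := by
      rintro rfl
      rw [dist_comm, dist_add_cis] at hx
      exact lt_irrefl _ hx
    -- the case of a point with distance `< 1`
    have sw : ∀ t : ℝ, 0 < t → t < η → dist x (z + cis (t0 + σ * t)) < 1 → a ∉ Pal U x := by
      intro t ht ht' hxt
      refine h.swept (z := z) (t1 := t0 + σ * t) (t2 := t0) ?_ (by rw [dist_comm]; exact hxt)
        (by rw [dist_comm]; exact hx)
      intro s hs
      rcases hσ with rfl | rfl
      · rw [uIcc_of_ge (by linarith)] at hs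
        have := ha (s - t0) (by linarith [hs.1]) (by linarith [hs.2])
        rwa [show t0 + 1 * (s - t0) = s by ring] at this
      · rw [uIcc_of_le (by linarith)] at hs
        have := ha (t0 - s) (by linarith [hs.2]) (by linarith [hs.1])
        rwa [show t0 + -1 * (t0 - s) = s by ring] at this
    rcases lt_trichotomy (dist x p1) 1 with h4 | h4 | h4
    · exact sw t1 (by positivity) (by rw [ht1]; linarith) h4
    · rcases lt_or_gt_of_ne (key x h3 hxz h4) with h5 | h5
      · exact sw t2 (by positivity) (by rw [ht2]; linarith) h5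
      · exact h2.1 h5
    · exact h1.1 h4
  · intro hx
    have hxz : x ≠ z := by
      rintro rfl
      rw [dist_comm, dist_add_cis] at hx
      exact lt_irrefl _ hx
    have sw : ∀ t : ℝ, 0 < t → t < η → 1 < dist x (z + cis (t0 + σ * t)) → b ∉ Pal U x := by
      intro t ht ht' hxt
      refine h.swept (z := z) (t1 := t0) (t2 := t0 + σ * t) ?_ (by rw [dist_comm]; exact hx)
        (by rw [dist_comm]; exact hxt)
      intro s hs
      rcases hσ with rfl | rfl
      · rw [uIcc_of_le (by linarith)] at hs
        have := hb (s - t0) (by linarith [hs.1]) (by linarith [hs.2])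
        rwa [show t0 + 1 * (s - t0) = s by ring] at this
      · rw [uIcc_of_ge (by linarith)] at hs
        have := hb (t0 - s) (by linarith [hs.2]) (by linarith [hs.1])
        rwa [show t0 + -1 * (t0 - s) = s by ring] at this
    rcases lt_trichotomy (dist x p1) 1 with h4 | h4 | h4
    · exact h1.2 h4
    · rcases lt_or_gt_of_ne (key x h3 hxz h4) with h5 | h5
      · exact h2.2 h5
      · exact sw t2 (by positivity) (by rw [ht2]; linarith) h5
    · exact sw t1 (by positivity) (by rw [ht1]; linarith) h4

end Vale.Agent.P032.Six
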