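import Vale.Agent.P032.H757.PInst
import Vale.Agent.P032.H183.Net0

/-!
# P032: rhombus graph of the two-pair centres without facts on words

Frame: `Irr U T`, at most four colours at a point.  Nothing is assumed on the words of the
circles (no `L2`, no `L3`).

* `net0_P`: the clean ends of type `X` and `Xᶜ` form a `Net0` (rhombus, three owners at a hub,
  separation);
* `L2at c`, `L3at c`: the facts of `FactsW` at one centre `c`;
* `tri_irr`: three pairwise adjacent owners of a hub force that `L3` fails at one of the owners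
  or that `L2` fails at an explicit centre at distance one of one of them;
* `star22`: a centre with two clean ends `v₁`, `v₂` of type `X` and two clean ends `q₁`, `q₂` of
  type `Xᶜ`: if no hub carries a triangle, its four rhombus centres have exactly one clean end of
  each of the two types, and `L2` fails at all four;
* `star22_irr`: without hypothesis on triangles, one of the four rhombus centres violates `L2` or
  `L3`.
-/

open Set Filter Topology Metric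

noncomputable section

namespace Vale.Agent.P032.H183

open Vale.Agent.P032.Six Vale.Agent.P032.Net.H672 Vale.Agent.P032.H757

variable {U : Fin 6 → Set ℂ} {T : ℂ → Set (Fin 6)} {X : Set (Fin 6)} {z v q m : ℂ}

/-- clean ends of type `X` -/
def tX (T : ℂ → Set (Fin 6)) (X : Set (Fin 6)) (z v : ℂ) : Prop := EE T z v ∧ T v = X

/-- the network without facts on words -/
theorem net0_P (h : Irr U T) (h4 : ∀ z, (T z).ncard ≤ 4) (X : Set (Fin 6)) :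
    Net0 (tX T X) (tX T Xᶜ) := by
  have hX3 : ∀ {z v}, EE T z v ∧ T v = X → X.ncard = 3 := by
    rintro z v ⟨h1, rfl⟩; exact h1.card_v
  have hX3' : ∀ {z v}, EE T z v ∧ T v = Xᶜ → X.ncard = 3 := by
    rintro z v ⟨h1, h2⟩
    have h3 := h1.card_v
    rw [h2] at h3
    have := Set.ncard_add_ncard_compl X
    rw [Nat.card_eq_fintype_card, Fintype.card_fin] at this
    omega
  have hc : ∀ {z v z' q}, EE T z v ∧ T v = X → EE T z' q ∧ T q = Xᶜ → T q = (T v)ᶜ := by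
    rintro z v z' q ⟨-, h1⟩ ⟨-, h2⟩
    rw [h1, h2]
  refine
    { dist_t := fun hv => hv.1.dist
      dist_c := fun hq => hq.1.dist
      ne := fun {z z' v} hv hq => ?_
      rh := fun {z v q} hv hq => ⟨⟨hv.1.rh h h4 hq.1 (hc hv hq), hv.2⟩,
        ⟨hv.1.rh' h h4 hq.1 (hc hv hq), hq.2⟩⟩
      three_t := ?_
      three_c := ?_
      sep := ?_ }
  · have h5 := (hv.1.en hv.2).ne (hX3 hv) (hq.1.en hq.2)
    exact h5 rfl
  · rintro v z₁ z₂ z₃ z₄ ⟨a1, q1, b1⟩ ⟨a2, q2, b2⟩ ⟨a3, q3, b3⟩ ⟨a4, q4, b4⟩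
    exact h.en_three (hX3 a1) ⟨a1.1.en a1.2, q1, b1.1.en b1.2⟩ ⟨a2.1.en a2.2, q2, b2.1.en b2.2⟩
      ⟨a3.1.en a3.2, q3, b3.1.en b3.2⟩ ⟨a4.1.en a4.2, q4, b4.1.en b4.2⟩
  · rintro q z₁ z₂ z₃ z₄ ⟨a1, q1, b1⟩ ⟨a2, q2, b2⟩ ⟨a3, q3, b3⟩ ⟨a4, q4, b4⟩
    have e : ∀ {z v}, EE T z v ∧ T v = X → En T Xᶜᶜ z v := fun hv =>
      hv.1.en (by rw [compl_compl]; exact hv.2)
    exact h.en_three (X := Xᶜ) (ncard_compl_three (hX3' a1))
      ⟨a1.1.en a1.2, q1, e b1⟩ ⟨a2.1.en a2.2, q2, e b2⟩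
      ⟨a3.1.en a3.2, q3, e b3⟩ ⟨a4.1.en a4.2, q4, e b4⟩
  · rintro z v₁ v₂ q₁ q₂ hv₁ hv₂ hq₁ hq₂
    have e : ∀ {v q}, EE T z v ∧ T v = X → EE T z q ∧ T q = Xᶜ → T v ∩ T z = T z \ T q := by
      rintro v q ⟨-, h1⟩ ⟨-, h2⟩
      rw [h1, h2, Set.sdiff_compl, inter_comm]
    have l1 := hq₁.1.lp2 h hv₁.1 hv₂.1 (e hv₁ hq₁) (e hv₂ hq₁)
    have l2 := hq₂.1.lp2 h hv₁.1 hv₂.1 (e hv₁ hq₂) (e hv₂ hq₂)
    have nz : ∀ {v q}, EE T z v ∧ T v = X → EE T z q ∧ T q = Xᶜ →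
        cr (q - z) (v - z) ≠ 0 := by
      intro v q hv hq
      refine cr_ne_of hq.1.dist hv.1.dist ((hv.1.en hv.2).ne (hX3 hv) (hq.1.en hq.2)).symm ?_
      rw [add_comm]
      exact hv.1.anti h hq.1 (hc hv hq)
    have n11 := nz hv₁ hq₁
    have n21 := nz hv₂ hq₁
    have n12 := nz hv₁ hq₂
    have n22 := nz hv₂ hq₂
    have hP : (0 < cr (q₁ - z) (v₁ - z) * cr (q₁ - z) (v₂ - z)) ↔
        0 < cr (q₂ - z) (v₁ - z) * cr (q₂ - z) (v₂ - z) := l1.symm.trans l2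
    have hpos : 0 < (cr (q₁ - z) (v₁ - z) * cr (q₁ - z) (v₂ - z)) *
        (cr (q₂ - z) (v₁ - z) * cr (q₂ - z) (v₂ - z)) := by
      rcases lt_or_gt_of_ne (mul_ne_zero n11 n21) with h5 | h5
      · rcases lt_or_gt_of_ne (mul_ne_zero n12 n22) with h6 | h6
        · exact mul_pos_of_neg_of_neg h5 h6
        · exact absurd (hP.2 h6) (not_lt.2 h5.le)
      · exact mul_pos h5 (hP.1 h5)
    refine hpos.trans_le (le_of_eq ?_)
    unfold cr Vale.Agent.P032.Net.H672.dt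
    ring

/-- the fact `L2` of `FactsW` at the centre `c` -/
def L2at (T : ℂ → Set (Fin 6)) (c : ℂ) : Prop := ∀ ⦃v q⦄, Cp T c v q →
  (∃ v', v' ≠ v ∧ EE T c v' ∧ T v' = T v) ∨ ∃ q', q' ≠ q ∧ EE T c q' ∧ T q' = T q

/-- the fact `L3` of `FactsW` at the centre `c` -/
def L3at (T : ℂ → Set (Fin 6)) (c : ℂ) : Prop := ∀ ⦃v q q'⦄, Cp T c v q → Cp T c v q' → q ≠ q' →
  (∀ v', EE T c v' → T v' = T v → v' = v) → (∀ p, EE T c p → T p = T q → p = q ∨ p = q') →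
    ∃ α β γ : ℝ, 0 < α ∧ 0 < β ∧ 0 < γ ∧
      (α : ℂ) * (v - c) + (β : ℂ) * (q - c) + (γ : ℂ) * (q' - c) = 0

theorem L2at.reg {c : ℂ} (h : L2at T c) (X : Set (Fin 6)) : Reg2 (tX T X) (tX T Xᶜ) c := by
  intro v q hv hq
  have hcp : Cp T c v q := ⟨hv.1, hq.1, by rw [hv.2, hq.2]⟩
  rcases h hcp with ⟨v', a, b, e⟩ | ⟨q', a, b, e⟩
  · exact Or.inl ⟨v', a, b, e.trans hv.2⟩
  · exact Or.inr ⟨q', a, b, e.trans hq.2⟩

theorem L3at.reg {c : ℂ} (h : L3at T c) (X : Set (Fin 6)) : Reg3 (tX T X) (tX T Xᶜ) c := by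
  intro v q q' hv hq hq' hne hu1 hu2
  exact h (v := v) (q := q) (q' := q') ⟨hv.1, hq.1, by rw [hv.2, hq.2]⟩
    ⟨hv.1, hq'.1, by rw [hv.2, hq'.2]⟩ hne (fun v' h5 h6 => hu1 v' ⟨h5, h6.trans hv.2⟩)
    (fun p h5 h6 => hu2 p ⟨h5, h6.trans hq.2⟩)

theorem Cp.tX (h : Cp T z v q) : tX T (T v) z v ∧ tX T (T v)ᶜ z q := ⟨⟨h.1, rfl⟩, h.2.1, h.2.2⟩

theorem Cp.symm (h : Cp T z v q) : Cp T z q v := ⟨h.2.1, h.1, by rw [h.2.2, compl_compl]⟩

/-- the rhombus centre -/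
theorem Cp.rh (h : Irr U T) (h4 : ∀ z, (T z).ncard ≤ 4) (hc : Cp T z v q) :
    Cp T (v + q - z) v q :=
  ⟨hc.1.rh h h4 hc.2.1 hc.2.2, hc.1.rh' h h4 hc.2.1 hc.2.2, hc.2.2⟩

/-- three different, pairwise adjacent owners of the hub `v` -/
def TriP (T : ℂ → Set (Fin 6)) (v c₁ c₂ c₃ : ℂ) : Prop :=
  Net0.Tri (tX T (T v)) (tX T (T v)ᶜ) v c₁ c₂ c₃

/-- no triangle of owners at the hub `v` -/
def NTP (T : ℂ → Set (Fin 6)) (v : ℂ) : Prop := ∀ c₁ c₂ c₃, ¬ TriP T v c₁ c₂ c₃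

theorem NTP.nt (h : NTP T v) (e : T v = X) : Net0.NT (tX T X) (tX T Xᶜ) v := by
  subst e
  exact h

/-- **Triangles.** Either `L3` fails at one of the owners, or `L2` fails at a centre at distance
one of one of the owners. -/
theorem tri_irr (h : Irr U T) (h4 : ∀ z, (T z).ncard ≤ 4) {c₁ c₂ c₃ : ℂ}
    (ht : TriP T v c₁ c₂ c₃) :
    (∃ c, (c = c₁ ∨ c = c₂ ∨ c = c₃) ∧ ¬ L3at T c) ∨
      ∃ c v' , (c = c₁ ∨ c = c₂ ∨ c = c₃) ∧ Dist.dist v' v ≤ 2 ∧ Dist.dist (v' + c - v) c ≤ 2 ∧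
        ¬ L2at T (v' + c - v) := by
  have N := net0_P h h4 (T v)
  have key : ∀ {a b c}, (a = c₁ ∨ a = c₂ ∨ a = c₃) → (b = c₁ ∨ b = c₂ ∨ b = c₃) →
      (c = c₁ ∨ c = c₂ ∨ c = c₃) → tX T (T v) a v →
      Net0.TriBad (tX T (T v)) (tX T (T v)ᶜ) v a b c →
      (∃ c, (c = c₁ ∨ c = c₂ ∨ c = c₃) ∧ ¬ L3at T c) ∨
      ∃ c v' , (c = c₁ ∨ c = c₂ ∨ c = c₃) ∧ Dist.dist v' v ≤ 2 ∧ Dist.dist (v' + c - v) c ≤ 2 ∧
        ¬ L2at T (v' + c - v) := by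
    rintro a b c ha hb hc ta (⟨-, -, h5 | h5⟩ | ⟨v₁, v₂, s1, -, -, -, -, -, h5, -⟩)
    · exact Or.inl ⟨a, ha, fun h6 => h5 (h6.reg _)⟩
    · exact Or.inl ⟨b, hb, fun h6 => h5 (h6.reg _)⟩
    · have d1 : Dist.dist v₁ v ≤ 2 := by
        have e1 := N.dist_t s1
        have e2 := N.dist_t ta
        calc Dist.dist v₁ v ≤ Dist.dist v₁ a + Dist.dist a v := dist_triangle _ _ _
          _ = 2 := by rw [e1, dist_comm a v, e2]; norm_num
      refine Or.inr ⟨c, v₁, hc, d1, ?_, fun h6 => h5 (h6.reg _)⟩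
      have : Dist.dist (v₁ + c - v) c = Dist.dist v₁ v := by
        rw [dist_eq_norm, dist_eq_norm]; congr 1; ring
      rw [this]; exact d1
  have i1 : c₁ = c₁ ∨ c₁ = c₂ ∨ c₁ = c₃ := Or.inl rfl
  have i2 : c₂ = c₁ ∨ c₂ = c₂ ∨ c₂ = c₃ := Or.inr (Or.inl rfl)
  have i3 : c₃ = c₁ ∨ c₃ = c₂ ∨ c₃ = c₃ := Or.inr (Or.inr rfl)
  rcases N.tri_bad ht with h5 | h5 | h5
  · exact key i1 i2 i3 ht.t1 h5
  · exact key i2 i3 i1 ht.t2 h5
  · exact key i1 i3 i2 ht.t1 h5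

/-- **The star.** `z` has the clean ends `v₁`, `v₂` of type `X` and `q₁`, `q₂` of type `Xᶜ`; no
triangles at `v₁` and at `q₁`: then the rhombus centre `v₁ + q₁ - z` has exactly one clean end of
each of the two types and violates `L2`. -/
theorem star22 (h : Irr U T) (h4 : ∀ z, (T z).ncard ≤ 4) {v₁ v₂ q₁ q₂ : ℂ}
    (a : Cp T z v₁ q₁) (b : Cp T z v₂ q₂) (e : T v₂ = T v₁) (hv : v₁ ≠ v₂) (hq : q₁ ≠ q₂)
    (nv : NTP T v₁) (nq : NTP T q₁) :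
    Cp T (v₁ + q₁ - z) v₁ q₁ ∧
      (∀ v', EE T (v₁ + q₁ - z) v' → T v' = T v₁ → v' = v₁) ∧
      (∀ q', EE T (v₁ + q₁ - z) q' → T q' = T q₁ → q' = q₁) ∧ ¬ L2at T (v₁ + q₁ - z) := by
  have N := net0_P h h4 (T v₁)
  have hb1 : tX T (T v₁) z v₂ := ⟨b.1, e⟩
  have hb2 : tX T (T v₁)ᶜ z q₂ := ⟨b.2.1, by rw [b.2.2, e]⟩
  have nq' : Net0.NT (tX T (T v₁)ᶜ) (tX T (T v₁)) q₁ := by
    have := nq.nt a.2.2
    rwa [compl_compl] at this
  obtain ⟨-, s1, s2⟩ := N.star (nv.nt rfl) nq' (Cp.tX a).1 hb1 (Cp.tX a).2 hb2 hv hq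
  refine ⟨Cp.rh h h4 a, fun v' h5 h6 => s1 v' ⟨h5, h6⟩, fun q' h5 h6 =>
    s2 q' ⟨h5, h6.trans a.2.2⟩, fun h5 => ?_⟩
  exact N.star_bad (nv.nt rfl) nq' (Cp.tX a).1 hb1 (Cp.tX a).2 hb2 hv hq (h5.reg _)

/-- **Irregular centres near a centre with two clean ends of each type**: one of the four rhombus
centres violates `L2` or `L3` (no hypothesis on triangles). -/
theorem star22_irr (h : Irr U T) (h4 : ∀ z, (T z).ncard ≤ 4) {v₁ v₂ q₁ q₂ : ℂ}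
    (a : Cp T z v₁ q₁) (b : Cp T z v₂ q₂) (e : T v₂ = T v₁) (hv : v₁ ≠ v₂) (hq : q₁ ≠ q₂) :
    (¬ L2at T (v₁ + q₁ - z) ∨ ¬ L3at T (v₁ + q₁ - z)) ∨
      (¬ L2at T (v₁ + q₂ - z) ∨ ¬ L3at T (v₁ + q₂ - z)) ∨
      (¬ L2at T (v₂ + q₁ - z) ∨ ¬ L3at T (v₂ + q₁ - z)) ∨
      ¬ L2at T (v₂ + q₂ - z) ∨ ¬ L3at T (v₂ + q₂ - z) := by
  have N := net0_P h h4 (T v₁)
  by_contra hcon
  push Not at hcon
  obtain ⟨⟨k11, m11⟩, ⟨k12, m12⟩, ⟨k21, m21⟩, k22, m22⟩ := hcon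
  have t1 := (Cp.tX a).1
  have c1 := (Cp.tX a).2
  have t2 : tX T (T v₁) z v₂ := ⟨b.1, e⟩
  have c2 : tX T (T v₁)ᶜ z q₂ := ⟨b.2.1, by rw [b.2.2, e]⟩
  -- no triangle at `v₁` containing `z`
  have key : ∀ {tE cE : ℂ → ℂ → Prop}, Net0 tE cE → ∀ {v₁ v₂ q₁ q₂ : ℂ}, tE z v₁ → tE z v₂ →
      cE z q₁ → cE z q₂ → v₁ ≠ v₂ → q₁ ≠ q₂ → Reg3 tE cE (v₁ + q₁ - z) →
      Reg3 tE cE (v₁ + q₂ - z) → Reg2 tE cE (v₂ + q₁ - z) → Reg2 tE cE (v₂ + q₂ - z) →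
      Net0.NT tE cE v₁ := by
    intro tE cE N v₁ v₂ q₁ q₂ t1 t2 c1 c2 hv hq g11 g12 g21 g22 d₁ d₂ d₃ ht
    have w1 := N.rh t1 c1
    have w2 := N.rh t1 c2
    have ow : ∀ {d}, tE d v₁ → (∃ p, cE d p) →
        d = z ∨ d = v₁ + q₁ - z ∨ d = v₁ + q₂ - z := fun h5 h6 => N.owners t1 c1 c2 hq h5 h6
    -- the third owner is adjacent to the second one
    have hadj : Net0.Adj tE cE v₁ (v₁ + q₁ - z) (v₁ + q₂ - z) := by
      have o1 := ow ht.t1 ⟨_, ht.a12.l⟩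
      have o2 := ow ht.t2 ⟨_, ht.a12.r⟩
      have o3 := ow ht.t3 ⟨_, ht.a13.r⟩
      have n12 := ht.n12
      have n13 := ht.n13
      have n23 := ht.n23
      have a12 := ht.a12
      have a13 := ht.a13
      have a23 := ht.a23
      rcases o1 with rfl | rfl | rfl <;> rcases o2 with rfl | rfl | rfl <;>
        rcases o3 with rfl | rfl | rfl <;>
        first
          | exact absurd rfl n12
          | exact absurd rfl n13
          | exact absurd rfl n23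
          | exact a12
          | exact a13
          | exact a23
          | exact a12.symm
          | exact a13.symm
          | exact a23.symm
    have ht' : Net0.Tri tE cE v₁ z (v₁ + q₁ - z) (v₁ + q₂ - z) :=
      ⟨t1, w1.1, w2.1, (N.ne_z t1 c1).symm, (N.ne_z t1 c2).symm,
        fun h => hq (by linear_combination h), N.adj_rh t1 c1, N.adj_rh t1 c2, hadj⟩
    by_cases o1 : ∃ v', v' ≠ v₁ ∧ tE (v₁ + q₁ - z) v'
    · obtain ⟨v', n', s'⟩ := o1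
      have := (N.aux_two ht' t2 hv.symm s' n').2
      rw [show v₂ + (z + (v₁ + q₂ - z) - v₁) - z = v₂ + q₂ - z by ring] at this
      exact this g22
    · by_cases o2 : ∃ v', v' ≠ v₁ ∧ tE (v₁ + q₂ - z) v'
      · obtain ⟨v', n', s'⟩ := o2
        have ht'' : Net0.Tri tE cE v₁ z (v₁ + q₂ - z) (v₁ + q₁ - z) := ht'.rot.rot.sw.rot.rot.sw.rot.rot.sw
        have := (N.aux_two ht'' t2 hv.symm s' n').2
        rw [show v₂ + (z + (v₁ + q₁ - z) - v₁) - z = v₂ + q₁ - z by ring] at this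
        exact this g21
      · push Not at o1 o2
        exact N.aux_one ht'.rot g11 g12 (fun v' h5 => by by_contra h6; exact o1 v' h6 h5)
          (fun v' h5 => by by_contra h6; exact o2 v' h6 h5)
  have sw2 : ∀ {c}, L2at T c → Reg2 (tX T (T v₁)ᶜ) (tX T (T v₁)) c := by
    intro c hc
    have := hc.reg (T v₁)ᶜ
    rwa [compl_compl] at this
  have sw3 : ∀ {c}, L3at T c → Reg3 (tX T (T v₁)ᶜ) (tX T (T v₁)) c := by
    intro c hc
    have := hc.reg (T v₁)ᶜ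
    rwa [compl_compl] at this
  have nv : Net0.NT (tX T (T v₁)) (tX T (T v₁)ᶜ) v₁ :=
    key N t1 t2 c1 c2 hv hq (L3at.reg m11 _) (L3at.reg m12 _) (L2at.reg k21 _) (L2at.reg k22 _)
  have nq : Net0.NT (tX T (T v₁)ᶜ) (tX T (T v₁)) q₁ := by
    refine key N.swap c1 c2 t1 t2 hq hv ?_ ?_ ?_ ?_
    · rw [show q₁ + v₁ - z = v₁ + q₁ - z by ring]; exact sw3 m11
    · rw [show q₁ + v₂ - z = v₂ + q₁ - z by ring]; exact sw3 m21
    · rw [show q₂ + v₁ - z = v₁ + q₂ - z by ring]; exact sw2 k12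
    · rw [show q₂ + v₂ - z = v₂ + q₂ - z by ring]; exact sw2 k22
  exact N.star_bad nv nq t1 t2 c1 c2 hv hq (L2at.reg k11 _)

end Vale.Agent.P032.H183
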