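import Vale.Agent.P032.H183.HubW

/-!
# P032: ties at a hub, wild frame

`P = pt z p` a three-coloured point of `S(z)`, exact arc on the side `s`, run of the third colour on the
other side.

* `HubW.tie` : two antipodal complementary points are impossible;
* `HubW.three` : at most two corners at one hub (three are impossible);
* `HubW.solid_in`, `solid_out` : the half branches of every circle through `P` with the third colour;
* `no_pinch` : exact arcs on both sides of a three-coloured point exclude every complementary point.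
-/

open Set Filter Topology Metric

noncomputable section

namespace Vale.Agent.P032.H183

open Vale.Agent.P032.Six Vale.Agent.P032.Words Vale.Agent.P032.S5.H767 Vale.Agent.P032.H892

variable {U : Fin 6 → Set ℂ} {T : ℂ → Set (Fin 6)}

/-- the points of a circle near the hub are far from the centre of the tangent circle -/
theorem far_anti (V : ℂ) {q τ σ : ℝ} (hσ : σ = 1 ∨ σ = -1) (h0 : 0 < τ) (h1 : τ < 1) :
    1 < dist (pt (pt V q) (q + 3 - σ * τ)) (pt V (q + 3)) := by
  have e : pt (pt V q) (q + 3 - σ * τ) - pt V (q + 3) =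
      2 * cis (q * (Real.pi / 3)) - cis ((q - σ * τ) * (Real.pi / 3)) := by
    have e1 : cis ((q + 3 - σ * τ) * (Real.pi / 3)) = -cis ((q - σ * τ) * (Real.pi / 3)) := by
      apply Complex.ext
      · rw [cis_re, Complex.neg_re, cis_re, ← Real.cos_add_pi]; ring_nf
      · rw [cis_im, Complex.neg_im, cis_im, ← Real.sin_add_pi]; ring_nf
    have e2 : cis ((q + 3) * (Real.pi / 3)) = -cis (q * (Real.pi / 3)) := by
      apply Complex.ext
      · rw [cis_re, Complex.neg_re, cis_re, ← Real.cos_add_pi]; ring_nf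
      · rw [cis_im, Complex.neg_im, cis_im, ← Real.sin_add_pi]; ring_nf
    unfold pt
    rw [e1, e2]; ring
  have hlt : Real.cos (τ * (Real.pi / 3)) < 1 := by
    have h2 := Real.cos_lt_cos_of_nonneg_of_le_pi_div_two (x := 0) (y := τ * (Real.pi / 3)) le_rfl
      (by nlinarith [Real.pi_pos]) (by positivity)
    rwa [Real.cos_zero] at h2
  have hc : Real.cos (q * (Real.pi / 3)) * Real.cos ((q - σ * τ) * (Real.pi / 3)) +
      Real.sin (q * (Real.pi / 3)) * Real.sin ((q - σ * τ) * (Real.pi / 3)) = Real.cos (τ * (Real.pi / 3)) := by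
    rw [← Real.cos_sub]
    rcases hσ with rfl | rfl
    · congr 1; ring
    · rw [← Real.cos_neg (τ * (Real.pi / 3))]; congr 1; ring
  have h3 : ‖pt (pt V q) (q + 3 - σ * τ) - pt V (q + 3)‖ ^ 2 = 5 - 4 * Real.cos (τ * (Real.pi / 3)) := by
    rw [e, Complex.sq_norm, Complex.normSq_apply]
    simp only [Complex.sub_re, Complex.sub_im, Complex.mul_re, Complex.mul_im, cis_re, cis_im,
      Complex.re_ofNat, Complex.im_ofNat]
    have a1 := Real.sin_sq_add_cos_sq (q * (Real.pi / 3))
    have a2 := Real.sin_sq_add_cos_sq ((q - σ * τ) * (Real.pi / 3))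
    nlinarith [a1, a2, hc]
  rw [dist_eq_norm]
  have h4 := norm_nonneg (pt (pt V q) (q + 3 - σ * τ) - pt V (q + 3))
  nlinarith

/-- two solid one-sided arcs through one point -/
theorem two_arcs (h : Irr U T) {C C' P t : ℂ} {p s p' s' : ℝ} {i : Fin 6} (e : pt C p = P) (e' : pt C' p' = P)
    (h1 : ∀ᶠ r in 𝓝[>] (0 : ℝ), i ∈ T (pt C (p + s * r))) (h2 : ∀ᶠ r in 𝓝[>] (0 : ℝ), i ∈ T (pt C' (p' + s' * r)))
    (ht : i ∈ T t) (h3 : ∃ᶠ r in 𝓝[>] (0 : ℝ), dist (pt C (p + s * r)) t < 1)
    (h4 : ∃ᶠ r in 𝓝[>] (0 : ℝ), 1 < dist (pt C' (p' + s' * r)) t) : False := by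
  obtain ⟨δ, hδ, hJ⟩ := exists_arc h h1
  obtain ⟨δ', hδ', hJ'⟩ := exists_arc h h2
  have hsm : ∀ ε : ℝ, 0 < ε → ∀ᶠ r in 𝓝[>] (0 : ℝ), 0 < r ∧ r < ε := fun ε hε => by
    filter_upwards [self_mem_nhdsWithin, mem_nhdsWithin_of_mem_nhds (Iio_mem_nhds hε)] with r a b using ⟨a, b⟩
  obtain ⟨r, hr, hr1, hr2⟩ := (h3.and_eventually (hsm δ hδ)).exists
  obtain ⟨r', hr', hr1', hr2'⟩ := (h4.and_eventually (hsm δ' hδ')).exists
  have hc : IsPreconnected (((fun t : ℝ => pt C (p + s * t)) '' Icc 0 r) ∪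
      ((fun t : ℝ => pt C' (p' + s' * t)) '' Icc 0 r')) := by
    refine IsPreconnected.union P ⟨0, ⟨le_rfl, hr1.le⟩, by simp [e]⟩ ⟨0, ⟨le_rfl, hr1'.le⟩, by simp [e']⟩ ?_ ?_
    · exact isPreconnected_Icc.image _ ((continuous_pt C).comp (by fun_prop)).continuousOn
    · exact isPreconnected_Icc.image _ ((continuous_pt C').comp (by fun_prop)).continuousOn
  refine crossing h hc (i := i) ?_ ht (p := pt C (p + s * r)) (q := pt C' (p' + s' * r'))
    (Or.inl ⟨r, ⟨hr1.le, le_rfl⟩, rfl⟩) (Or.inr ⟨r', ⟨hr1'.le, le_rfl⟩, rfl⟩) hr hr'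
  rintro _ (⟨u, hu, rfl⟩ | ⟨u, hu, rfl⟩)
  · exact hJ u hu.1 (lt_of_le_of_lt hu.2 hr2)
  · exact hJ' u hu.1 (lt_of_le_of_lt hu.2 hr2')

namespace HubW

variable {z : ℂ} {p s : ℝ} {i o x : Fin 6}

/-- a circle through the hub with the third colour: the branch inside `D(z)` is solid in the inner colour -/
theorem solid_in (H : HubW U T z p s i o x) {w : ℂ} (hx : x ∈ Pal U w) :
    ∀ᶠ y in 𝓝 (pt z p), dist y w = 1 → dist y z < 1 → i ∈ T y := by
  filter_upwards [H.sd, H.irr.nhd (pt z p)] with y h1 h2 h3 h4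
  have heU : y ∉ U x := H.irr.mx.notMem hx h3
  by_contra ha
  refine heU (H.irr.mem_of_single fun j hj => ?_)
  have := h2 hj
  rw [H.pal] at this
  rcases this with rfl | rfl | h6
  · exact absurd hj ha
  · exact absurd (H.irr.sub _ hj) (h1.2 h4)
  · exact h6

/-- the branch outside is solid in the outer colour -/
theorem solid_out (H : HubW U T z p s i o x) {w : ℂ} (hx : x ∈ Pal U w) :
    ∀ᶠ y in 𝓝 (pt z p), dist y w = 1 → 1 < dist y z → o ∈ T y := by
  filter_upwards [H.sd, H.irr.nhd (pt z p)] with y h1 h2 h3 h4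
  have heU : y ∉ U x := H.irr.mx.notMem hx h3
  by_contra ha
  refine heU (H.irr.mem_of_single fun j hj => ?_)
  have := h2 hj
  rw [H.pal] at this
  rcases this with rfl | rfl | h6
  · exact absurd (H.irr.sub _ hj) (h1.1 h4)
  · exact absurd hj ha
  · exact h6

/-- the exact branch of the circle about a corner, as a one-sided arc -/
theorem exists_branch (H : HubW U T z p s i o x) {l q : ℝ} (K : CorW U T z p s i o x l q) :
    ∃ σ : ℝ, (σ = 1 ∨ σ = -1) ∧ ∀ᶠ τ in 𝓝[>] (0 : ℝ), x ∈ T (pt (pt (pt z p) q) (q + 3 - σ * τ)) := by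
  have hxw := H.irr.sub _ (H.xw K)
  have hne : Real.sin ((q - p) * (Real.pi / 3)) ≠ 0 := by
    obtain ⟨h1, h2, h3⟩ := K.rel
    have hsr := Hub.sin_rel (p := p) H.sg (l := l) (q := q) ⟨h1, h2⟩
    intro h0
    rcases h3 with h3 | h3
    · have := hsr.1 h3; rw [h0, mul_zero] at this; exact lt_irrefl _ this
    · have := hsr.2 h3; rw [h0, mul_zero] at this; exact lt_irrefl _ this
  rcases K.io with hi | ho
  · rcases lt_or_gt_of_ne hne with h0 | h0
    · exact ⟨-1, Or.inr rfl, (H.exact_in (Or.inr rfl) (by linarith) (H.irr.sub _ hi) hxw).mono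
        fun τ h6 => by rw [h6]; simp⟩
    · exact ⟨1, Or.inl rfl, (H.exact_in (Or.inl rfl) (by linarith) (H.irr.sub _ hi) hxw).mono
        fun τ h6 => by rw [h6]; simp⟩
  · rcases lt_or_gt_of_ne hne with h0 | h0
    · exact ⟨1, Or.inl rfl, (H.exact_out (Or.inl rfl) (by linarith) (H.irr.sub _ ho) hxw).mono
        fun τ h6 => by rw [h6]; simp⟩
    · exact ⟨-1, Or.inr rfl, (H.exact_out (Or.inr rfl) (by linarith) (H.irr.sub _ ho) hxw).mono
        fun τ h6 => by rw [h6]; simp⟩

/-- core of the tie rule: `w` is far from the run, the antipodal corner is near -/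
theorem tie_core (H : HubW U T z p s i o x) (hrun : ∀ᶠ r in 𝓝[>] (0 : ℝ), x ∈ T (pt z (p - s * r)))
    {l q l' q' : ℝ} (K : CorW U T z p s i o x l q) (K' : CorW U T z p s i o x l' q')
    (hpos : 0 < s * Real.sin ((q - p) * (Real.pi / 3)))
    (e : ∀ X : ℂ, pt X q' = pt X (q + 3)) : False := by
  obtain ⟨σ, hσ, hbr⟩ := H.exists_branch K
  have e1 : pt (pt (pt z p) q) (q + 3) = pt z p := by rw [pt_three]; unfold pt; ring
  have hxw' := H.xw K'
  rw [e] at hxw'
  refine two_arcs H.irr (C := z) (C' := pt (pt z p) q) (P := pt z p) (t := pt (pt z p) (q + 3)) (p := p) (s := -s)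
    (p' := q + 3) (s' := -σ) rfl e1 (i := x) ?_ ?_ hxw' ?_ ?_
  · refine hrun.mono fun r hr => ?_
    rwa [show p + -s * r = p - s * r by ring]
  · refine hbr.mono fun r hr => ?_
    rwa [show q + 3 + -σ * r = q + 3 - σ * r by ring]
  · have h1 : s * Real.sin ((q + 3 - p) * (Real.pi / 3)) < 0 := by
      rw [show (q + 3 - p) * (Real.pi / 3) = (q - p) * (Real.pi / 3) + Real.pi by ring, Real.sin_add_pi]
      linarith
    refine (((ev_neg z H.sg h1).2).mono fun r hr => ?_).frequently
    rwa [show p + -s * r = p - s * r by ring]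
  · refine Eventually.frequently ?_
    filter_upwards [self_mem_nhdsWithin, mem_nhdsWithin_of_mem_nhds (Iio_mem_nhds (show (0 : ℝ) < 1 by norm_num))]
      with r a b
    rw [show q + 3 + -σ * r = q + 3 - σ * r by ring]
    exact far_anti _ hσ a b

/-- **Tie rule.** Two antipodal complementary points are impossible. -/
theorem tie (H : HubW U T z p s i o x) (hrun : ∀ᶠ r in 𝓝[>] (0 : ℝ), x ∈ T (pt z (p - s * r)))
    {l q l' q' : ℝ} (K : CorW U T z p s i o x l q) (K' : CorW U T z p s i o x l' q')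
    (e : ∀ X : ℂ, pt X q' = pt X (q + 3)) : False := by
  have e' : ∀ X : ℂ, pt X q = pt X (q' + 3) := by
    intro X
    rw [pt_three, e, pt_three]; ring
  have hsr := Hub.sin_rel (p := p) H.sg (l := l) (q := q) ⟨K.rel.1, K.rel.2.1⟩
  have hsr' := Hub.sin_rel (p := p) H.sg (l := l') (q := q') ⟨K'.rel.1, K'.rel.2.1⟩
  rcases K.rel.2.2 with h1 | h1
  · exact H.tie_core hrun K K' (hsr.1 h1) e
  · rcases K'.rel.2.2 with h2 | h2
    · exact H.tie_core hrun K' K (hsr'.1 h2) e'
    · -- both on the same side: contradiction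
      have a1 := hsr.2 h1
      have a2 := hsr'.2 h2
      have e3 := e 0
      have e4 : Real.sin (q' * (Real.pi / 3)) = -Real.sin (q * (Real.pi / 3)) := by
        have := congrArg Complex.im e3
        unfold pt at this
        rw [zero_add, zero_add, cis_im, cis_im] at this
        rw [this, ← Real.sin_add_pi]; ring_nf
      have e5 : Real.cos (q' * (Real.pi / 3)) = -Real.cos (q * (Real.pi / 3)) := by
        have := congrArg Complex.re e3
        unfold pt at this
        rw [zero_add, zero_add, cis_re, cis_re] at this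
        rw [this, ← Real.cos_add_pi]; ring_nf
      have e6 : Real.sin ((q' - p) * (Real.pi / 3)) = -Real.sin ((q - p) * (Real.pi / 3)) := by
        rw [show (q' - p) * (Real.pi / 3) = q' * (Real.pi / 3) - p * (Real.pi / 3) by ring,
          show (q - p) * (Real.pi / 3) = q * (Real.pi / 3) - p * (Real.pi / 3) by ring,
          Real.sin_sub, Real.sin_sub, e4, e5]
        ring
      rw [e6] at a2
      linarith

/-- **At most two corners at one hub.** -/
theorem three (H : HubW U T z p s i o x) (hrun : ∀ᶠ r in 𝓝[>] (0 : ℝ), x ∈ T (pt z (p - s * r)))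
    {l₁ l₂ l₃ q₁ q₂ q₃ : ℝ} (K₁ : CorW U T z p s i o x l₁ q₁)
    (K₂ : CorW U T z p s i o x l₂ q₂) (K₃ : CorW U T z p s i o x l₃ q₃)
    (h12 : q₁ ≠ q₂) (h13 : q₁ ≠ q₃) (h23 : q₂ ≠ q₃) : False := by
  -- equal lines are antipodal
  have key : ∀ {l q l' q' : ℝ}, CorW U T z p s i o x l q → CorW U T z p s i o x l' q' → q ≠ q' → l ≠ l' := by
    intro l q l' q' K K' hq hl
    subst hl
    have hanti : q' = q + 3 ∨ q' + 6 = q + 3 := by
      rcases K.rel.2.2 with h1 | h1 <;> rcases K'.rel.2.2 with h2 | h2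
      · exact absurd (h1.trans h2.symm) hq
      · rcases H.sg with hs | hs
        · right; rw [h1, h2, hs]; ring
        · left; rw [h1, h2, hs]; ring
      · rcases H.sg with hs | hs
        · left; rw [h1, h2, hs]; ring
        · right; rw [h1, h2, hs]; ring
      · exact absurd (h1.trans h2.symm) hq
    refine H.tie hrun K K' fun X => ?_
    rcases hanti with h3 | h3
    · rw [h3]
    · rw [← h3, show q' + 6 = q' + 6 * ((1 : ℤ) : ℝ) by push_cast; ring, pt_per]
  have a12 := key K₁ K₂ h12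
  have a13 := key K₁ K₃ h13
  have a23 := key K₂ K₃ h23
  rcases lt_or_gt_of_ne a12 with b | b <;> rcases lt_or_gt_of_ne a13 with c | c <;>
    rcases lt_or_gt_of_ne a23 with d | d
  · exact H.lines K₁ K₂ K₃ b d
  · exact H.lines K₁ K₃ K₂ c d
  · linarith
  · exact H.lines K₃ K₁ K₂ c b
  · exact H.lines K₂ K₁ K₃ b c
  · linarith
  · exact H.lines K₂ K₃ K₁ d c
  · exact H.lines K₃ K₂ K₁ d b

end HubW

/-- **No pinch**: exact `ab` arcs on both sides of a three-coloured point exclude every complementary point. -/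
theorem no_pinch (h : Irr U T) {z : ℂ} {p q : ℝ} {a b c d x y : Fin 6} (hz : DPt T z a b c d)
    (nd : [a, b, c, d, x, y].Nodup) (hP : T (pt z p) = {a, b, x}) (hQ : T (pt z q) = {c, d, y})
    (h1 : ∀ᶠ r in 𝓝[>] (0 : ℝ), T (pt z (p + r)) = {a, b}) (h2 : ∀ᶠ r in 𝓝[>] (0 : ℝ), T (pt z (p - r)) = {a, b}) :
    False := by
  have nd' := nd
  simp only [List.nodup_cons, List.mem_cons, List.not_mem_nil, or_false, not_or, List.nodup_nil,
    and_true, not_false_eq_true] at nd'
  obtain ⟨⟨-, -, -, ix, iy⟩, ⟨-, -, ox, oy⟩, ⟨-, cx, cy⟩, ⟨dx, dy⟩, xy⟩ := nd'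
  have C : Cfg T z (pt z p) (pt z q) a b c d x y := ⟨hz, dist_pt _ _, dist_pt _ _, hP, hQ, by
    rw [hz.pal]; simp only [mem_insert_iff, mem_singleton_iff, not_or]
    exact ⟨Ne.symm ix, Ne.symm ox, Ne.symm cx, Ne.symm dx⟩, by
    rw [hz.pal]; simp only [mem_insert_iff, mem_singleton_iff, not_or]
    exact ⟨Ne.symm iy, Ne.symm oy, Ne.symm cy, Ne.symm dy⟩, xy⟩
  have hsin : Real.sin ((q - p) * (Real.pi / 3)) ≠ 0 := by
    intro h0
    have hcr : cr (pt z p - z) (pt z q - z) = 0 := by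
      unfold cr pt
      simp only [add_sub_cancel_left, cis_re, cis_im]
      have e : Real.sin ((q - p) * (Real.pi / 3)) =
          Real.sin (q * (Real.pi / 3)) * Real.cos (p * (Real.pi / 3)) -
            Real.cos (q * (Real.pi / 3)) * Real.sin (p * (Real.pi / 3)) := by
        rw [← Real.sin_sub]; ring_nf
      rw [e] at h0
      linarith
    exact cr_ne_of (dist_pt z p) (dist_pt z q) C.VQ (C.anti h) hcr
  -- the two hubs
  obtain ⟨i, o, ni, H1, H2⟩ : ∃ i o : Fin 6, [i, o, c, d, x, y].Nodup ∧ HubW U T z p 1 i o x ∧ HubW U T z p (-1) i o x := by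
    rcases h.sides hz (dist_pt z p) with h3 | h3
    · exact ⟨a, b, nd, ⟨h, Or.inl rfl, hP, h3, h1.mono fun r hr => by rwa [one_mul]⟩,
        ⟨h, Or.inr rfl, hP, h3, h2.mono fun r hr => by rwa [show p + -1 * r = p - r by ring]⟩⟩
    · have hP' : T (pt z p) = {b, a, x} := by
        rw [hP]; ext i; simp only [mem_insert_iff, mem_singleton_iff]; tauto
      have nd2 : [b, a, c, d, x, y].Nodup := by
        have := nd
        simp only [List.nodup_cons, List.mem_cons, List.not_mem_nil, or_false, not_or, List.nodup_nil,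
          and_true, not_false_eq_true] at this ⊢
        obtain ⟨⟨b1, b2, b3, b4, b5⟩, b6⟩ := this
        exact ⟨⟨Ne.symm b1, b6.1.1, b6.1.2.1, b6.1.2.2.1, b6.1.2.2.2⟩, ⟨b2, b3, b4, b5⟩, b6.2⟩
      exact ⟨b, a, nd2, ⟨h, Or.inl rfl, hP', h3, h1.mono fun r hr => by rw [one_mul, hr, pair_comm]⟩,
        ⟨h, Or.inr rfl, hP', h3, h2.mono fun r hr => by rw [show p + -1 * r = p - r by ring, hr, pair_comm]⟩⟩
  have s1 := H1.sol_of ni hQ hsin
  have s2 := H2.sol_of ni hQ hsin
  -- the third colour is on both sides of the corner on `S(Q)`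
  have e0 : pt (pt (pt z q) p) (q + 3) = pt z p := by rw [← pt_comm, pt_three]; unfold pt; ring
  have hxP : x ∈ T (pt (pt (pt z q) p) (q + 3)) := by rw [e0, hP]; simp
  have hsin' : Real.sin ((q + 3 - p) * (Real.pi / 3)) ≠ 0 := by
    rw [show (q + 3 - p) * (Real.pi / 3) = (q - p) * (Real.pi / 3) + Real.pi by ring, Real.sin_add_pi]
    exact neg_ne_zero.2 hsin
  rcases lt_or_gt_of_ne hsin' with h3 | h3
  · -- near on the side `-1`
    have h4 := ev_neg (pt z q) (p := p) (q := q + 3) (s := 1) (Or.inl rfl) (by linarith)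
    refine two_arcs h (C := pt z q) (C' := pt z q) (P := pt (pt z q) p) (t := pt (pt (pt z q) p) (q + 3))
      (p := p) (s := -1) (p' := p) (s' := 1) rfl rfl s2 s1 hxP ?_ ?_
    · refine (h4.2.mono fun r hr => ?_).frequently
      rwa [show p + -1 * r = p - 1 * r by ring]
    · exact h4.1.frequently
  · have h4 := ev_pos (pt z q) (p := p) (q := q + 3) (s := 1) (Or.inl rfl) (by linarith)
    refine two_arcs h (C := pt z q) (C' := pt z q) (P := pt (pt z q) p) (t := pt (pt (pt z q) p) (q + 3))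
      (p := p) (s := 1) (p' := p) (s' := -1) rfl rfl s1 s2 hxP ?_ ?_
    · exact h4.1.frequently
    · refine (h4.2.mono fun r hr => ?_).frequently
      rwa [show p + -1 * r = p - 1 * r by ring]

end Vale.Agent.P032.H183
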